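import Mathlib

/-! Sobolev-type classes in a ring with two commuting derivations. -/

set_option autoImplicit false

namespace Crest.Agent.R220

open Finset

/-- two commuting derivations -/
structure DP (R : Type) [CommRing R] [Algebra ℝ R] where
  d1 : Derivation ℝ R R
  d2 : Derivation ℝ R R
  comm : ∀ f, d1 (d2 f) = d2 (d1 f)

/-- "bounded" and "square integrable" -/
structure Cls (R : Type) [CommRing R] [Algebra ℝ R] where
  U : Subalgebra ℝ R
  L : Submodule ℝ R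
  mul : ∀ {f g}, f ∈ U → g ∈ L → f * g ∈ L
  le : ∀ {f}, f ∈ U → f ∈ L

variable {R : Type} [CommRing R] [Algebra ℝ R]

lemma der_mul (d : Derivation ℝ R R) (f g : R) : d (f * g) = d f * g + f * d g := by
  rw [Derivation.leibniz, smul_eq_mul, smul_eq_mul]; ring

lemma iter_add (d : Derivation ℝ R R) (n : ℕ) (f g : R) : d^[n] (f + g) = d^[n] f + d^[n] g :=
  iterate_map_add d n f g

lemma iter_neg (d : Derivation ℝ R R) (n : ℕ) (f : R) : d^[n] (-f) = -d^[n] f :=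
  iterate_map_neg d n f

lemma iter_sub (d : Derivation ℝ R R) (n : ℕ) (f g : R) : d^[n] (f - g) = d^[n] f - d^[n] g :=
  iterate_map_sub d n f g

lemma iter_mul (d : Derivation ℝ R R) (n : ℕ) (f g : R) :
    d^[n] (f * g) = ∑ i ∈ range (n + 1), (n.choose i : R) * (d^[i] f * d^[n - i] g) := by
  induction n with
  | zero => simp
  | succ n ih =>
    rw [Function.iterate_succ_apply', ih, map_sum,
      Finset.sum_choose_succ_mul (fun i l => d^[i] f * d^[l] g), ← sum_add_distrib]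
    refine sum_congr rfl fun i hi => ?_
    have hi' : n + 1 - i = n - i + 1 := by have := mem_range.1 hi; omega
    rw [der_mul, der_mul, Derivation.map_natCast, hi', Function.iterate_succ_apply',
      Function.iterate_succ_apply']
    ring

namespace DP
variable (D : DP R)

/-- all derivatives of order at most `n` lie in `S` -/
def W (S : Submodule ℝ R) : ℕ → Submodule ℝ R
  | 0 => S
  | n + 1 => S ⊓ (W S n).comap D.d1.toLinearMap ⊓ (W S n).comap D.d2.toLinearMap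

variable {D} {S S' : Submodule ℝ R} {f g : R} {n m : ℕ}

lemma mem_succ : f ∈ D.W S (n + 1) ↔ f ∈ S ∧ D.d1 f ∈ D.W S n ∧ D.d2 f ∈ D.W S n := by
  simp [W, and_assoc]

lemma W_base (h : f ∈ D.W S n) : f ∈ S := by
  cases n with
  | zero => exact h
  | succ n => exact (mem_succ.1 h).1

lemma W_d1 (h : f ∈ D.W S (n + 1)) : D.d1 f ∈ D.W S n := (mem_succ.1 h).2.1
lemma W_d2 (h : f ∈ D.W S (n + 1)) : D.d2 f ∈ D.W S n := (mem_succ.1 h).2.2

lemma W_pred (h : f ∈ D.W S (n + 1)) : f ∈ D.W S n := by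
  induction n generalizing f with
  | zero => exact W_base h
  | succ n ih => exact mem_succ.2 ⟨W_base h, ih (W_d1 h), ih (W_d2 h)⟩

lemma W_le (h : f ∈ D.W S n) (hm : m ≤ n) : f ∈ D.W S m := by
  induction hm with
  | refl => exact h
  | step _ ih => exact ih (W_pred h)

lemma W_mono (hS : ∀ f ∈ S, f ∈ S') (h : f ∈ D.W S n) : f ∈ D.W S' n := by
  induction n generalizing f with
  | zero => exact hS f h
  | succ n ih => exact mem_succ.2 ⟨hS f (W_base h), ih (W_d1 h), ih (W_d2 h)⟩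

lemma W_iter1 (a : ℕ) (h : f ∈ D.W S (n + a)) : D.d1^[a] f ∈ D.W S n := by
  induction a generalizing f with
  | zero => exact h
  | succ a ih => exact ih (W_d1 h)

lemma W_iter2 (a : ℕ) (h : f ∈ D.W S (n + a)) : D.d2^[a] f ∈ D.W S n := by
  induction a generalizing f with
  | zero => exact h
  | succ a ih => exact ih (W_d2 h)

lemma comm_iter (a : ℕ) (f : R) : D.d2 (D.d1^[a] f) = D.d1^[a] (D.d2 f) :=
  (Function.Commute.iterate_right (fun f => (D.comm f).symm) a) f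

lemma comm_iter' (a : ℕ) (f : R) : D.d1 (D.d2^[a] f) = D.d2^[a] (D.d1 f) :=
  (Function.Commute.iterate_right D.comm a) f

lemma mem_W_iff : f ∈ D.W S n ↔ ∀ a b, a + b ≤ n → D.d1^[a] (D.d2^[b] f) ∈ S := by
  constructor
  · intro h a b hab
    exact W_base (n := 0) (W_iter1 a (W_iter2 b (W_le h (by omega))))
  · intro h
    induction n generalizing f with
    | zero => exact h 0 0 le_rfl
    | succ n ih =>
      refine mem_succ.2 ⟨h 0 0 (by omega), ih fun a b hab => ?_, ih fun a b hab => ?_⟩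
      · rw [← comm_iter', ← Function.iterate_succ_apply]
        exact h (a + 1) b (by omega)
      · rw [← Function.iterate_succ_apply]
        exact h a (b + 1) (by omega)

lemma W_const (h : f ∈ S) (h1 : D.d1 f = 0) (h2 : D.d2 f = 0) (n : ℕ) : f ∈ D.W S n := by
  cases n with
  | zero => exact h
  | succ n => exact mem_succ.2 ⟨h, h1 ▸ zero_mem _, h2 ▸ zero_mem _⟩

lemma W_mul {T : Submodule ℝ R} (hS : ∀ f ∈ T, ∀ g ∈ S, f * g ∈ S) (hf : f ∈ D.W T n)
    (hg : g ∈ D.W S n) : f * g ∈ D.W S n := by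
  induction n generalizing f g with
  | zero => exact hS f hf g hg
  | succ n ih =>
    refine mem_succ.2 ⟨hS f (W_base hf) g (W_base hg), ?_, ?_⟩ <;> rw [der_mul]
    · exact add_mem (ih (W_d1 hf) (W_pred hg)) (ih (W_pred hf) (W_d1 hg))
    · exact add_mem (ih (W_d2 hf) (W_pred hg)) (ih (W_pred hf) (W_d2 hg))

/-- change of the pair of derivations -/
lemma transfer {T : Submodule ℝ R} (hS : ∀ f ∈ T, ∀ g ∈ S, f * g ∈ S) (e : DP R)
    {a₁ b₁ a₂ b₂ : R} (h1 : ∀ f, e.d1 f = a₁ * D.d1 f + b₁ * D.d2 f)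
    (h2 : ∀ f, e.d2 f = a₂ * D.d1 f + b₂ * D.d2 f) {N : ℕ} (ha₁ : a₁ ∈ D.W T N)
    (hb₁ : b₁ ∈ D.W T N) (ha₂ : a₂ ∈ D.W T N) (hb₂ : b₂ ∈ D.W T N) (hn : n ≤ N + 1)
    (hf : f ∈ D.W S n) : f ∈ e.W S n := by
  induction n generalizing f with
  | zero => exact hf
  | succ n ih =>
    have hn' : n ≤ N := by omega
    refine mem_succ.2 ⟨W_base hf, ih (by omega) ?_, ih (by omega) ?_⟩
    · rw [h1]
      exact add_mem (W_mul hS (W_le ha₁ hn') (W_d1 hf)) (W_mul hS (W_le hb₁ hn') (W_d2 hf))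
    · rw [h2]
      exact add_mem (W_mul hS (W_le ha₂ hn') (W_d1 hf)) (W_mul hS (W_le hb₂ hn') (W_d2 hf))

variable (D) (C : Cls R)

/-- bounded derivatives up to order `n` -/
def U (n : ℕ) : Subalgebra ℝ R where
  carrier := D.W C.U.toSubmodule n
  mul_mem' := fun hf hg => W_mul (fun _ h _ h' => C.U.mul_mem h h') hf hg
  add_mem' := fun hf hg => add_mem hf hg
  algebraMap_mem' := fun c => W_const (C.U.algebraMap_mem c) (by simp) (by simp) n

/-- square integrable derivatives up to order `n` -/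
def L (n : ℕ) : Submodule ℝ R := D.W C.L n

variable {D C}

lemma mem_U : f ∈ D.U C n ↔ f ∈ D.W C.U.toSubmodule n := Iff.rfl
lemma U_succ : f ∈ D.U C (n + 1) ↔ f ∈ C.U ∧ D.d1 f ∈ D.U C n ∧ D.d2 f ∈ D.U C n := mem_succ
lemma L_succ : f ∈ D.L C (n + 1) ↔ f ∈ C.L ∧ D.d1 f ∈ D.L C n ∧ D.d2 f ∈ D.L C n := mem_succ
lemma U_base (h : f ∈ D.U C n) : f ∈ C.U := W_base (S := C.U.toSubmodule) h
lemma L_base (h : f ∈ D.L C n) : f ∈ C.L := W_base h
lemma U_d1 (h : f ∈ D.U C (n + 1)) : D.d1 f ∈ D.U C n := W_d1 h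
lemma U_d2 (h : f ∈ D.U C (n + 1)) : D.d2 f ∈ D.U C n := W_d2 h
lemma L_d1 (h : f ∈ D.L C (n + 1)) : D.d1 f ∈ D.L C n := W_d1 h
lemma L_d2 (h : f ∈ D.L C (n + 1)) : D.d2 f ∈ D.L C n := W_d2 h
lemma U_le (h : f ∈ D.U C n) (hm : m ≤ n) : f ∈ D.U C m := W_le h hm
lemma L_le (h : f ∈ D.L C n) (hm : m ≤ n) : f ∈ D.L C m := W_le h hm
lemma L_of_U (h : f ∈ D.U C n) : f ∈ D.L C n := W_mono (fun _ h => C.le h) h
lemma U_mul_L (hf : f ∈ D.U C n) (hg : g ∈ D.L C n) : f * g ∈ D.L C n :=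
  W_mul (T := C.U.toSubmodule) (fun _ h _ h' => C.mul h h') hf hg

/-- compatibility of the orders `i` and `l` for a product -/
def Ok (D : DP R) (C : Cls R) (f g : R) (i l : ℕ) : Prop :=
  (f ∈ D.L C i ∧ g ∈ D.U C l) ∨ (f ∈ D.U C i ∧ g ∈ D.L C l)

lemma Ok.base {i l : ℕ} (h : Ok D C f g i l) : f * g ∈ C.L := by
  rcases h with h | h
  · rw [mul_comm]; exact C.mul (U_base h.2) (L_base h.1)
  · exact C.mul (U_base h.1) (L_base h.2)

lemma Ok.l1 {i l : ℕ} (h : Ok D C f g (i + 1) l) : Ok D C (D.d1 f) g i l :=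
  h.imp (fun h => ⟨L_d1 h.1, h.2⟩) fun h => ⟨U_d1 h.1, h.2⟩
lemma Ok.l2 {i l : ℕ} (h : Ok D C f g (i + 1) l) : Ok D C (D.d2 f) g i l :=
  h.imp (fun h => ⟨L_d2 h.1, h.2⟩) fun h => ⟨U_d2 h.1, h.2⟩
lemma Ok.r1 {i l : ℕ} (h : Ok D C f g i (l + 1)) : Ok D C f (D.d1 g) i l :=
  h.imp (fun h => ⟨h.1, U_d1 h.2⟩) fun h => ⟨h.1, L_d1 h.2⟩
lemma Ok.r2 {i l : ℕ} (h : Ok D C f g i (l + 1)) : Ok D C f (D.d2 g) i l :=
  h.imp (fun h => ⟨h.1, U_d2 h.2⟩) fun h => ⟨h.1, L_d2 h.2⟩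

lemma Ok.iter {i l : ℕ} (h : Ok D C f g i l) : D.d1^[i] f * D.d1^[l] g ∈ C.L := by
  refine Ok.base (D := D) (i := 0) (l := 0) (h.imp (fun h => ⟨?_, ?_⟩) fun h => ⟨?_, ?_⟩)
  · exact W_iter1 i (by rw [zero_add]; exact h.1)
  · exact W_iter1 l (by rw [zero_add]; exact h.2)
  · exact W_iter1 i (by rw [zero_add]; exact h.1)
  · exact W_iter1 l (by rw [zero_add]; exact h.2)

lemma L_mul (h : ∀ i l, i + l = n → Ok D C f g i l) : f * g ∈ D.L C n := by
  induction n generalizing f g with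
  | zero => exact (h 0 0 rfl).base
  | succ n ih =>
    refine L_succ.2 ⟨(h _ 0 rfl).base, ?_, ?_⟩ <;> rw [der_mul]
    · exact add_mem (ih fun i l e => (h (i + 1) l (by omega)).l1)
        (ih fun i l e => (h i (l + 1) (by omega)).r1)
    · exact add_mem (ih fun i l e => (h (i + 1) l (by omega)).l2)
        (ih fun i l e => (h i (l + 1) (by omega)).r2)

/-- first commutator estimate -/
lemma comm1 (a b : ℕ) (h : ∀ i l, i + l = a + b → 1 ≤ i → Ok D C f g i l) :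
    D.d1^[a] (D.d2^[b] (f * g)) - f * D.d1^[a] (D.d2^[b] g) ∈ C.L := by
  induction b generalizing g with
  | zero =>
    simp only [Function.iterate_zero, id]
    induction a generalizing g with
    | zero => simp
    | succ a ih =>
      have h1 : D.d1 f * g ∈ D.L C (0 + a) := L_mul fun i l e => (h (i + 1) l (by omega) (by omega)).l1
      have h2 := ih (g := D.d1 g) fun i l e hi => (h i (l + 1) (by omega) hi).r1
      rw [Function.iterate_succ_apply, Function.iterate_succ_apply, der_mul, iter_add, add_sub_assoc]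
      exact add_mem (W_iter1 a h1) h2
  | succ b ih =>
    have h1 : D.d2 f * g ∈ D.L C (0 + a + b) :=
      L_mul fun i l e => (h (i + 1) l (by omega) (by omega)).l2
    have h2 := ih (g := D.d2 g) fun i l e hi => (h i (l + 1) (by omega) hi).r2
    rw [Function.iterate_succ_apply, Function.iterate_succ_apply, der_mul, iter_add, iter_add,
      add_sub_assoc]
    exact add_mem (W_iter1 a (W_iter2 b h1)) h2

lemma comm1' (a : ℕ) (h : ∀ i l, i + l = a → 1 ≤ i → Ok D C f g i l) :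
    D.d1^[a] (f * g) - f * D.d1^[a] g ∈ C.L := comm1 a 0 h

/-- second commutator estimate -/
lemma comm2 (a : ℕ) (h : ∀ i l, i + l = a + 1 → 1 ≤ i → 1 ≤ l → Ok D C f g i l) :
    D.d1^[a + 1] (f * g) - f * D.d1^[a + 1] g - D.d1^[a + 1] f * g ∈ C.L := by
  rw [iter_mul, sum_range_succ, sum_range_succ']
  simp only [Nat.choose_zero_right, Nat.choose_self, Nat.cast_one, one_mul, Nat.sub_zero,
    Nat.sub_self, Function.iterate_zero, id]
  rw [add_sub_right_comm, add_sub_cancel_right, add_sub_cancel_right]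
  refine sum_mem fun i hi => C.mul (natCast_mem _ _) (h _ _ ?_ ?_ ?_).iter <;>
    have := mem_range.1 hi <;> omega

/-- third commutator estimate -/
lemma comm3 (a : ℕ) (h : ∀ i l, i + l = a + 2 → 2 ≤ i → 1 ≤ l → Ok D C f g i l) :
    D.d1^[a + 2] (f * g) - f * D.d1^[a + 2] g - ((a : R) + 2) * (D.d1 f * D.d1^[a + 1] g)
      - D.d1^[a + 2] f * g ∈ C.L := by
  rw [iter_mul, sum_range_succ, sum_range_succ', sum_range_succ']
  simp only [Nat.choose_zero_right, Nat.choose_self, Nat.cast_one, one_mul, Nat.sub_zero,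
    Nat.sub_self, Function.iterate_zero, id, zero_add, Nat.choose_one_right, Function.iterate_one,
    show a + 2 - 1 = a + 1 from rfl]
  have : ∀ s x y z : R, s + ((a + 2 : ℕ) : R) * y + x + z - x - ((a : R) + 2) * y - z = s := by
    intro s x y z; push_cast; ring
  rw [this]
  refine sum_mem fun i hi => C.mul (natCast_mem _ _) (h _ _ ?_ ?_ ?_).iter <;>
    have := mem_range.1 hi <;> omega

variable (D C) in
/-- the Sobolev algebra -/
def H (n : ℕ) : Subalgebra ℝ R where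
  carrier := {f | f ∈ D.L C n ∧ f ∈ D.U C (n - 2) ∧ f ∈ D.U C 1}
  mul_mem' := fun {f g} hf hg => ⟨L_mul fun i l e => by
      by_cases h : l ≤ n - 2
      · exact .inl ⟨L_le hf.1 (by omega), U_le hg.2.1 h⟩
      · exact .inr ⟨U_le hf.2.2 (by omega), L_le hg.1 (by omega)⟩,
    mul_mem hf.2.1 hg.2.1, mul_mem hf.2.2 hg.2.2⟩
  add_mem' := fun hf hg => ⟨add_mem hf.1 hg.1, add_mem hf.2.1 hg.2.1, add_mem hf.2.2 hg.2.2⟩
  algebraMap_mem' := fun c =>
    ⟨L_of_U ((D.U C n).algebraMap_mem c), algebraMap_mem _ c, algebraMap_mem _ c⟩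

lemma S_L (h : f ∈ D.H C n) (hm : m ≤ n) : f ∈ D.L C m := L_le h.1 hm
lemma S_U (h : f ∈ D.H C n) (hm : m + 2 ≤ n) : f ∈ D.U C m := U_le h.2.1 (by omega)
lemma S_U1 (h : f ∈ D.H C n) : f ∈ D.U C 1 := h.2.2
lemma S_mk (hn : 3 ≤ n) (h1 : f ∈ D.L C n) (h2 : f ∈ D.U C (n - 2)) : f ∈ D.H C n :=
  ⟨h1, h2, U_le h2 (by omega)⟩
lemma S_of_U (hn : 1 ≤ n) (h : f ∈ D.U C n) : f ∈ D.H C n :=
  ⟨L_of_U h, U_le h (by omega), U_le h hn⟩
lemma S_le (h : f ∈ D.H C n) (hm : m ≤ n) : f ∈ D.H C m :=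
  ⟨L_le h.1 hm, U_le h.2.1 (by omega), h.2.2⟩

lemma S_succ (h0 : f ∈ C.U) (h1 : D.d1 f ∈ D.H C n) (h2 : D.d2 f ∈ D.H C n) :
    f ∈ D.H C (n + 1) :=
  ⟨L_succ.2 ⟨C.le h0, h1.1, h2.1⟩,
    U_le (U_succ.2 ⟨h0, h1.2.1, h2.2.1⟩) (by omega),
    U_succ.2 ⟨h0, U_le h1.2.2 zero_le_one, U_le h2.2.2 zero_le_one⟩⟩

lemma S_d1 (hn : 3 ≤ n) (h : f ∈ D.H C (n + 1)) : D.d1 f ∈ D.H C n :=
  S_mk hn (L_d1 h.1) (U_d1 (S_U h (by omega)))

lemma S_d2 (hn : 3 ≤ n) (h : f ∈ D.H C (n + 1)) : D.d2 f ∈ D.H C n :=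
  S_mk hn (L_d2 h.1) (U_d2 (S_U h (by omega)))

lemma Ok.of_S {p q i l : ℕ} (hf : f ∈ D.H C p) (hg : g ∈ D.H C q)
    (h : (i ≤ p ∧ l + 2 ≤ q) ∨ (i + 2 ≤ p ∧ l ≤ q)) : Ok D C f g i l :=
  h.imp (fun h => ⟨S_L hf h.1, S_U hg h.2⟩) fun h => ⟨S_U hf h.1, S_L hg h.2⟩

section jets
variable (e : DP R) {a₁ b₁ a₂ b₂ : R} (h1 : ∀ f, D.d1 f = a₁ * e.d1 f + b₁ * e.d2 f)
  (h2 : ∀ f, D.d2 f = a₂ * e.d1 f + b₂ * e.d2 f) (ha₁ : a₁ ∈ D.H C n) (hb₁ : b₁ ∈ D.H C n)
  (ha₂ : a₂ ∈ D.H C n) (hb₂ : b₂ ∈ D.H C n)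
include h1 h2 ha₁ hb₁ ha₂ hb₂

lemma jet_U {k : ℕ} (hk : k + 1 ≤ n) (hf : f ∈ e.U C k) : f ∈ D.U C k := by
  induction k generalizing f with
  | zero => exact hf
  | succ k ih =>
    have x1 := ih (by omega) (U_d1 hf)
    have x2 := ih (by omega) (U_d2 hf)
    refine U_succ.2 ⟨U_base hf, ?_, ?_⟩
    · rw [h1]
      exact add_mem (mul_mem (S_U ha₁ (by omega)) x1) (mul_mem (S_U hb₁ (by omega)) x2)
    · rw [h2]
      exact add_mem (mul_mem (S_U ha₂ (by omega)) x1) (mul_mem (S_U hb₂ (by omega)) x2)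

lemma jet_L (hn : 3 ≤ n) {k : ℕ} (hk : k ≤ n + 1) (hf : f ∈ e.L C k) (hf' : f ∈ e.U C (k - 1)) :
    f ∈ D.L C k := by
  induction k generalizing f with
  | zero => exact hf
  | succ k ih =>
    have key : ∀ {a g : R}, a ∈ D.H C n → g ∈ e.L C k → (1 ≤ k → g ∈ e.U C (k - 1)) →
        a * g ∈ D.L C k := by
      intro a g ha hg hg'
      refine L_mul fun i l e' => ?_
      by_cases hi : i + 2 ≤ n
      · refine .inr ⟨S_U ha hi, ?_⟩
        rcases Nat.eq_zero_or_pos k with rfl | hk0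
        · obtain rfl : l = 0 := by omega
          exact hg
        · exact L_le (ih (by omega) hg (hg' hk0)) (by omega)
      · exact .inl ⟨S_L ha (by omega), jet_U e h1 h2 ha₁ hb₁ ha₂ hb₂ (by omega)
          (U_le (hg' (by omega)) (by omega))⟩
    have y1 : 1 ≤ k → e.d1 f ∈ e.U C (k - 1) := fun h => U_d1 (U_le hf' (by omega))
    have y2 : 1 ≤ k → e.d2 f ∈ e.U C (k - 1) := fun h => U_d2 (U_le hf' (by omega))
    refine L_succ.2 ⟨L_base hf, ?_, ?_⟩
    · rw [h1]; exact add_mem (key ha₁ (L_d1 hf) y1) (key hb₁ (L_d2 hf) y2)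
    · rw [h2]; exact add_mem (key ha₂ (L_d1 hf) y1) (key hb₂ (L_d2 hf) y2)

lemma jet_S (hn : 3 ≤ n) {k : ℕ} (hk3 : 3 ≤ k) (hk : k ≤ n + 1) (hf : f ∈ e.L C k)
    (hf' : f ∈ e.U C (k - 1)) : f ∈ D.H C k :=
  S_mk hk3 (jet_L e h1 h2 ha₁ hb₁ ha₂ hb₂ hn hk hf hf')
    (jet_U e h1 h2 ha₁ hb₁ ha₂ hb₂ (by omega) (U_le hf' (by omega)))

end jets

/-- inverses -/
lemma U_inv (hfg : f * g = 1) (hg : g ∈ C.U) (hf : f ∈ D.U C n) : g ∈ D.U C n := by
  have key : ∀ d : Derivation ℝ R R, d g = -(g * g * d f) := by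
    intro d
    have := congrArg d hfg
    rw [der_mul, Derivation.map_one_eq_zero] at this
    linear_combination g * this - d g * hfg
  induction n with
  | zero => exact hg
  | succ n ih =>
    have := ih (U_le hf (by omega))
    refine U_succ.2 ⟨hg, ?_, ?_⟩ <;> rw [key]
    · exact neg_mem (mul_mem (mul_mem this this) (U_d1 hf))
    · exact neg_mem (mul_mem (mul_mem this this) (U_d2 hf))

end DP

end Crest.Agent.R220
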