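import Crest.Agent.R220.Scale

/-! The family of all normalized solutions. -/

set_option autoImplicit false

namespace Crest.Agent.R220

open scoped ContDiff Topology
open Set Filter MeasureTheory Sm DP Geo

/-- a normalized solution with its parameters -/
structure Tup (J : ℕ) (A μ : ℝ) where
  ρ : ℝ
  κ : ℝ
  l : ℝ
  w₀ : ℝ × ℝ → ℝ
  X : ℝ × ℝ → ℝ
  Y : ℝ × ℝ → ℝ
  Z : ℝ × ℝ → ℝ
  hρ : 0 < ρ
  hρ1 : ρ ≤ 1
  hκ : 0 < κ
  hκ1 : κ ≤ 1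
  hl : 1 ≤ l
  sol : Sol J A μ ρ κ l w₀ X Y Z

lemma contDiff_bump : ContDiff ℝ ∞ bump := Real.smoothTransition.contDiff.comp (by fun_prop)

lemma bump_eq_zero {z : ℝ × ℝ} (hz : z ∉ disc 1) : bump z = 0 :=
  Real.smoothTransition.zero_of_nonpos (by have : ¬ z.1 ^ 2 + z.2 ^ 2 < 1 ^ 2 := hz; linarith [not_lt.1 this])

lemma compactSupport_bump : HasCompactSupport bump :=
  HasCompactSupport.intro (isCompact_cdisc zero_le_one) fun _ hz =>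
    bump_eq_zero fun h => hz (disc_subset_cdisc _ h)

variable {J : ℕ} {A μ : ℝ} {ι : Type} (τ : ι → Tup J A μ)

/-- the radii -/
def RR (i : ι) : ℝ := 3 * (τ i).ρ

lemma zero_mem (i : ι) : (0 : ℝ × ℝ) ∈ disc (RR τ i) :=
  zero_mem_disc (by have := (τ i).hρ; rw [RR]; positivity)

noncomputable def XF : Fam (RR τ) := fun i => mk (τ i).X (τ i).sol.sX
noncomputable def YF : Fam (RR τ) := fun i => mk (τ i).Y (τ i).sol.sY
noncomputable def ZF : Fam (RR τ) := fun i => mk (τ i).Z (τ i).sol.sZ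
noncomputable def w0F : Fam (RR τ) := fun i => mk (τ i).w₀ (τ i).sol.sw
def ll (i : ι) : ℝ := (τ i).l
noncomputable def w1F : Fam (RR τ) := sc (fun i => ll τ i ^ (-J : ℤ)) * scl bump contDiff_bump (ll τ)
noncomputable def wF : Fam (RR τ) := w0F τ + w1F τ
noncomputable def expF (c : ℝ) : Fam (RR τ) :=
  fun i => comp (fun t => Real.exp (c * t)) (by fun_prop) (wF τ i)
noncomputable def DlF : Fam (RR τ) :=
  (eF _).d1 (XF τ) * (eF _).d2 (YF τ) - (eF _).d2 (XF τ) * (eF _).d1 (YF τ)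
noncomputable def nF : Fam (RR τ) :=
  (eF _).d1 (ZF τ) * (eF _).d2 (YF τ) - (eF _).d2 (ZF τ) * (eF _).d1 (YF τ)
noncomputable def NF : Fam (RR τ) :=
  ((eF _).d1 (nF τ) * DlF τ - nF τ * (eF _).d1 (DlF τ)) * (eF _).d2 (YF τ) -
    ((eF _).d2 (nF τ) * DlF τ - nF τ * (eF _).d2 (DlF τ)) * (eF _).d1 (YF τ)

lemma hll (i : ι) : 1 ≤ ll τ i := (τ i).hl

lemma Sc_w1F : Sc (ll τ) (-J) (w1F τ) := ⟨bump, contDiff_bump, compactSupport_bump, rfl⟩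

lemma mk_U {R : ι → ℝ} {C : Cls (Fam R)} {D : ι → Set (ℝ × ℝ)} (hC : C.U = UB D)
    (f : ι → ℝ × ℝ → ℝ) (hf : ∀ i, ContDiffOn ℝ ∞ (f i) (disc (R i))) {n : ℕ} {B : ℝ}
    (h : ∀ i, (D i).Nonempty → Bnd (R i) n B (f i)) :
    (fun i => mk (f i) (hf i) : Fam R) ∈ (eF R).U C n := by
  refine mem_W_iff.2 fun a b hab => ?_
  change _ ∈ C.U
  rw [hC]
  refine ⟨|B|, fun i z hz => ?_⟩
  by_cases h' : z ∈ disc (R i)
  · obtain ⟨h1, h2⟩ := ev_iter (f i) (hf i) a b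
    rw [val, eF_iter, h2, ev_mk _ _ h']
    exact (h i ⟨z, hz⟩ a b hab z h').trans (le_abs_self _)
  · rw [val, ev_of_not_mem _ h', abs_zero]; exact abs_nonneg _

lemma XF_U : XF τ ∈ (eF _).U (C0 _) 7 := mk_U rfl _ _ fun i _ => (τ i).sol.bX
lemma YF_U : YF τ ∈ (eF _).U (C0 _) 7 := mk_U rfl _ _ fun i _ => (τ i).sol.bY
lemma ZF_U : ZF τ ∈ (eF _).U (C0 _) 7 := mk_U rfl _ _ fun i _ => (τ i).sol.bZ
lemma w0F_U : w0F τ ∈ (eF _).U (C0 _) 7 := mk_U rfl _ _ fun i _ => (τ i).sol.bw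
lemma wF_U (hJ : 8 ≤ J) : wF τ ∈ (eF _).U (C0 _) 7 :=
  add_mem (w0F_U τ) ((Sc_w1F τ).U (hll τ) rfl 7 (by omega))

lemma val_d1_mk {R : ι → ℝ} (f : ι → ℝ × ℝ → ℝ) (hf : ∀ i, ContDiffOn ℝ ∞ (f i) (disc (R i)))
    (a b : ℕ) (i : ι) {z : ℝ × ℝ} (hz : z ∈ disc (R i)) :
    val ((eF R).d1^[a] ((eF R).d2^[b] (fun i => mk (f i) (hf i)))) i z = dx^[a] (dy^[b] (f i)) z := by
  obtain ⟨h1, h2⟩ := ev_iter (f i) (hf i) a b
  rw [val, eF_iter, h2, ev_mk _ _ hz]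

section
variable (i : ι) {z : ℝ × ℝ} (hz : z ∈ disc (RR τ i))
include hz
lemma vX1 : val ((eF _).d1 (XF τ)) i z = dx (τ i).X z := val_d1_mk _ _ 1 0 i hz
lemma vX2 : val ((eF _).d2 (XF τ)) i z = dy (τ i).X z := val_d1_mk _ _ 0 1 i hz
lemma vY1 : val ((eF _).d1 (YF τ)) i z = dx (τ i).Y z := val_d1_mk _ _ 1 0 i hz
lemma vY2 : val ((eF _).d2 (YF τ)) i z = dy (τ i).Y z := val_d1_mk _ _ 0 1 i hz
lemma vZ1 : val ((eF _).d1 (ZF τ)) i z = dx (τ i).Z z := val_d1_mk _ _ 1 0 i hz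
lemma vZ2 : val ((eF _).d2 (ZF τ)) i z = dy (τ i).Z z := val_d1_mk _ _ 0 1 i hz
lemma vZ11 : val ((eF _).d1 ((eF _).d1 (ZF τ))) i z = dx (dx (τ i).Z) z := val_d1_mk _ _ 2 0 i hz
lemma vZ12 : val ((eF _).d1 ((eF _).d2 (ZF τ))) i z = dx (dy (τ i).Z) z := val_d1_mk _ _ 1 1 i hz

lemma val_expF (c : ℝ) : val (expF τ c) i z = Real.exp (c * val (wF τ) i z) := ev_comp _ _ _ hz

lemma val_wF : val (wF τ) i z = (τ i).w₀ z + (τ i).l⁻¹ ^ J * bump ((τ i).l • z) := by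
  rw [wF, val_add, w1F, val_sc_mul, val_scl _ _ _ _ hz, zpow_neg, zpow_natCast, inv_pow]
  congr 1
  exact ev_mk _ _ hz
end

lemma pdF_expF (c : ℝ) (v : ℝ × ℝ) :
    pdF v (expF τ c) = algebraMap ℝ _ c * expF τ c * pdF v (wF τ) := by
  refine Fam.ext fun i z hz => ?_
  rw [val, pdF_apply, expF, pd_comp, ev_mul, ev_comp _ _ _ hz, val_mul, val_mul, val_expF τ i hz,
    ← valA_apply i hz (algebraMap _ _ _), AlgHom.commutes]
  congr 1
  have := ((hasDerivAt_id ((wF τ i).ev z)).const_mul c).exp.deriv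
  simp only [id, mul_one] at this
  rw [this, mul_comm]; rfl

lemma expF_U (hJ : 8 ≤ J) (c : ℝ) : expF τ c ∈ (C0 (RR τ)).U := by
  obtain ⟨C, hC⟩ := U_base (wF_U τ hJ)
  refine ⟨Real.exp (|c| * C), fun i z hz => ?_⟩
  rw [val_expF τ i hz, abs_of_pos (Real.exp_pos _), Real.exp_le_exp]
  exact (le_abs_self _).trans (by rw [abs_mul]; gcongr; exact hC i z hz)

lemma expF_low (hJ : 8 ≤ J) (c : ℝ) :
    ∃ m, 0 < m ∧ ∀ i, ∀ z ∈ disc (RR τ i), m ≤ val (expF τ c) i z := by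
  obtain ⟨C, hC⟩ := U_base (wF_U τ hJ)
  refine ⟨Real.exp (-(|c| * C)), Real.exp_pos _, fun i z hz => ?_⟩
  rw [val_expF τ i hz, Real.exp_le_exp]
  refine le_trans (neg_le_neg ?_) (neg_abs_le _)
  rw [abs_mul]; gcongr; exact hC i z hz

lemma G11 : (eF _).d1 (XF τ) ^ 2 + (eF _).d1 (YF τ) ^ 2 + (eF _).d1 (ZF τ) ^ 2 = expF τ 2 :=
  Fam.ext fun i z hz => by
    simp only [sq, val_add, val_mul, vX1 τ i hz, vY1 τ i hz, vZ1 τ i hz, val_expF τ i hz,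
      val_wF τ i hz]
    simpa only [sq] using (τ i).sol.g11 z hz

lemma G22 : (eF _).d2 (XF τ) ^ 2 + (eF _).d2 (YF τ) ^ 2 + (eF _).d2 (ZF τ) ^ 2 = expF τ 2 :=
  Fam.ext fun i z hz => by
    simp only [sq, val_add, val_mul, vX2 τ i hz, vY2 τ i hz, vZ2 τ i hz, val_expF τ i hz,
      val_wF τ i hz]
    simpa only [sq] using (τ i).sol.g22 z hz

lemma G12 : (eF _).d1 (XF τ) * (eF _).d2 (XF τ) + (eF _).d1 (YF τ) * (eF _).d2 (YF τ) +
    (eF _).d1 (ZF τ) * (eF _).d2 (ZF τ) = 0 :=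
  Fam.ext fun i z hz => by
    simp only [val_add, val_mul, vX1 τ i hz, vY1 τ i hz, vZ1 τ i hz, vX2 τ i hz, vY2 τ i hz,
      vZ2 τ i hz, val_zero]
    exact (τ i).sol.g12 z hz

lemma DlF_U : DlF τ ∈ (eF _).U (C0 _) 6 := by
  have := U_d1 (XF_U τ); have := U_d2 (XF_U τ); have := U_d1 (YF_U τ); have := U_d2 (YF_U τ)
  unfold DlF; alg_mem

lemma nF_U : nF τ ∈ (eF _).U (C0 _) 6 := by
  have := U_d1 (ZF_U τ); have := U_d2 (ZF_U τ); have := U_d1 (YF_U τ); have := U_d2 (YF_U τ)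
  unfold nF; alg_mem

lemma NF_U : NF τ ∈ (eF _).U (C0 _) 5 := by
  have := U_d1 (DlF_U τ); have := U_d2 (DlF_U τ); have := U_d1 (nF_U τ); have := U_d2 (nF_U τ)
  have := U_le (DlF_U τ) (m := 5) (by omega); have := U_le (nF_U τ) (m := 5) (by omega)
  have := U_le (U_d1 (YF_U τ)) (m := 5) (by omega); have := U_le (U_d2 (YF_U τ)) (m := 5) (by omega)
  unfold NF; alg_mem

lemma g_zero (i : ι) : dx (τ i).X 0 = dy (τ i).Y 0 ∧ dy (τ i).Y 0 ^ 2 = val (expF τ 2) i 0 := by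
  have h1 := (τ i).sol.g11 0 (zero_mem τ i)
  have h2 := (τ i).sol.g22 0 (zero_mem τ i)
  rw [(τ i).sol.Yx0, (τ i).sol.Zx0] at h1
  rw [(τ i).sol.Xy0, (τ i).sol.Zy0] at h2
  rw [val_expF τ i (zero_mem τ i), val_wF τ i (zero_mem τ i), ← h2]
  refine ⟨?_, by ring⟩
  refine (pow_left_inj₀ (τ i).sol.Xx0.le (τ i).sol.Yy0.le two_ne_zero).1 ?_
  linarith

lemma DlF_zero (i : ι) : val (DlF τ) i 0 = dy (τ i).Y 0 ^ 2 := by
  have hz := zero_mem τ i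
  simp only [DlF, val_sub, val_mul, vX1 τ i hz, vY1 τ i hz, vX2 τ i hz, vY2 τ i hz, (τ i).sol.Xy0,
    (g_zero τ i).1]
  ring

lemma nF_zero (i : ι) : val (nF τ) i 0 = 0 ∧
    val ((eF _).d1 (nF τ)) i 0 = dx (dx (τ i).Z) 0 * dy (τ i).Y 0 ∧ val ((eF _).d2 (nF τ)) i 0 = 0 := by
  have hz := zero_mem τ i
  simp only [nF, map_sub, der_mul, val_add, val_sub, val_mul, ← (eF _).comm, vY1 τ i hz,
    vY2 τ i hz, vZ1 τ i hz, vZ2 τ i hz, vZ11 τ i hz, vZ12 τ i hz, (τ i).sol.Yx0, (τ i).sol.Zx0,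
    (τ i).sol.Zy0, (τ i).sol.Zxy0]
  simp

lemma NF_zero (i : ι) : val (NF τ) i 0 = dx (dx (τ i).Z) 0 * (dy (τ i).Y 0 ^ 2) ^ 2 := by
  have hz := zero_mem τ i
  simp only [NF, val_sub, val_mul, (nF_zero τ i).1, (nF_zero τ i).2.1, (nF_zero τ i).2.2,
    DlF_zero, vY1 τ i hz, vY2 τ i hz, (τ i).sol.Yx0]
  ring

lemma abs_le_rho (i : ι) {z : ℝ × ℝ} (hz : z ∈ disc (RR τ i)) : |z.1| + |z.2| ≤ 6 * (τ i).ρ := by
  have := abs_add_le_of_mem (r := RR τ i) (by have := (τ i).hρ; rw [RR]; positivity)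
    (disc_subset_cdisc _ hz)
  rw [RR] at this; linarith

/-- nondegeneracy on small discs -/
lemma prelim (hJ : 8 ≤ J) (hμ : 0 < μ) : ∃ c ρ₁, 0 < c ∧ 0 < ρ₁ ∧ ∀ i, (τ i).ρ ≤ ρ₁ →
    ∀ z ∈ disc (RR τ i), c ≤ val (DlF τ) i z ∧ c ≤ val (NF τ) i z := by
  obtain ⟨m, m0, hm⟩ := expF_low τ hJ 2
  obtain ⟨C1, c1, h1⟩ := OB.lip (U_le (DlF_U τ) (by omega))
  obtain ⟨C2, c2, h2⟩ := OB.lip (U_le (NF_U τ) (by omega))
  set c := min m (μ * m ^ 2) with hc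
  have c0 : 0 < c := by positivity
  refine ⟨c / 2, c / (12 * (C1 + C2)), by positivity, by positivity, fun i hi z hz => ?_⟩
  have a0 := abs_le_rho τ i hz
  have a1 : (C1 + C2) * (|z.1| + |z.2|) ≤ c / 2 := by
    rw [le_div_iff₀ (by positivity)] at hi
    nlinarith
  have a2 : 0 ≤ |z.1| + |z.2| := by positivity
  have b1 := (abs_le.1 (h1 i z hz)).1
  have b2 := (abs_le.1 (h2 i z hz)).1
  have b3 := hm i 0 (zero_mem τ i)
  rw [DlF_zero, (g_zero τ i).2] at b1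
  rw [NF_zero, (g_zero τ i).2] at b2
  have b4 : μ * m ^ 2 ≤ dx (dx (τ i).Z) 0 * val (expF τ 2) i 0 ^ 2 :=
    mul_le_mul (τ i).sol.Zxx0 (pow_le_pow_left₀ m0.le b3 2) (by positivity)
      (hμ.le.trans (τ i).sol.Zxx0)
  have b5 : c ≤ m := min_le_left _ _
  have b6 : c ≤ μ * m ^ 2 := min_le_right _ _
  constructor <;> nlinarith

/-- the inverse of a family bounded below -/
noncomputable def invF {R : ι → ℝ} (f : Fam R) {c : ℝ} (hc : 0 < c)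
    (h : ∀ i, ∀ z ∈ disc (R i), c ≤ val f i z) : Fam R :=
  fun i => inv (f i) fun z hz => (hc.trans_le (h i z hz)).ne'

lemma mul_invF {R : ι → ℝ} (f : Fam R) {c : ℝ} (hc : 0 < c)
    (h : ∀ i, ∀ z ∈ disc (R i), c ≤ val f i z) : f * invF f hc h = 1 :=
  funext fun _ => Sm.mul_inv _ _

lemma invF_U {R : ι → ℝ} (f : Fam R) {c : ℝ} (hc : 0 < c)
    (h : ∀ i, ∀ z ∈ disc (R i), c ≤ val f i z) {n : ℕ} (hf : f ∈ (eF R).U (C0 R) n) :
    invF f hc h ∈ (eF R).U (C0 R) n := by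
  refine U_inv (mul_invF f hc h) ⟨c⁻¹, fun i z hz => ?_⟩ hf
  have : val (invF f hc h) i z = (val f i z)⁻¹ := ev_mk _ _ hz
  rw [this, abs_of_pos (inv_pos.2 (hc.trans_le (h i z hz)))]
  exact inv_anti₀ hc (h i z hz)

lemma J_eq {R : Type} [CommRing R] [Algebra ℝ R] (d : Derivation ℝ R R) {n D iD : R}
    (h : D * iD = 1) : d (n * iD) = (d n * D - n * d D) * iD ^ 2 := by
  have := congrArg d h
  rw [der_mul, Derivation.map_one_eq_zero] at this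
  rw [der_mul]
  linear_combination n * iD * this - (d n * iD + n * d iD) * h

variable {c : ℝ} (hc : 0 < c)
  (hτ : ∀ i, ∀ z ∈ disc (RR τ i), c ≤ val (DlF τ) i z ∧ c ≤ val (NF τ) i z)

/-- the geometric data of the family -/
noncomputable def geo : Geo (Fam (RR τ)) where
  e := eF _
  X := XF τ
  Y := YF τ
  Z := ZF τ
  w := wF τ
  g := expF τ 2
  ig := expF τ (-2)
  iD := invF (DlF τ) hc fun i z hz => (hτ i z hz).1
  iJ := DlF τ ^ 2 * invF (NF τ) hc fun i z hz => (hτ i z hz).2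
  dg1 := by rw [← map_ofNat (algebraMap ℝ (Fam (RR τ))) 2]; exact pdF_expF τ 2 _
  dg2 := by rw [← map_ofNat (algebraMap ℝ (Fam (RR τ))) 2]; exact pdF_expF τ 2 _
  hig := Fam.ext fun i z hz => by
    rw [val_mul, val_expF τ i hz, val_expF τ i hz, ← Real.exp_add, ← valA_apply i hz 1, map_one]
    simp
  g11 := G11 τ
  g22 := G22 τ
  g12 := G12 τ
  hD := mul_invF _ _ _
  hJ := by
    have h1 := mul_invF (DlF τ) hc fun i z hz => (hτ i z hz).1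
    have h2 := mul_invF (NF τ) hc fun i z hz => (hτ i z hz).2
    change ((eF _).d1 (nF τ * _) * _ - (eF _).d2 (nF τ * _) * _) * _ = 1
    rw [J_eq _ h1, J_eq _ h1]
    generalize invF (DlF τ) hc _ = a at *
    generalize invF (NF τ) hc _ = b at *
    rw [NF] at h2
    linear_combination (DlF τ * a) ^ 2 * h2 + (DlF τ * a + 1) * h1

lemma geo_low : (geo τ hc hτ).Low (C0 _) := by
  have x1 := U_d1 (XF_U τ); have x2 := U_d2 (XF_U τ); have y1 := U_d1 (YF_U τ)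
  have y2 := U_d2 (YF_U τ); have z1 := U_d1 (ZF_U τ); have z2 := U_d2 (ZF_U τ)
  have iD := invF_U (DlF τ) hc (fun i z hz => (hτ i z hz).1) (DlF_U τ)
  exact ⟨x1, x2, y1, y2, mul_mem (sub_mem (mul_mem z1 y2) (mul_mem z2 y1)) iD,
    mul_mem (sub_mem (mul_mem x1 z2) (mul_mem x2 z1)) iD,
    mul_mem (pow_mem (U_le (DlF_U τ) (by omega)) 2) (invF_U _ _ _ (NF_U τ))⟩

lemma geo_iD : (geo τ hc hτ).iD ∈ (eF _).U (C0 _) 6 :=
  invF_U _ hc (fun i z hz => (hτ i z hz).1) (DlF_U τ)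

lemma geo_zero (i : ι) : val (geo τ hc hτ).P i 0 = 0 ∧ val (geo τ hc hτ).Y i 0 = 0 ∧
    val (geo τ hc hτ).y1 i 0 = 0 ∧ val ((eF _).d2 (geo τ hc hτ).P) i 0 = 0 := by
  refine ⟨?_, ?_, ?_, ?_⟩
  · change val (nF τ * _) i 0 = 0
    rw [val_mul, (nF_zero τ i).1, zero_mul]
  · exact (ev_mk _ (τ i).sol.sY (zero_mem τ i)).trans (τ i).sol.Y0
  · exact (vY1 τ i (zero_mem τ i)).trans (τ i).sol.Yx0
  · change val ((eF _).d2 (nF τ * _)) i 0 = 0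
    rw [der_mul, val_add, val_mul, val_mul, (nF_zero τ i).1, (nF_zero τ i).2.2]
    ring

/-- lower bound for the Jacobian -/
lemma geo_J : ∃ m, 0 < m ∧ ∀ i, ∀ z ∈ disc (RR τ i), m ≤ val (geo τ hc hτ).J i z := by
  obtain ⟨C, c0, hC⟩ := UB.bound (U_base (geo_low τ hc hτ).iJ)
  refine ⟨C⁻¹, by positivity, fun i z hz => ?_⟩
  have h1 := congrArg (valA i hz) (geo τ hc hτ).hJ'
  rw [map_mul, map_one, valA_apply, valA_apply] at h1
  have h2 : 0 < val (geo τ hc hτ).iJ i z := by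
    change 0 < val (DlF τ ^ 2 * invF (NF τ) hc _) i z
    have : val (invF (NF τ) hc fun i z hz => (hτ i z hz).2) i z = (val (NF τ) i z)⁻¹ :=
      ev_mk _ _ hz
    have a := hc.trans_le (hτ i z hz).1
    have b := hc.trans_le (hτ i z hz).2
    rw [sq, val_mul, val_mul, this]
    positivity
  rw [eq_inv_of_mul_eq_one_left h1]
  exact inv_anti₀ h2 ((le_abs_self _).trans (hC i z hz))

/-- the curvature of the background -/
noncomputable def k0F : Fam (RR τ) := -((eF _).d1 ((eF _).d1 (w0F τ)) + (eF _).d2 ((eF _).d2 (w0F τ)))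
/-- the curvature of the bump -/
noncomputable def k1F : Fam (RR τ) := -((eF _).d1 ((eF _).d1 (w1F τ)) + (eF _).d2 ((eF _).d2 (w1F τ)))

lemma geo_k : (geo τ hc hτ).k = k0F τ + k1F τ := by
  change -((eF _).d1 ((eF _).d1 (w0F τ + w1F τ)) + (eF _).d2 ((eF _).d2 (w0F τ + w1F τ))) = _
  simp only [map_add, k0F, k1F]
  ring

lemma k0F_eq : k0F τ = sc (fun i => (τ i).κ / (τ i).ρ ^ 2) * (xF ^ 2 + yF ^ 2) -
    sc fun i => (τ i).κ := Fam.ext fun i z hz => by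
  have h1 : val ((eF _).d1 ((eF _).d1 (w0F τ))) i z = _ := val_d1_mk _ _ 2 0 i hz
  have h2 : val ((eF _).d2 ((eF _).d2 (w0F τ))) i z = _ := val_d1_mk _ _ 0 2 i hz
  have h3 := (τ i).sol.lap z hz
  simp only [k0F, val_neg, val_add, val_sub, val_sc_mul, sq, val_mul, val_xF i hz, val_yF i hz,
    val_sc _ _ hz, h1, h2]
  change -(dx (dx (τ i).w₀) z + dy (dy (τ i).w₀) z) = _
  rw [h3]; ring

lemma k0F_U : k0F τ ∈ (eF _).U (C0 _) 5 :=
  neg_mem (add_mem (U_d1 (U_d1 (w0F_U τ))) (U_d2 (U_d2 (w0F_U τ))))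

lemma Sc_k1F : Sc (ll τ) (-J + 1 + 1) (k1F τ) :=
  ((((Sc_w1F τ).pdF (hll τ) _).pdF (hll τ) _).add (((Sc_w1F τ).pdF (hll τ) _).pdF (hll τ) _)).neg

end Crest.Agent.R220
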