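import Mathlib

/-!
# Row 220 (a smooth metric without local smooth isometric immersion): interface
-/

set_option autoImplicit false

namespace Crest.Agent.R220

open scoped ContDiff

/-- partial derivative in the first variable -/
noncomputable def dx (f : ℝ × ℝ → ℝ) : ℝ × ℝ → ℝ := fun z => fderiv ℝ f z (1, 0)

/-- partial derivative in the second variable -/
noncomputable def dy (f : ℝ × ℝ → ℝ) : ℝ × ℝ → ℝ := fun z => fderiv ℝ f z (0, 1)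

/-- the open Euclidean disc about the origin -/
def disc (r : ℝ) : Set (ℝ × ℝ) := {z | z.1 ^ 2 + z.2 ^ 2 < r ^ 2}

/-- all partial derivatives of order at most `m` are bounded by `A` on the disc -/
def Bnd (r : ℝ) (m : ℕ) (A : ℝ) (f : ℝ × ℝ → ℝ) : Prop :=
  ∀ a b : ℕ, a + b ≤ m → ∀ z ∈ disc r, |dx^[a] (dy^[b] f) z| ≤ A

/-- a radial bump supported in the unit disc -/
noncomputable def bump (z : ℝ × ℝ) : ℝ := Real.smoothTransition (1 - (z.1 ^ 2 + z.2 ^ 2))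

/-- A normalized isometric immersion `(X, Y, Z)` of the disc of radius `3 ρ` with the conformal
metric `exp (2 (w₀ + l⁻¹ ^ J * bump (l • ·)))`, where `w₀` has a hyperbolic island. -/
structure Sol (J : ℕ) (A μ ρ κ l : ℝ) (w₀ X Y Z : ℝ × ℝ → ℝ) : Prop where
  sw : ContDiffOn ℝ ∞ w₀ (disc (3 * ρ))
  sX : ContDiffOn ℝ ∞ X (disc (3 * ρ))
  sY : ContDiffOn ℝ ∞ Y (disc (3 * ρ))
  sZ : ContDiffOn ℝ ∞ Z (disc (3 * ρ))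
  bw : Bnd (3 * ρ) 7 A w₀
  bX : Bnd (3 * ρ) 7 A X
  bY : Bnd (3 * ρ) 7 A Y
  bZ : Bnd (3 * ρ) 7 A Z
  lap : ∀ z ∈ disc (3 * ρ),
    dx (dx w₀) z + dy (dy w₀) z = -(κ * ((z.1 ^ 2 + z.2 ^ 2) / ρ ^ 2 - 1))
  g11 : ∀ z ∈ disc (3 * ρ), dx X z ^ 2 + dx Y z ^ 2 + dx Z z ^ 2 =
    Real.exp (2 * (w₀ z + l⁻¹ ^ J * bump (l • z)))
  g22 : ∀ z ∈ disc (3 * ρ), dy X z ^ 2 + dy Y z ^ 2 + dy Z z ^ 2 =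
    Real.exp (2 * (w₀ z + l⁻¹ ^ J * bump (l • z)))
  g12 : ∀ z ∈ disc (3 * ρ), dx X z * dy X z + dx Y z * dy Y z + dx Z z * dy Z z = 0
  Y0 : Y 0 = 0
  Xx0 : 0 < dx X 0
  Xy0 : dy X 0 = 0
  Yx0 : dx Y 0 = 0
  Yy0 : 0 < dy Y 0
  Zx0 : dx Z 0 = 0
  Zy0 : dy Z 0 = 0
  Zxy0 : dx (dy Z) 0 = 0
  Zxx0 : μ ≤ dx (dx Z) 0

/-- the local obstruction -/
def LocalStmt : Prop :=
  ∀ (J : ℕ) (A μ : ℝ), 8 ≤ J → 0 < μ → ∃ ρ₀ : ℝ, 0 < ρ₀ ∧ ∀ ρ : ℝ, 0 < ρ → ρ ≤ ρ₀ →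
    ∃ κ₀ : ℝ, 0 < κ₀ ∧ ∀ κ : ℝ, 0 < κ → κ ≤ κ₀ → ∀ (B : ℕ → ℝ) (l₁ : ℝ), ∃ l : ℝ, l₁ ≤ l ∧
      ∀ w₀ X Y Z : ℝ × ℝ → ℝ, (∀ m, Bnd (3 * ρ) m (B m) w₀) → ¬ Sol J A μ ρ κ l w₀ X Y Z

/-- the statement S0341 -/
def Goal : Prop :=
  ∃ g : EuclideanSpace ℝ (Fin 2) →
      (EuclideanSpace ℝ (Fin 2) →L[ℝ] EuclideanSpace ℝ (Fin 2) →L[ℝ] ℝ),
    ContDiffOn ℝ ∞ g {x : EuclideanSpace ℝ (Fin 2) | ∀ i, x i ∈ Set.Ioo (-1 : ℝ) 1} ∧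
    (∀ x ∈ {x : EuclideanSpace ℝ (Fin 2) | ∀ i, x i ∈ Set.Ioo (-1 : ℝ) 1}, ∀ v w, g x v w = g x w v) ∧
    (∀ x ∈ {x : EuclideanSpace ℝ (Fin 2) | ∀ i, x i ∈ Set.Ioo (-1 : ℝ) 1}, ∀ v, v ≠ 0 → 0 < g x v v) ∧
    ∀ U : Set (EuclideanSpace ℝ (Fin 2)), IsOpen U → (0 : EuclideanSpace ℝ (Fin 2)) ∈ U →
      U ⊆ {x : EuclideanSpace ℝ (Fin 2) | ∀ i, x i ∈ Set.Ioo (-1 : ℝ) 1} →
      ¬ ∃ F : EuclideanSpace ℝ (Fin 2) → EuclideanSpace ℝ (Fin 3), ContDiffOn ℝ ∞ F U ∧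
        ∀ x ∈ U, ∀ v w, @inner ℝ (EuclideanSpace ℝ (Fin 3)) _ (fderiv ℝ F x v) (fderiv ℝ F x w)
          = g x v w

/-- one disc: a small conformal factor that admits no immersion with bounded derivatives -/
def DiscStmt : Prop :=
  ∀ (c : EuclideanSpace ℝ (Fin 2)) (R ε A : ℝ) (j : ℕ), 0 < R → 0 < ε →
    ∃ w : EuclideanSpace ℝ (Fin 2) → ℝ, ContDiff ℝ ∞ w ∧ (∀ x, x ∉ Metric.ball c R → w x = 0) ∧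
      (∀ k ≤ j, ∀ x, ‖iteratedFDeriv ℝ k w x‖ ≤ ε) ∧
      ¬ ∃ F : EuclideanSpace ℝ (Fin 2) → EuclideanSpace ℝ (Fin 3),
        ContDiffOn ℝ ∞ F (Metric.ball c R) ∧
        (∀ k ≤ 7, ∀ x ∈ Metric.ball c R, ‖iteratedFDeriv ℝ k F x‖ ≤ A) ∧
        ∀ x ∈ Metric.ball c R, ∀ v u,
          inner ℝ (fderiv ℝ F x v) (fderiv ℝ F x u) = Real.exp (2 * w x) * inner ℝ v u

open Laplacian in
/-- the local obstruction in invariant form -/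
def LocalE : Prop :=
  ∀ (J : ℕ) (A μ : ℝ), 8 ≤ J → 0 < μ → ∃ ρ₀ : ℝ, 0 < ρ₀ ∧ ∀ ρ : ℝ, 0 < ρ → ρ ≤ ρ₀ →
    ∃ κ₀ : ℝ, 0 < κ₀ ∧ ∀ κ : ℝ, 0 < κ → κ ≤ κ₀ → ∀ (B : ℕ → ℝ) (l₁ : ℝ), ∃ l : ℝ, l₁ ≤ l ∧
      ∀ (p : EuclideanSpace ℝ (Fin 2)) (w₀ : EuclideanSpace ℝ (Fin 2) → ℝ)
        (F : EuclideanSpace ℝ (Fin 2) → EuclideanSpace ℝ (Fin 3)),
        ContDiffOn ℝ ∞ w₀ (Metric.ball p (3 * ρ)) → ContDiffOn ℝ ∞ F (Metric.ball p (3 * ρ)) →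
        (∀ k, ∀ x ∈ Metric.ball p (3 * ρ), ‖iteratedFDeriv ℝ k w₀ x‖ ≤ B k) →
        (∀ k ≤ 7, ∀ x ∈ Metric.ball p (3 * ρ), ‖iteratedFDeriv ℝ k w₀ x‖ ≤ A) →
        (∀ k ≤ 7, ∀ x ∈ Metric.ball p (3 * ρ), ‖iteratedFDeriv ℝ k F x‖ ≤ A) →
        (∀ x ∈ Metric.ball p (3 * ρ), (Δ w₀) x = -(κ * (‖x - p‖ ^ 2 / ρ ^ 2 - 1))) →
        (∀ x ∈ Metric.ball p (3 * ρ), ∀ v u, inner ℝ (fderiv ℝ F x v) (fderiv ℝ F x u) =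
          Real.exp (2 * (w₀ x + l⁻¹ ^ J * Real.smoothTransition (1 - l ^ 2 * ‖x - p‖ ^ 2))) *
            inner ℝ v u) →
        ∀ (ν : EuclideanSpace ℝ (Fin 3)) (v u : EuclideanSpace ℝ (Fin 2)),
          ‖ν‖ = 1 → ‖v‖ = 1 → ‖u‖ = 1 → (∀ a, inner ℝ (fderiv ℝ F p a) ν = (0 : ℝ)) →
          |inner ℝ (iteratedFDeriv ℝ 2 F p ![v, u]) ν| < μ

end Crest.Agent.R220
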