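import Crest.Agent.R220.DiscAux

/-!
# Row 220, part G3: `DiscStmt` from `LocalE`
-/

set_option autoImplicit false
set_option maxHeartbeats 800000

namespace Crest.Agent.R220

open scoped ContDiff Topology
open Metric Filter Laplacian G3

theorem discStmt_of (h : LocalE) : DiscStmt := by
  intro c R ε A j hR hε
  obtain ⟨ε', hε', hε'1, hε'ε⟩ : ∃ ε' : ℝ, 0 < ε' ∧ ε' ≤ 1 ∧ ε' ≤ ε :=
    ⟨min ε 1, by positivity, min_le_right _ _, min_le_left _ _⟩
  obtain ⟨A', hA'1, hA'A⟩ : ∃ A' : ℝ, 1 ≤ A' ∧ A ≤ A' := ⟨max A 1, le_max_right _ _, le_max_left _ _⟩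
  obtain ⟨j', hj'7, hj'j⟩ : ∃ j' : ℕ, 7 ≤ j' ∧ j ≤ j' := ⟨max j 7, le_max_right _ _, le_max_left _ _⟩
  -- the cone factor
  obtain ⟨wc, hwc, hwc0, hwc1⟩ := exists_cone c hR
  have hwcs : HasCompactSupport wc :=
    HasCompactSupport.intro (isCompact_closedBall c R) fun x hx => hwc0 x (by
      rw [mem_closedBall, dist_eq_norm] at hx; linarith [not_le.1 hx])
  obtain ⟨δ, hδ, hδ1, hδb⟩ := exists_small hwc hwcs j' (ε := ε' / 3) (b := 1 / 2)
    (by positivity) (by norm_num)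
  obtain ⟨μ, hμ, η, hη, hnorm⟩ := exists_normal c hR hδ (by linarith) hA'1
  obtain ⟨hh, hh0, hhη, hhR⟩ : ∃ hh : ℝ, 0 < hh ∧ hh ≤ η / 2 ∧ hh ≤ R / 12 :=
    ⟨min (η / 2) (R / 12), by positivity, min_le_left _ _, min_le_right _ _⟩
  obtain ⟨T, hT, hTnet⟩ := exists_net c (r := R / 2) (h := hh) (η := η / 2) (by positivity) hh0
    (by positivity)
  obtain ⟨ρ₀, hρ₀, hloc⟩ := h (j' + 1) A' μ (by omega) hμ
  obtain ⟨ρ, hρ, hρb, hρT⟩ := exists_sep T (b := min ρ₀ (hh / 8)) (by positivity)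
  have hρ0 : ρ ≤ ρ₀ := hρb.trans (min_le_left _ _)
  have hρh : 8 * ρ ≤ hh := by have := hρb.trans (min_le_right _ _); linarith
  obtain ⟨κ₀, hκ₀, hloc⟩ := hloc ρ hρ hρ0
  -- distances
  have hfar : ∀ p ∈ T, ∀ x, x ∉ ball c R → 4 * ρ ≤ ‖x - p‖ := by
    intro p hp x hx
    rw [mem_ball, dist_eq_norm, not_lt] at hx
    have h1 := norm_sub_le_norm_sub_add_norm_sub x p c
    rw [hT p hp] at h1
    linarith
  -- the islands
  obtain ⟨isl, hisl, hisl0, hisl1⟩ := exists_island hρ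
  set I : E2 → ℝ := fun x => ∑ p ∈ T, isl (x - p) with hI
  have hIs : ContDiff ℝ ∞ I :=
    ContDiff.sum fun p _ => hisl.comp (contDiff_id.sub contDiff_const)
  have hI0 : ∀ x, (∀ p ∈ T, 4 * ρ ≤ ‖x - p‖) → I x = 0 := fun x hx =>
    Finset.sum_eq_zero fun p hp => hisl0 _ (hx p hp)
  have hIc : HasCompactSupport I :=
    HasCompactSupport.intro (isCompact_closedBall c R) fun x hx =>
      hI0 x fun p hp => hfar p hp x fun hb => hx (ball_subset_closedBall hb)
  obtain ⟨κ, hκ, hκ1, hκb⟩ := exists_small hIs hIc j' (ε := ε' / 3) (by positivity) hκ₀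
  set w₀ : E2 → ℝ := fun x => δ * wc x + κ * I x with hw₀
  have hw₀s : ContDiff ℝ ∞ w₀ := (contDiff_const.mul hwc).add (contDiff_const.mul hIs)
  have hw₀0 : ∀ x, x ∉ ball c R → w₀ x = 0 := by
    intro x hx
    have h1 := hI0 x fun p hp => hfar p hp x hx
    have h2 := hwc0 x (by rw [mem_ball, dist_eq_norm, not_lt] at hx; linarith)
    simp only [hw₀, h1, h2, mul_zero, add_zero]
  have hw₀c : HasCompactSupport w₀ :=
    HasCompactSupport.intro (isCompact_closedBall c R) fun x hx =>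
      hw₀0 x fun hb => hx (ball_subset_closedBall hb)
  have hw₀b : ∀ k ≤ j', ∀ x, ‖iteratedFDeriv ℝ k w₀ x‖ ≤ 2 * ε' / 3 := by
    intro k hk x
    have := norm_add_le' (contDiff_const.mul hwc (f := fun _ => δ))
      (contDiff_const.mul hIs (f := fun _ => κ)) k x
    have := hδb k hk x
    have := hκb k hk x
    simp only [hw₀]
    linarith
  choose B hB using bdd hw₀s hw₀c
  -- the bumps
  obtain ⟨C, hC, hCb⟩ := bdd_le phi_smooth phi_supp j'
  obtain ⟨l, hl, hloc⟩ := hloc κ hκ hκ1 B (max (max 1 ρ⁻¹) (3 * T.card * C / ε'))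
  have hl1 : 1 ≤ l := (le_max_left _ _).trans ((le_max_left _ _).trans hl)
  have hl2 : ρ⁻¹ ≤ l := (le_max_right _ _).trans ((le_max_left _ _).trans hl)
  have hl3 : 3 * T.card * C / ε' ≤ l := (le_max_right _ _).trans hl
  have hl0 : 0 < l := by linarith
  set G : E2 → ℝ := fun x => ∑ p ∈ T, l⁻¹ ^ (j' + 1) * phi (l • (x - p)) with hG
  have hGs : ContDiff ℝ ∞ G := ContDiff.sum fun p _ => bump_smooth l _ p
  have hb0 : ∀ x p : E2, 4 * ρ ≤ ‖x - p‖ → phi (l • (x - p)) = 0 := by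
    intro x p hx
    apply phi_zero
    rw [norm_smul, Real.norm_of_nonneg hl0.le]
    calc (1 : ℝ) = ρ⁻¹ * ρ := by field_simp
      _ ≤ l * ‖x - p‖ := mul_le_mul hl2 (by linarith) hρ.le hl0.le
  have hG0 : ∀ x, (∀ p ∈ T, 4 * ρ ≤ ‖x - p‖) → G x = 0 := fun x hx =>
    Finset.sum_eq_zero fun p hp => by rw [hb0 x p (hx p hp), mul_zero]
  have hGb : ∀ k ≤ j', ∀ x, ‖iteratedFDeriv ℝ k G x‖ ≤ ε' / 3 := by
    intro k hk x
    rw [hG, iteratedFDeriv_fun_sum_apply
      (fun p _ => ((bump_smooth l _ p).of_le (nat_le_inf k)).contDiffAt)]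
    refine (norm_sum_le _ _).trans ?_
    refine (Finset.sum_le_card_nsmul _ _ (C / l) fun p _ => bump_bound hCb hl1 p hk x).trans ?_
    rw [nsmul_eq_mul, ← mul_div_assoc, div_le_iff₀ hl0]
    rw [div_le_iff₀ hε'] at hl3
    linarith
  set w : E2 → ℝ := fun x => w₀ x + G x with hw
  have hws : ContDiff ℝ ∞ w := hw₀s.add hGs
  have hwb : ∀ k ≤ j', ∀ x, ‖iteratedFDeriv ℝ k w x‖ ≤ ε' := by
    intro k hk x
    have := norm_add_le' hw₀s hGs k x
    have := hw₀b k hk x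
    have := hGb k hk x
    simp only [hw]
    linarith
  refine ⟨w, hws, fun x hx => ?_, fun k hk x => (hwb k (hk.trans hj'j) x).trans hε'ε, ?_⟩
  · have h1 := hw₀0 x hx
    have h2 := hG0 x fun p hp => hfar p hp x hx
    simp only [hw, h1, h2, add_zero]
  rintro ⟨F, hF, hFb, hm⟩
  have hFb' : ∀ k ≤ 7, ∀ x ∈ ball c R, ‖iteratedFDeriv ℝ k F x‖ ≤ A' := fun k hk x hx =>
    (hFb k hk x hx).trans hA'A
  have hgrad : ∀ x, ‖x - c‖ = R / 2 → gradient w x = -(δ / (R / 2) ^ 2) • (x - c) := by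
    intro x hx
    have hxc : x ≠ c := by
      intro e; rw [e, sub_self, norm_zero] at hx; linarith
    have heq : w =ᶠ[𝓝 x] fun y => δ * (-(1 / 2) * Real.log (‖y - c‖ ^ 2)) := by
      filter_upwards [ball_mem_nhds x hρ] with y hy
      rw [mem_ball, dist_eq_norm] at hy
      have h1 : ∀ p ∈ T, 4 * ρ ≤ ‖y - p‖ := by
        intro p hp
        have a1 := norm_sub_le_norm_sub_add_norm_sub p y c
        have a2 := norm_sub_le_norm_sub_add_norm_sub y x c
        rw [hT p hp, norm_sub_rev p y] at a1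
        linarith
      have a2 := norm_sub_le_norm_sub_add_norm_sub y x c
      have a3 := norm_sub_le_norm_sub_add_norm_sub x y c
      rw [norm_sub_rev x y] at a3
      simp only [hw, hw₀, hI0 y h1, hG0 y h1, mul_zero, add_zero]
      rw [hwc1 y (by linarith) (by linarith)]
    rw [heq.gradient_eq, grad_log c δ hxc, hx]
  obtain ⟨q, hq, hq2⟩ := hnorm w F hws
    (fun k hk x => (hwb k (by omega) x).trans hε'1) hgrad hF hFb' hm
  obtain ⟨p, hp, hqp⟩ := hTnet q hq
  have hann : ∀ x ∈ ball p (3 * ρ), R / 3 < ‖x - c‖ ∧ ‖x - c‖ < 2 * R / 3 := by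
    intro x hx
    rw [mem_ball, dist_eq_norm] at hx
    have a1 := norm_sub_le_norm_sub_add_norm_sub p x c
    have a2 := norm_sub_le_norm_sub_add_norm_sub x p c
    rw [norm_sub_rev p x] at a1
    rw [hT p hp] at a1 a2
    constructor <;> linarith
  have hsub : ball p (3 * ρ) ⊆ ball c R := by
    intro x hx
    rw [mem_ball, dist_eq_norm]
    linarith [(hann x hx).2]
  have hoth : ∀ x ∈ ball p (3 * ρ), ∀ p' ∈ T, p' ≠ p → 4 * ρ ≤ ‖x - p'‖ := by
    intro x hx p' hp' hne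
    rw [mem_ball, dist_eq_norm] at hx
    have a1 := hρT p hp p' hp' hne.symm
    have a2 := norm_sub_le_norm_sub_add_norm_sub p x p'
    rw [norm_sub_rev p x] at a2
    linarith
  obtain ⟨ν, v, u, hν, hv, hu, horth, hbig⟩ :=
    hq2 p (hsub (mem_ball_self (by positivity))) (by linarith)
  refine absurd (hloc p w₀ F hw₀s.contDiffOn (hF.mono hsub) (fun k x _ => hB k x)
    (fun k hk x _ => (hw₀b k (by omega) x).trans (by linarith))
    (fun k hk x hx => hFb' k hk x (hsub hx)) ?_ ?_ ν v u hν hv hu horth) (not_lt.2 hbig)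
  · intro x hx
    have hxc : x ≠ c := by
      intro e
      have := (hann x hx).1
      rw [e, sub_self, norm_zero] at this; linarith
    have heq : w₀ =ᶠ[𝓝 x] (fun y : E2 => δ * (-(1 / 2) * Real.log (‖y - c‖ ^ 2))) +
        fun y : E2 => (κ * -((‖y - p‖ ^ 2) ^ 2 / (16 * ρ ^ 2) - ‖y - p‖ ^ 2 / 4) : ℝ) := by
      filter_upwards [isOpen_ball.mem_nhds hx] with y hy
      have h1 : I y = isl (y - p) :=
        Finset.sum_eq_single p (fun p' hp' hne => hisl0 _ (hoth y hy p' hp' hne))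
          (fun hn => absurd hp hn)
      simp only [hw₀, Pi.add_apply, h1]
      rw [hwc1 y (hann y hy).1 (hann y hy).2,
        hisl1 _ (by rw [mem_ball, dist_eq_norm] at hy; exact hy)]
    rw [(InnerProductSpace.laplacian_congr_nhds heq).eq_of_nhds]
    have hs : ∀ a : E2, ContDiffAt ℝ 2 (fun y : E2 => ‖y - a‖ ^ 2) x := fun a =>
      (contDiffAt_id.sub contDiffAt_const).norm_sq ℝ
    have h2 : ‖x - c‖ ^ 2 ≠ 0 := pow_ne_zero _ (norm_ne_zero_iff.2 (sub_ne_zero.2 hxc))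
    rw [ContDiffAt.laplacian_add
      (contDiffAt_const.mul (contDiffAt_const.mul ((hs c).log h2)))
      (contDiffAt_const.mul ((((hs p).pow 2).div_const _).sub ((hs p).div_const _)).neg),
      lap_log c δ hxc, lap_isl p κ hρ, zero_add]
  · intro x hx v u
    rw [hm x (hsub hx)]
    have h1 : G x = l⁻¹ ^ (j' + 1) * phi (l • (x - p)) :=
      Finset.sum_eq_single p (fun p' hp' hne => by rw [hb0 x p' (hoth x hx p' hp' hne), mul_zero])
        (fun hn => absurd hp hn)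
    simp only [hw, h1, phi]
    rw [norm_smul, mul_pow, Real.norm_of_nonneg hl0.le]

end Crest.Agent.R220
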