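import Crest.Agent.R220.Holo

/-!
# Row 220, part G3 (building blocks): cone factor, islands, bumps
-/

set_option autoImplicit false
set_option maxHeartbeats 400000

namespace Crest.Agent.R220.G3

open scoped ContDiff Topology
open Metric Filter Laplacian

lemma hasFDerivAt_sq (c x : E2) :
    HasFDerivAt (fun y : E2 => ‖y - c‖ ^ 2) ((2 : ℝ) • innerSL ℝ (x - c)) x := by
  have := ((hasFDerivAt_id x).sub_const c).norm_sq
  refine this.congr_fderiv ?_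
  ext v
  simp

lemma lap_radial {ψ ψ' : ℝ → ℝ} {ψ'' : ℝ} (c x : E2)
    (h1 : ∀ᶠ s in 𝓝 (‖x - c‖ ^ 2), HasDerivAt ψ (ψ' s) s)
    (h2 : HasDerivAt ψ' ψ'' (‖x - c‖ ^ 2)) :
    (Δ (fun y : E2 => ψ (‖y - c‖ ^ 2))) x = 4 * ‖x - c‖ ^ 2 * ψ'' + 4 * ψ' (‖x - c‖ ^ 2) := by
  have hc : ContinuousAt (fun y : E2 => ‖y - c‖ ^ 2) x := (hasFDerivAt_sq c x).continuousAt
  have e1 : fderiv ℝ (fun y : E2 => ψ (‖y - c‖ ^ 2)) =ᶠ[𝓝 x]
      fun y => ψ' (‖y - c‖ ^ 2) • ((2 : ℝ) • innerSL ℝ (y - c)) := by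
    filter_upwards [hc.eventually h1] with y hy
    exact (hy.comp_hasFDerivAt y (hasFDerivAt_sq c y)).fderiv
  have d1 : HasFDerivAt (fun y : E2 => ψ' (‖y - c‖ ^ 2)) (ψ'' • ((2 : ℝ) • innerSL ℝ (x - c))) x :=
    h2.comp_hasFDerivAt x (hasFDerivAt_sq c x)
  have d2 : HasFDerivAt (fun y : E2 => (2 : ℝ) • innerSL ℝ (y - c))
      ((2 : ℝ) • (innerSL ℝ : E2 →L[ℝ] E2 →L[ℝ] ℝ)) x := by
    have := (((innerSL ℝ : E2 →L[ℝ] E2 →L[ℝ] ℝ).hasFDerivAt (x := x - c)).comp x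
      ((hasFDerivAt_id x).sub_const c)).const_smul (2 : ℝ)
    refine this.congr_fderiv ?_
    simp
  have d3 := d1.smul d2
  have e2 := (d3.congr_of_eventuallyEq e1).fderiv
  rw [InnerProductSpace.laplacian_eq_iteratedFDeriv_orthonormalBasis _
    (EuclideanSpace.basisFun (Fin 2) ℝ)]
  simp only [iteratedFDeriv_two_apply, e2, Fin.sum_univ_two]
  have hn : ‖x - c‖ ^ 2 = (x 0 - c 0) ^ 2 + (x 1 - c 1) ^ 2 := by
    rw [EuclideanSpace.norm_sq_eq]; simp [Fin.sum_univ_two]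
  have hi : ∀ i : Fin 2, ((innerSL ℝ : E2 →L[ℝ] E2 →L[ℝ] ℝ) (EuclideanSpace.single i 1))
      (EuclideanSpace.single i 1) = 1 := by
    intro i
    change inner ℝ (EuclideanSpace.single i (1 : ℝ) : E2) (EuclideanSpace.single i 1) = 1
    simp
  simp [EuclideanSpace.inner_single_right]
  rw [hi, hi, hn]
  ring

lemma bdd {f : E2 → ℝ} (hf : ContDiff ℝ ∞ f) (hs : HasCompactSupport f) (k : ℕ) :
    ∃ C : ℝ, ∀ x, ‖iteratedFDeriv ℝ k f x‖ ≤ C :=
  (hs.iteratedFDeriv k).exists_bound_of_continuous (hf.continuous_iteratedFDeriv (nat_le_inf k))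

lemma bdd_le {f : E2 → ℝ} (hf : ContDiff ℝ ∞ f) (hs : HasCompactSupport f) (j : ℕ) :
    ∃ C : ℝ, 0 < C ∧ ∀ k ≤ j, ∀ x, ‖iteratedFDeriv ℝ k f x‖ ≤ C := by
  choose B hB using bdd hf hs
  refine ⟨1 + ∑ k ∈ Finset.range (j + 1), |B k|, by positivity, fun k hk x => ?_⟩
  have h1 : |B k| ≤ ∑ k ∈ Finset.range (j + 1), |B k| :=
    Finset.single_le_sum (f := fun k => |B k|) (fun _ _ => abs_nonneg _)
      (Finset.mem_range.2 (by omega))
  have := hB k x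
  have := le_abs_self (B k)
  linarith

lemma norm_const_mul {f : E2 → ℝ} (hf : ContDiff ℝ ∞ f) (a : ℝ) (k : ℕ) (x : E2) :
    ‖iteratedFDeriv ℝ k (fun y => a * f y) x‖ = |a| * ‖iteratedFDeriv ℝ k f x‖ := by
  have := iteratedFDeriv_const_smul_apply' (a := a) (i := k) (x := x)
    (hf.of_le (nat_le_inf k)).contDiffAt
  simp only [smul_eq_mul] at this
  rw [this, norm_smul, Real.norm_eq_abs]

lemma norm_add_le' {f g : E2 → ℝ} (hf : ContDiff ℝ ∞ f) (hg : ContDiff ℝ ∞ g) (k : ℕ) (x : E2) :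
    ‖iteratedFDeriv ℝ k (fun y => f y + g y) x‖ ≤
      ‖iteratedFDeriv ℝ k f x‖ + ‖iteratedFDeriv ℝ k g x‖ := by
  rw [fun_iteratedFDeriv_add_apply (hf.of_le (nat_le_inf k)).contDiffAt
    (hg.of_le (nat_le_inf k)).contDiffAt]
  exact norm_add_le _ _

/-- a small multiple of a compactly supported smooth function is small in `C^j` -/
lemma exists_small {f : E2 → ℝ} (hf : ContDiff ℝ ∞ f) (hs : HasCompactSupport f) (j : ℕ)
    {ε b : ℝ} (hε : 0 < ε) (hb : 0 < b) :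
    ∃ a : ℝ, 0 < a ∧ a ≤ b ∧ ∀ k ≤ j, ∀ x, ‖iteratedFDeriv ℝ k (fun y => a * f y) x‖ ≤ ε := by
  obtain ⟨C, hC, hCb⟩ := bdd_le hf hs j
  refine ⟨min b (ε / C), by positivity, min_le_left _ _, fun k hk x => ?_⟩
  rw [norm_const_mul hf, abs_of_pos (by positivity)]
  calc min b (ε / C) * ‖iteratedFDeriv ℝ k f x‖ ≤ (ε / C) * C :=
        mul_le_mul (min_le_right _ _) (hCb k hk x) (norm_nonneg _) (by positivity)
    _ = ε := by field_simp

lemma exists_cone (c : E2) {R : ℝ} (hR : 0 < R) :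
    ∃ wc : E2 → ℝ, ContDiff ℝ ∞ wc ∧ (∀ x, 5 * R / 6 ≤ ‖x - c‖ → wc x = 0) ∧
      ∀ x, R / 3 < ‖x - c‖ → ‖x - c‖ < 2 * R / 3 →
        wc x = -(1 / 2) * Real.log (‖x - c‖ ^ 2) := by
  let φ₁ : ContDiffBump c := ⟨2 * R / 3, 5 * R / 6, by positivity, by linarith⟩
  let φ₂ : ContDiffBump c := ⟨R / 6, R / 3, by positivity, by linarith⟩
  refine ⟨fun x => -(1 / 2) * Real.log (‖x - c‖ ^ 2) * (φ₁ x * (1 - φ₂ x)), ?_, ?_, ?_⟩
  · rw [contDiff_iff_contDiffAt]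
    intro x
    by_cases hx : x = c
    · have : (fun x => -(1 / 2) * Real.log (‖x - c‖ ^ 2) * (φ₁ x * (1 - φ₂ x))) =ᶠ[𝓝 x]
          fun _ => (0 : ℝ) := by
        rw [hx]
        filter_upwards [φ₂.eventuallyEq_one] with y hy
        simp [hy]
      exact contDiffAt_const.congr_of_eventuallyEq this
    · have h1 : ContDiffAt ℝ ∞ (fun y : E2 => ‖y - c‖ ^ 2) x :=
        (contDiffAt_id.sub contDiffAt_const).norm_sq ℝ
      have h2 : ‖x - c‖ ^ 2 ≠ 0 := pow_ne_zero _ (norm_ne_zero_iff.2 (sub_ne_zero.2 hx))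
      exact (contDiffAt_const.mul (h1.log h2)).mul
        (φ₁.contDiff.contDiffAt.mul (contDiffAt_const.sub φ₂.contDiff.contDiffAt))
  · intro x hx
    have : φ₁ x = 0 := φ₁.zero_of_le_dist (by rw [dist_eq_norm]; exact hx)
    simp [this]
  · intro x h1 h2
    have e1 : φ₁ x = 1 := φ₁.one_of_mem_closedBall (by
      rw [mem_closedBall, dist_eq_norm]; exact h2.le)
    have e2 : φ₂ x = 0 := φ₂.zero_of_le_dist (by rw [dist_eq_norm]; exact h1.le)
    simp [e1, e2]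

lemma exists_island {ρ : ℝ} (hρ : 0 < ρ) :
    ∃ isl : E2 → ℝ, ContDiff ℝ ∞ isl ∧ (∀ u, 4 * ρ ≤ ‖u‖ → isl u = 0) ∧
      ∀ u, ‖u‖ < 3 * ρ → isl u = -((‖u‖ ^ 2) ^ 2 / (16 * ρ ^ 2) - ‖u‖ ^ 2 / 4) := by
  let φ : ContDiffBump (0 : E2) := ⟨3 * ρ, 4 * ρ, by positivity, by linarith⟩
  refine ⟨fun u => -((‖u‖ ^ 2) ^ 2 / (16 * ρ ^ 2) - ‖u‖ ^ 2 / 4) * φ u, ?_, ?_, ?_⟩
  · have h1 : ContDiff ℝ ∞ (fun y : E2 => ‖y‖ ^ 2) := contDiff_norm_sq ℝ
    exact (((h1.pow 2).div_const _).sub (h1.div_const _)).neg.mul φ.contDiff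
  · intro u hu
    have : φ u = 0 := φ.zero_of_le_dist (by rw [dist_zero_right]; exact hu)
    simp [this]
  · intro u hu
    have : φ u = 1 := φ.one_of_mem_closedBall (by
      rw [mem_closedBall, dist_zero_right]; exact hu.le)
    simp [this]

/-- the unit bump -/
noncomputable def phi (u : E2) : ℝ := Real.smoothTransition (1 - ‖u‖ ^ 2)

lemma phi_smooth : ContDiff ℝ ∞ phi :=
  Real.smoothTransition.contDiff.comp (contDiff_const.sub (contDiff_norm_sq ℝ))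

lemma phi_zero {u : E2} (hu : 1 ≤ ‖u‖) : phi u = 0 :=
  Real.smoothTransition.zero_of_nonpos (by nlinarith)

lemma phi_supp : HasCompactSupport phi :=
  HasCompactSupport.intro (isCompact_closedBall (0 : E2) 1) fun x hx => phi_zero (by
    rw [mem_closedBall, dist_zero_right] at hx; linarith [not_le.1 hx])

lemma bump_smooth (l : ℝ) (J : ℕ) (p : E2) :
    ContDiff ℝ ∞ (fun x : E2 => l⁻¹ ^ J * phi (l • (x - p))) :=
  contDiff_const.mul (phi_smooth.comp ((contDiff_id.sub contDiff_const).const_smul l))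

lemma bump_bound {j : ℕ} {C l : ℝ} (hC : ∀ k ≤ j, ∀ x, ‖iteratedFDeriv ℝ k phi x‖ ≤ C)
    (hl : 1 ≤ l) (p : E2) {k : ℕ} (hk : k ≤ j) (x : E2) :
    ‖iteratedFDeriv ℝ k (fun x : E2 => l⁻¹ ^ (j + 1) * phi (l • (x - p))) x‖ ≤ C / l := by
  have hl0 : 0 < l := by linarith
  have hC0 : 0 ≤ C := (norm_nonneg _).trans (hC k hk x)
  rw [norm_const_mul (f := fun x : E2 => phi (l • (x - p)))
    (phi_smooth.comp ((contDiff_id.sub contDiff_const).const_smul l))]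
  have e1 : iteratedFDeriv ℝ k (fun x : E2 => phi (l • (x - p))) x =
      iteratedFDeriv ℝ k (fun z : E2 => phi (l • z)) (x - p) :=
    iteratedFDeriv_comp_sub (f := fun z : E2 => phi (l • z)) k p x
  have e2 := congrFun (iteratedFDeriv_comp_const_smul (i := k) l
    (phi_smooth.of_le (nat_le_inf k))) (x - p)
  rw [e1, e2, norm_smul, Real.norm_of_nonneg (by positivity), abs_of_pos (by positivity)]
  have h1 : l ^ k ≤ l ^ j := pow_le_pow_right₀ hl hk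
  calc l⁻¹ ^ (j + 1) * (l ^ k * ‖iteratedFDeriv ℝ k phi (l • (x - p))‖)
      ≤ l⁻¹ ^ (j + 1) * (l ^ j * C) := by gcongr; exact hC k hk _
    _ = C / l := by rw [inv_pow, pow_succ]; field_simp

lemma grad_log (c : E2) (δ : ℝ) {x : E2} (hx : x ≠ c) :
    gradient (fun y : E2 => δ * (-(1 / 2) * Real.log (‖y - c‖ ^ 2))) x =
      -(δ / ‖x - c‖ ^ 2) • (x - c) := by
  have h2 : ‖x - c‖ ^ 2 ≠ 0 := pow_ne_zero _ (norm_ne_zero_iff.2 (sub_ne_zero.2 hx))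
  have h1 := (((hasFDerivAt_sq c x).log h2).const_mul (-(1 / 2) : ℝ)).const_mul δ
  apply HasGradientAt.gradient
  rw [hasGradientAt_iff_hasFDerivAt]
  refine h1.congr_fderiv ?_
  ext v
  simp only [smul_apply, smul_eq_mul, innerSL_apply_apply, InnerProductSpace.toDual_apply_apply,
    inner_smul_left, conj_trivial]
  field_simp

lemma lap_log (c : E2) (δ : ℝ) {x : E2} (hx : x ≠ c) :
    (Δ (fun y : E2 => δ * (-(1 / 2) * Real.log (‖y - c‖ ^ 2)))) x = 0 := by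
  have h2 : ‖x - c‖ ^ 2 ≠ 0 := pow_ne_zero _ (norm_ne_zero_iff.2 (sub_ne_zero.2 hx))
  have := lap_radial (ψ := fun s => δ * (-(1 / 2) * Real.log s))
    (ψ' := fun s => δ * (-(1 / 2) * s⁻¹)) (ψ'' := δ * (-(1 / 2) * (-((‖x - c‖ ^ 2) ^ 2)⁻¹))) c x
    (by
      filter_upwards [isOpen_ne.mem_nhds h2] with s hs
      exact ((Real.hasDerivAt_log hs).const_mul _).const_mul _)
    (((hasDerivAt_inv h2).const_mul _).const_mul _)
  rw [this]
  field_simp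
  ring

lemma lap_isl (p : E2) (κ : ℝ) {ρ : ℝ} (hρ : 0 < ρ) (x : E2) :
    (Δ (fun y : E2 => (κ * -((‖y - p‖ ^ 2) ^ 2 / (16 * ρ ^ 2) - ‖y - p‖ ^ 2 / 4) : ℝ))) x =
      -(κ * (‖x - p‖ ^ 2 / ρ ^ 2 - 1)) := by
  have := lap_radial (ψ := fun s => κ * -(s ^ 2 / (16 * ρ ^ 2) - s / 4))
    (ψ' := fun s => κ * -(2 * s / (16 * ρ ^ 2) - 1 / 4)) (ψ'' := κ * -(2 / (16 * ρ ^ 2))) p x
    (Eventually.of_forall fun s => by
      have := ((((hasDerivAt_pow 2 s).div_const (16 * ρ ^ 2)).sub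
        ((hasDerivAt_id s).div_const 4)).neg).const_mul κ
      refine this.congr_deriv ?_
      simp)
    (by
      have := (((((hasDerivAt_id (‖x - p‖ ^ 2)).const_mul 2).div_const (16 * ρ ^ 2)).sub_const
        (1 / 4)).neg).const_mul κ
      refine this.congr_deriv ?_
      simp)
  rw [this]
  field_simp
  ring

lemma exists_sep (T : Finset E2) {b : ℝ} (hb : 0 < b) :
    ∃ ρ : ℝ, 0 < ρ ∧ ρ ≤ b ∧ ∀ p ∈ T, ∀ p' ∈ T, p ≠ p' → 8 * ρ ≤ ‖p - p'‖ := by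
  have h1 : ∀ᶠ ρ in 𝓝[>] (0 : ℝ), ∀ p ∈ T, ∀ p' ∈ T, p ≠ p' → 8 * ρ ≤ ‖p - p'‖ := by
    rw [eventually_all_finset]
    intro p _
    rw [eventually_all_finset]
    intro p' _
    by_cases h : p = p'
    · exact Eventually.of_forall fun _ h' => absurd h h'
    · have h0 : 0 < ‖p - p'‖ / 8 := by
        have := norm_pos_iff.2 (sub_ne_zero.2 h); positivity
      filter_upwards [Ioc_mem_nhdsGT h0] with ρ hρ _
      linarith [hρ.2]
  obtain ⟨ρ, hρ1, hρ2⟩ := (h1.and (Ioc_mem_nhdsGT hb)).exists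
  exact ⟨ρ, hρ2.1, hρ2.2, hρ1⟩

lemma exists_net (c : E2) {r h η : ℝ} (hr : 0 < r) (hh : 0 < h) (hη : 0 < η) :
    ∃ T : Finset E2, (∀ p ∈ T, ‖p - c‖ = r + h) ∧
      ∀ q : E2, ‖q - c‖ = r → ∃ p ∈ T, ‖q - p‖ ≤ h + η := by
  obtain ⟨T, hT, hfin, hcov⟩ := finite_cover_balls_of_compact (isCompact_sphere c (r + h)) hη
  refine ⟨hfin.toFinset, fun p hp => ?_, fun q hq => ?_⟩
  · have := hT (hfin.mem_toFinset.1 hp)
    rwa [mem_sphere, dist_eq_norm] at this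
  · have hq' : c + ((r + h) / r) • (q - c) ∈ sphere c (r + h) := by
      rw [mem_sphere, dist_eq_norm, add_sub_cancel_left, norm_smul, hq,
        Real.norm_of_nonneg (by positivity)]
      field_simp
    obtain ⟨p, hp, hpq⟩ := Set.mem_iUnion₂.1 (hcov hq')
    refine ⟨p, hfin.mem_toFinset.2 hp, ?_⟩
    rw [mem_ball, dist_eq_norm] at hpq
    have e : q - p = (c + ((r + h) / r) • (q - c) - p) - (h / r) • (q - c) := by
      have : (r + h) / r = 1 + h / r := by field_simp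
      rw [this, add_smul, one_smul]; abel
    have hn : ‖(h / r) • (q - c)‖ = h := by
      rw [norm_smul, hq, Real.norm_of_nonneg (by positivity)]; field_simp
    rw [e]
    have := norm_sub_le (c + ((r + h) / r) • (q - c) - p) ((h / r) • (q - c))
    linarith

end Crest.Agent.R220.G3
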