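import Crest.Agent.R220.Fam

/-! The energy estimate. -/

set_option autoImplicit false

namespace Crest.Agent.R220

open scoped ContDiff Topology
open Set Filter MeasureTheory Sm DP

namespace Geo

section alg
variable {R : Type} [CommRing R] [Algebra ℝ R] (G : Geo R)

def Th (n : ℕ) : R := -G.K - 2 * G.P * G.D1 G.K + G.Y * G.D2 G.K + 4 * G.P * G.e1 n
def Xi (n : ℕ) : R := -2 * G.Y * G.D1 G.K + 2 * G.Y * G.e1 n + 4 * G.P * G.e2
def Up : R := 1 + 2 * G.Y * G.e2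

lemma ring_id (n : ℕ) (ψ H η : R)
    (hH : H = G.D2 (G.D2 ψ) + G.K * G.D1 (G.D1 ψ) + G.e1 n * G.D1 ψ + G.e2 * G.D2 ψ) :
    G.J * G.K * (η * G.D1 ψ) ^ 2 + G.J * (η * G.D2 ψ) ^ 2 =
      (G.J * G.D1 (η * (η * G.K * ψ * G.D1 ψ)) + G.J * G.D2 (η * (η * ψ * G.D2 ψ))) +
      (-G.J * (2 * G.D1 η * G.K + η * (G.D1 G.K - G.e1 n)) * ψ) * (η * G.D1 ψ) +
      (-G.J * (2 * G.D2 η - η * G.e2) * ψ) * (η * G.D2 ψ) + (-G.J * η * ψ) * (η * H) := by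
  simp only [hH, der_mul]
  ring

lemma star_id (n : ℕ) (ψ H η ζ : R)
    (hH : H = G.D2 (G.D2 ψ) + G.K * G.D1 (G.D1 ψ) + G.e1 n * G.D1 ψ + G.e2 * G.D2 ψ)
    (h1 : G.D1 ζ * η ^ 2 = G.D1 ζ) (h2 : G.D2 ζ * η ^ 2 = G.D2 ζ) :
    G.J * (G.Th n * (ζ * G.D1 ψ) ^ 2 + G.Xi n * ((ζ * G.D1 ψ) * (ζ * G.D2 ψ)) +
      G.Up * (ζ * G.D2 ψ) ^ 2) =
      (G.J * G.D1 (ζ * -(ζ * (2 * G.P * G.K * G.D1 ψ ^ 2 - 2 * G.P * G.D2 ψ ^ 2 +
          2 * G.Y * G.K * G.D1 ψ * G.D2 ψ))) +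
        G.J * G.D2 (ζ * -(ζ * (4 * G.P * G.D1 ψ * G.D2 ψ + G.Y * G.D2 ψ ^ 2 -
          G.Y * G.K * G.D1 ψ ^ 2)))) +
      (4 * G.J * ζ * (G.P * H)) * (ζ * G.D1 ψ) + (2 * G.J * ζ * (G.Y * H)) * (ζ * G.D2 ψ) +
      ((2 * G.J * ζ * (G.D1 ζ * 2 * G.P * G.K - G.D2 ζ * G.Y * G.K)) *
          ((η * G.D1 ψ) * (η * G.D1 ψ)) +
        (2 * G.J * ζ * (G.D1 ζ * 2 * G.Y * G.K + G.D2 ζ * 4 * G.P)) *
          ((η * G.D1 ψ) * (η * G.D2 ψ)) +
        (2 * G.J * ζ * (G.D2 ζ * G.Y - G.D1 ζ * 2 * G.P)) * ((η * G.D2 ψ) * (η * G.D2 ψ))) := by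
  simp only [hH, der_mul, der_sq, map_add, map_sub, map_neg, der_ofNat, D1P, D2P, D1Y, D2Y,
    G.D_comm, Th, Xi, Up]
  linear_combination
    (-2 * G.J * ζ * (2 * G.P * G.K * G.D1 ψ ^ 2 - 2 * G.P * G.D2 ψ ^ 2 +
      2 * G.Y * G.K * G.D1 ψ * G.D2 ψ)) * h1 -
    2 * G.J * ζ * (4 * G.P * G.D1 ψ * G.D2 ψ + G.Y * G.D2 ψ ^ 2 - G.Y * G.K * G.D1 ψ ^ 2) * h2

end alg

variable {ι : Type} {R : ι → ℝ} {G : Geo (Fam R)} {I : Set ι}

lemma In_JD (he : G.e = eF R) {r : ℝ} {f g : Fam R} (hf : f ∈ CS r) (hg : g ∈ CS r) {i : ι}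
    (hi : Good R I r i) : In r ((G.J * G.D1 f + G.J * G.D2 g) i) = 0 := by
  have : G.J * G.D1 f + G.J * G.D2 g = G.e.d1 (G.y2 * f + -G.e.d2 G.P * g) +
      G.e.d2 (-G.y1 * f + G.e.d1 G.P * g) := by
    rw [JD1, JD2, map_add, map_add]; ring
  rw [this, he]
  exact In_div (add_mem (Ideal.mul_mem_left _ _ hf) (Ideal.mul_mem_left _ _ hg))
    (add_mem (Ideal.mul_mem_left _ _ hf) (Ideal.mul_mem_left _ _ hg)) hi

lemma Van_D1 (he : G.e = eF R) {O : ι → Set (ℝ × ℝ)} (hO : ∀ i, IsOpen (O i)) {f : Fam R}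
    (hf : f ∈ Van O) : G.D1 f ∈ Van O := Van.der hO (fun f => he ▸ G.D1_apply f) hf

lemma Van_D2 (he : G.e = eF R) {O : ι → Set (ℝ × ℝ)} (hO : ∀ i, IsOpen (O i)) {f : Fam R}
    (hf : f ∈ Van O) : G.D2 f ∈ Van O := Van.der hO (fun f => he ▸ G.D2_apply f) hf

lemma absorb' {r : ℝ} {T u₁ u₂ g₁ g₂ h V : Fam R} (hT : T = V + g₁ * u₁ + g₂ * u₂ + h) {c : ℝ}
    (hc : 0 < c) (hV : ∀ i, Good R I r i → In r (V i) = 0)
    (h₁ : g₁ ∈ LB I r) (h₂ : g₂ ∈ LB I r) (hh : h ∈ IB I r)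
    (key : ∀ i, Good R I r i → ∀ z ∈ cdisc r, c * (val u₁ i z ^ 2 + val u₂ i z ^ 2) ≤
      val T i z) : u₁ ∈ LB I r ∧ u₂ ∈ LB I r := absorb hc hV h₁ h₂ hh (hT ▸ key)

/-- first coordinate -/
noncomputable def xF : Fam R := cst (fun z => z.1) contDiff_fst
/-- second coordinate -/
noncomputable def yF : Fam R := cst (fun z => z.2) contDiff_snd

lemma val_xF (i : ι) {z : ℝ × ℝ} (hz : z ∈ disc (R i)) : val (xF : Fam R) i z = z.1 :=
  val_cst _ _ _ hz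
lemma val_yF (i : ι) {z : ℝ × ℝ} (hz : z ∈ disc (R i)) : val (yF : Fam R) i z = z.2 :=
  val_cst _ _ _ hz

theorem energy (he : G.e = eF R) {r₀ r r' c M : ℝ} (h0 : 0 < r₀) (h1 : r₀ < r) (h2 : r < r')
    (hI : ∀ i ∈ I, r' < R i) (low : G.Low (cls R I r')) (n : ℕ)
    (hY : G.Y ∈ (cls R I r').U) (hK : G.K ∈ G.e.U (cls R I r') 1)
    (he1 : G.e1 n ∈ (cls R I r').U) (he2 : G.e2 ∈ (cls R I r').U) (hc : 0 < c)
    (pos : ∀ i ∈ I, ∀ z ∈ cdisc r', ∀ a b : ℝ, c * (a ^ 2 + b ^ 2) ≤ val G.J i z *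
      (val (G.Th n) i z * a ^ 2 + val (G.Xi n) i z * (a * b) + val G.Up i z * b ^ 2))
    (posJ : ∀ i ∈ I, ∀ z ∈ cdisc r', c ≤ val G.J i z)
    (posK : ∀ i ∈ I, ∀ z ∈ cdisc r', z ∉ cdisc r₀ → c ≤ val G.J i z * val G.K i z)
    (hP : ∀ i ∈ I, ∀ z ∈ cdisc r', |val G.P i z| ≤ M * (|z.1| + |z.2|))
    (hY' : ∀ i ∈ I, ∀ z ∈ cdisc r', |val G.Y i z| ≤ M * (|z.1| + |z.2|))
    {ψ H : Fam R} (hψ : ψ ∈ LB I r')
    (hH : H = G.D2 (G.D2 ψ) + G.K * G.D1 (G.D1 ψ) + G.e1 n * G.D1 ψ + G.e2 * G.D2 ψ)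
    (hx : xF * H ∈ LB I r') (hy : yF * H ∈ LB I r') :
    G.D1 ψ ∈ LB I r ∧ G.D2 ψ ∈ LB I r := by
  obtain ⟨s, s1, s2⟩ := exists_between h2
  have r0 : 0 ≤ r := (h0.trans h1).le
  have r0' : 0 ≤ r' := r0.trans h2.le
  set ζ : Fam R := cst _ (contDiff_cut r s) with hζ
  set η₁ : Fam R := cst _ (contDiff_cut s r') with hη₁
  set η₂ : Fam R := cst _ (contDiff_cut r₀ r) with hη₂
  set η : Fam R := η₁ * (1 - η₂) with hη
  have vη : ∀ i, ∀ z ∈ disc (R i), val η i z = cut s r' z * (1 - cut r₀ r z) := by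
    intro i z hz
    rw [← valA_apply i hz, hη, map_mul, map_sub, map_one, valA_apply, valA_apply, val_cst _ _ _ hz,
      val_cst _ _ _ hz]
  have uζ : ζ ∈ G.e.U (cls R I r') 1 := he ▸ cst_cls r0' 1 _ _
  have uη : η ∈ G.e.U (cls R I r') 1 :=
    he ▸ mul_mem (cst_cls r0' 1 _ _) (sub_mem (one_mem _) (cst_cls r0' 1 _ _))
  have cη : η ∈ CS r' := Ideal.mul_mem_right _ _ (cut_CS (r0.trans s1.le) s2 le_rfl)
  have cζ : ζ ∈ CS r' := cut_CS r0 s1 s2.le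
  have a1 : G.J ∈ (cls R I r').U := by
    have := U_base (U_d1 low.P); have := U_base (U_d2 low.P); have := U_base low.y1
    have := U_base low.y2; unfold Geo.J; alg_mem
  have a2 := U_base low.P
  have a3 := U_base hK
  have a4 := U_base (low.D1 (n := 0) (by omega) hK)
  have a5 := U_base (low.D1 (n := 0) (by omega) uη)
  have a6 := U_base (low.D2 (n := 0) (by omega) uη)
  have a7 := U_base (low.D1 (n := 0) (by omega) uζ)
  have a8 := U_base (low.D2 (n := 0) (by omega) uζ)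
  have a9 := U_base uη
  have a10 := U_base uζ
  have wt : ∀ (f : Fam R) (M : ℝ), (∀ i ∈ I, ∀ z ∈ cdisc r', |val f i z| ≤ M * (|z.1| + |z.2|)) →
      f * H ∈ LB I r' := by
    intro f M hf
    refine LB.of_le hx hy (c := M) fun i hi z hz => ?_
    rw [val_mul, val_mul, val_mul, val_xF i (hi.mem hz), val_yF i (hi.mem hz), abs_mul, abs_mul,
      abs_mul, ← add_mul, ← mul_assoc]
    exact mul_le_mul_of_nonneg_right (hf i hi.1 z hz) (abs_nonneg _)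
  have ηH : η * H ∈ LB I r' := by
    refine wt η r₀⁻¹ fun i hi z hz => ?_
    rw [vη i z (cdisc_subset_disc r0' (hI i hi) hz)]
    by_cases h : z ∈ cdisc r₀
    · rw [cut_eq_one h0.le h1 h]; simp only [sub_self, mul_zero, abs_zero]; positivity
    · have b1 : |cut s r' z * (1 - cut r₀ r z)| ≤ 1 := by
        have c1 : 0 ≤ cut s r' z := Real.smoothTransition.nonneg _
        have c2 : cut s r' z ≤ 1 := Real.smoothTransition.le_one _
        have c3 : 0 ≤ cut r₀ r z := Real.smoothTransition.nonneg _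
        have c4 : cut r₀ r z ≤ 1 := Real.smoothTransition.le_one _
        rw [abs_of_nonneg (mul_nonneg c1 (by linarith))]
        nlinarith
      refine b1.trans ?_
      rw [le_inv_mul_iff₀ h0, mul_one]
      have b2 : r₀ ^ 2 < z.1 ^ 2 + z.2 ^ 2 := not_le.1 h
      refine (abs_le_of_sq_le_sq' ?_ (by positivity)).2
      nlinarith [sq_abs z.1, sq_abs z.2, mul_nonneg (abs_nonneg z.1) (abs_nonneg z.2)]
  -- the elliptic estimate in the ring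
  obtain ⟨v1, v2⟩ : η * G.D1 ψ ∈ LB I r' ∧ η * G.D2 ψ ∈ LB I r' := by
    refine absorb hc (fun i hi => In_JD he (Ideal.mul_mem_right (η * G.K * ψ * G.D1 ψ) _ cη)
      (Ideal.mul_mem_right (η * ψ * G.D2 ψ) _ cη) hi)
      ((cls R I r').mul (f := -G.J * (2 * G.D1 η * G.K + η * (G.D1 G.K - G.e1 n))) (by alg_mem) hψ)
      ((cls R I r').mul (f := -G.J * (2 * G.D2 η - η * G.e2)) (by alg_mem) hψ)
      (LB.mul_IB ((cls R I r').mul (f := -G.J * η) (by alg_mem) hψ) ηH) fun i hi z hz => ?_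
    rw [← G.ring_id n ψ H η hH]
    simp only [sq, val_add, val_mul]
    by_cases h : z ∈ cdisc r₀
    · rw [vη i z (hi.mem hz), cut_eq_one h0.le h1 h]; simp
    · rw [mul_add]
      exact add_le_add (mul_le_mul_of_nonneg_right (posK i hi.1 z hz h) (mul_self_nonneg _))
        (mul_le_mul_of_nonneg_right (posJ i hi.1 z hz) (mul_self_nonneg _))
  have dζ : ∀ g : Fam R, g ∈ Van (fun _ => disc r) → g ∈ CS s → g * η ^ 2 = g := by
    intro g g1 g2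
    refine Fam.ext fun i z hz => ?_
    rw [sq, val_mul, val_mul]
    by_cases b1 : z ∈ disc r
    · rw [g1 i z b1, zero_mul]
    · by_cases b2 : z ∈ cdisc s
      · rw [vη i z hz, cut_eq_one (r0.trans s1.le) s2 b2, cut_eq_zero h0.le h1 b1]; ring
      · rw [g2 i z b2, zero_mul]
  have z1 : ζ - 1 ∈ Van (fun _ => disc r) := by
    intro i z hz
    by_cases b : z ∈ disc (R i)
    · rw [← valA_apply i b, map_sub, map_one, valA_apply, val_cst _ _ _ b,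
        cut_eq_one r0 s1 (disc_subset_cdisc _ hz), sub_self]
    · exact ev_of_not_mem _ b
  have z2 : ζ ∈ CS s := cut_CS r0 s1 le_rfl
  have o1 : ∀ _ : ι, IsOpen (disc r) := fun _ => isOpen_disc r
  have o2 : ∀ _ : ι, IsOpen (cdisc s)ᶜ := fun _ => (isClosed_cdisc s).isOpen_compl
  have d1 := dζ (G.D1 ζ) (by simpa using Van_D1 he o1 z1) (Van_D1 he o2 z2)
  have d2 := dζ (G.D2 ζ) (by simpa using Van_D2 he o1 z1) (Van_D2 he o2 z2)
  obtain ⟨u1, u2⟩ : ζ * G.D1 ψ ∈ LB I r' ∧ ζ * G.D2 ψ ∈ LB I r' := by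
    refine absorb' (G.star_id n ψ H η ζ hH d1 d2) hc
      (fun i hi => In_JD he (Ideal.mul_mem_right _ _ cζ) (Ideal.mul_mem_right _ _ cζ) hi)
      ((cls R I r').mul (by alg_mem) (wt _ _ hP))
      ((cls R I r').mul (by alg_mem) (wt _ _ hY'))
      (add_mem (add_mem (IB.mul ?_ (LB.mul_IB v1 v1)) (IB.mul ?_ (LB.mul_IB v1 v2)))
        (IB.mul ?_ (LB.mul_IB v2 v2))) fun i hi z hz => ?_
    rotate_right
    · have := pos i hi.1 z hz (val (ζ * G.D1 ψ) i z) (val (ζ * G.D2 ψ) i z)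
      simpa only [sq, val_add, val_mul] using this
    all_goals change _ ∈ (cls R I r').U; alg_mem
  have fin : ∀ g : Fam R, ζ * g ∈ LB I r' → g ∈ LB I r := by
    intro g hg
    have := cls_monoL r0 h2.le hI hg
    refine LB.of_le this this (c := 1) fun i hi z hz => ?_
    rw [val_mul, val_cst _ _ _ (hi.mem hz), cut_eq_one r0 s1 hz, one_mul, one_mul]
    exact le_add_of_nonneg_right (abs_nonneg _)
  exact ⟨fin _ u1, fin _ u2⟩

end Geo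

end Crest.Agent.R220
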