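import Crest.Agent.R220.Geo

/-! The regularity induction (abstract part). -/

set_option autoImplicit false

namespace Crest.Agent.R220

open DP

variable {R : Type} [CommRing R] [Algebra ℝ R]

/-- closure of a subalgebra under polynomial expressions -/
macro "alg_mem" : tactic => `(tactic| repeat' first
  | assumption
  | exact one_mem _
  | exact zero_mem _
  | exact natCast_mem _ _
  | exact ofNat_mem _ _
  | with_reducible apply add_mem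
  | with_reducible apply sub_mem
  | with_reducible apply mul_mem
  | with_reducible apply neg_mem
  | with_reducible apply pow_mem)

namespace Geo
variable (G : Geo R)

def e1 (n : ℕ) : R := ((n : R) + 2) * G.D1 G.K + G.D1 G.X * G.B1
def e2 : R := G.D1 G.X * G.B2

lemma ig_U {C : Cls R} {n : ℕ} (h0 : G.ig ∈ C.U) (h1 : G.w1 ∈ G.e.U C n) (h2 : G.w2 ∈ G.e.U C n) :
    G.ig ∈ G.e.U C (n + 1) := by
  have d1 := G.dig (d := G.e.d1) (a := 1) (b := 0) (by simp)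
  have d2 := G.dig (d := G.e.d2) (a := 0) (b := 1) (by simp)
  induction n with
  | zero =>
    refine U_succ.2 ⟨h0, ?_, ?_⟩
    · rw [d1]; exact mul_mem (mul_mem (neg_mem (ofNat_mem _ _)) h0) h1
    · rw [d2]; exact mul_mem (mul_mem (neg_mem (ofNat_mem _ _)) h0) h2
  | succ n ih =>
    have := ih (U_le h1 (by omega)) (U_le h2 (by omega))
    refine U_succ.2 ⟨h0, ?_, ?_⟩
    · rw [d1]; exact mul_mem (mul_mem (neg_mem (ofNat_mem _ _)) this) h1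
    · rw [d2]; exact mul_mem (mul_mem (neg_mem (ofNat_mem _ _)) this) h2

/-- a priori bounds of low order -/
structure Low (C : Cls R) : Prop where
  x1 : G.x1 ∈ G.e.U C 6
  x2 : G.x2 ∈ G.e.U C 6
  y1 : G.y1 ∈ G.e.U C 6
  y2 : G.y2 ∈ G.e.U C 6
  P : G.P ∈ G.e.U C 6
  Q : G.Q ∈ G.e.U C 6
  iJ : G.iJ ∈ G.e.U C 5

/-- bounds on the metric -/
structure Jet (C : Cls R) (x y : R) (J : ℕ) : Prop where
  hx : ∀ n, x ∈ G.e.U C n
  hy : ∀ n, y ∈ G.e.U C n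
  ig : G.ig ∈ C.U
  w1 : G.w1 ∈ G.e.U C (J - 1)
  w2 : G.w2 ∈ G.e.U C (J - 1)
  w1L : G.w1 ∈ G.e.L C J
  w2L : G.w2 ∈ G.e.L C J
  xk1 : x * G.e.d1 G.k ∈ G.e.L C (J - 1) ∧ x * G.e.d1 G.k ∈ G.e.U C (J - 2)
  xk2 : x * G.e.d2 G.k ∈ G.e.L C (J - 1) ∧ x * G.e.d2 G.k ∈ G.e.U C (J - 2)
  yk1 : y * G.e.d1 G.k ∈ G.e.L C (J - 1) ∧ y * G.e.d1 G.k ∈ G.e.U C (J - 2)
  yk2 : y * G.e.d2 G.k ∈ G.e.L C (J - 1) ∧ y * G.e.d2 G.k ∈ G.e.U C (J - 2)

variable {G} {C : Cls R} {x y : R} {J : ℕ}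

lemma Low.a1 (h : G.Low C) : G.a1 ∈ G.e.U C 5 := mul_mem (U_le h.y2 (by omega)) h.iJ
lemma Low.b1 (h : G.Low C) : G.b1 ∈ G.e.U C 5 := mul_mem (neg_mem (U_le h.y1 (by omega))) h.iJ
lemma Low.a2 (h : G.Low C) : G.a2 ∈ G.e.U C 5 := mul_mem (neg_mem (U_d2 h.P)) h.iJ
lemma Low.b2 (h : G.Low C) : G.b2 ∈ G.e.U C 5 := mul_mem (U_d1 h.P) h.iJ

lemma Low.toD (h : G.Low C) {f : R} {n : ℕ} (hn : n ≤ 6) (hf : f ∈ G.e.U C n) : f ∈ G.D.U C n :=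
  transfer (T := C.U.toSubmodule) (fun _ h _ h' => C.U.mul_mem h h') G.D G.D1_apply G.D2_apply
    h.a1 h.b1 h.a2 h.b2 hn hf

lemma Low.D1 (h : G.Low C) {f : R} {n : ℕ} (hn : n ≤ 5) (hf : f ∈ G.e.U C (n + 1)) :
    G.D1 f ∈ G.e.U C n :=
  add_mem (mul_mem (U_le h.a1 hn) (U_d1 hf)) (mul_mem (U_le h.b1 hn) (U_d2 hf))

lemma Low.D2 (h : G.Low C) {f : R} {n : ℕ} (hn : n ≤ 5) (hf : f ∈ G.e.U C (n + 1)) :
    G.D2 f ∈ G.e.U C n :=
  add_mem (mul_mem (U_le h.a2 hn) (U_d1 hf)) (mul_mem (U_le h.b2 hn) (U_d2 hf))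

lemma Low.D1X (h : G.Low C) : G.D1 G.X ∈ G.e.U C 5 :=
  add_mem (mul_mem h.a1 (U_le h.x1 (by omega))) (mul_mem h.b1 (U_le h.x2 (by omega)))

lemma Low.D2X (h : G.Low C) : G.D2 G.X ∈ G.e.U C 5 :=
  add_mem (mul_mem h.a2 (U_le h.x1 (by omega))) (mul_mem h.b2 (U_le h.x2 (by omega)))

/-- from hodograph derivatives back to the partial derivatives -/
lemma Low.toE (h : G.Low C) {f : R} (hf : f ∈ G.D.L C 2) : f ∈ G.e.L C 2 :=
  transfer (D := G.D) (T := C.U.toSubmodule) (fun _ h _ h' => C.mul h h') G.e G.dx_eq G.dy_eq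
    (N := 1) (h.toD (n := 1) (by omega) (U_d1 (U_le h.P (by omega))))
    (h.toD (n := 1) (by omega) (U_le h.y1 (by omega)))
    (h.toD (n := 1) (by omega) (U_d2 (U_le h.P (by omega))))
    (h.toD (n := 1) (by omega) (U_le h.y2 (by omega)))
    le_rfl hf

lemma Jet.k (h : G.Jet C x y J) (hJ : 2 ≤ J) : G.k ∈ G.e.L C (J - 1) ∧ G.k ∈ G.e.U C (J - 2) :=
  ⟨neg_mem (add_mem (L_d1 (L_le h.w1L (by omega))) (L_d2 (L_le h.w2L (by omega)))),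
    neg_mem (add_mem (U_d1 (U_le h.w1 (by omega))) (U_d2 (U_le h.w2 (by omega))))⟩

variable (G C) in
/-- the level `n` of the induction -/
structure Lev (n : ℕ) : Prop where
  x1 : G.x1 ∈ G.D.H C (n + 1)
  x2 : G.x2 ∈ G.D.H C (n + 1)
  y1 : G.y1 ∈ G.D.H C (n + 1)
  y2 : G.y2 ∈ G.D.H C (n + 1)
  P : G.P ∈ G.D.H C (n + 1)
  Q : G.Q ∈ G.D.H C (n + 1)
  a1 : G.a1 ∈ G.D.H C n
  b1 : G.b1 ∈ G.D.H C n
  a2 : G.a2 ∈ G.D.H C n
  b2 : G.b2 ∈ G.D.H C n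

lemma Lev.jet {n : ℕ} (h : G.Lev C n) (hn : 3 ≤ n) {f : R} {k : ℕ} (hk3 : 3 ≤ k) (hk : k ≤ n + 1)
    (hf : f ∈ G.e.L C k) (hf' : f ∈ G.e.U C (k - 1)) : f ∈ G.D.H C k :=
  jet_S G.e G.D1_apply G.D2_apply h.a1 h.b1 h.a2 h.b2 hn hk3 hk hf hf'

lemma Lev.jetU {n : ℕ} (h : G.Lev C n) (hn : 3 ≤ n) {f : R} (hf : f ∈ G.e.U C (n + 1)) :
    f ∈ G.D.H C (n + 1) :=
  h.jet hn (by omega) le_rfl (L_of_U hf) (U_le hf (by omega))

lemma Lev.ig {n : ℕ} (h : G.Lev C n) (hn : 3 ≤ n) (hj : G.Jet C x y J) (hJ : n + 1 ≤ J) :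
    G.ig ∈ G.D.H C (n + 1) :=
  h.jetU hn (G.ig_U hj.ig (U_le hj.w1 (by omega)) (U_le hj.w2 (by omega)))

lemma Lev.w1 {n : ℕ} (h : G.Lev C n) (hn : 3 ≤ n) (hj : G.Jet C x y J) (hJ : n + 1 ≤ J) :
    G.w1 ∈ G.D.H C (n + 1) :=
  h.jet hn (by omega) le_rfl (L_le hj.w1L hJ) (U_le hj.w1 (by omega))

lemma Lev.w2 {n : ℕ} (h : G.Lev C n) (hn : 3 ≤ n) (hj : G.Jet C x y J) (hJ : n + 1 ≤ J) :
    G.w2 ∈ G.D.H C (n + 1) :=
  h.jet hn (by omega) le_rfl (L_le hj.w2L hJ) (U_le hj.w2 (by omega))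

lemma Lev.k {n : ℕ} (h : G.Lev C n) (hn : 3 ≤ n) (hj : G.Jet C x y J) (hJ : n + 2 ≤ J) :
    G.k ∈ G.D.H C (n + 1) :=
  h.jet hn (by omega) le_rfl (L_le (hj.k (by omega)).1 (by omega))
    (U_le (hj.k (by omega)).2 (by omega))

lemma Lev.W {n : ℕ} (h : G.Lev C n) : G.W ∈ G.D.H C (n + 1) := by
  have := h.P; have := h.Q; unfold Geo.W; alg_mem

lemma Lev.Dl {n : ℕ} (h : G.Lev C n) : G.Dl ∈ G.D.H C (n + 1) := by
  have := h.x1; have := h.x2; have := h.y1; have := h.y2; unfold Geo.Dl; alg_mem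

lemma Lev.iD {n : ℕ} (h : G.Lev C n) (hn : 3 ≤ n) (hj : G.Jet C x y J) (hJ : n + 1 ≤ J) :
    G.iD ∈ G.D.H C (n + 1) := by
  have := h.W; have := h.Dl; have := h.ig hn hj hJ; rw [iD_eq]; alg_mem

lemma Lev.E {n : ℕ} (h : G.Lev C n) (hn : 3 ≤ n) (hj : G.Jet C x y J) (hJ : n + 1 ≤ J) :
    G.E ∈ G.D.H C (n + 1) := by
  have := h.W; have := h.ig hn hj hJ; unfold Geo.E; alg_mem

lemma Lev.K {n : ℕ} (h : G.Lev C n) (hn : 3 ≤ n) (hj : G.Jet C x y J) (hJ : n + 2 ≤ J) :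
    G.K ∈ G.D.H C (n + 1) := mul_mem (h.E hn hj (by omega)) (h.k hn hj hJ)

lemma Lev.succ {n : ℕ} (h : G.Lev C n) (hn : 3 ≤ n) (hj : G.Jet C x y J) (hJ : n + 2 ≤ J)
    (v1 : G.D1 G.X ∈ G.D.H C (n + 1)) (v2 : G.D2 G.X ∈ G.D.H C (n + 1)) : G.Lev C (n + 1) := by
  have := h.x1; have := h.x2; have := h.y1; have := h.y2; have := h.P; have := h.Q
  have := h.iD hn hj (by omega); have := h.w1 hn hj (by omega); have := h.w2 hn hj (by omega)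
  have := h.K hn hj hJ
  have a1 : G.a1 ∈ G.D.H C (n + 1) := by rw [a1_eq]; alg_mem
  have b1 : G.b1 ∈ G.D.H C (n + 1) := by rw [b1_eq]; alg_mem
  have a2 : G.a2 ∈ G.D.H C (n + 1) := by rw [a2_eq]; alg_mem
  have b2 : G.b2 ∈ G.D.H C (n + 1) := by rw [b2_eq]; alg_mem
  have p1 : G.D1 G.P ∈ G.D.H C (n + 1) := by rw [D1P]; alg_mem
  have p2 : G.D2 G.P ∈ G.D.H C (n + 1) := by rw [D2P]; alg_mem
  have q1 : G.D1 G.Q ∈ G.D.H C (n + 1) := by rw [D1Q]; alg_mem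
  have q2 : G.D2 G.Q ∈ G.D.H C (n + 1) := by rw [D2Q]; alg_mem
  have iW : G.iW ∈ G.D.H C (n + 1) := by
    have := h.Dl; have := h.ig hn hj (by omega); unfold Geo.iW; alg_mem
  refine ⟨S_succ (U_base (S_U1 h.x1)) ?_ ?_, S_succ (U_base (S_U1 h.x2)) ?_ ?_,
    S_succ (U_base (S_U1 h.y1)) ?_ ?_, S_succ (U_base (S_U1 h.y2)) ?_ ?_,
    S_succ (U_base (S_U1 h.P)) p1 p2, S_succ (U_base (S_U1 h.Q)) q1 q2, a1, b1, a2, b2⟩
  · change G.D1 _ ∈ _; rw [G.dx1 G.D1_apply]; alg_mem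
  · change G.D2 _ ∈ _; rw [G.dx1 G.D2_apply]; alg_mem
  · change G.D1 _ ∈ _; rw [G.dx2 G.D1_apply]; alg_mem
  · change G.D2 _ ∈ _; rw [G.dx2 G.D2_apply]; alg_mem
  · change G.D1 _ ∈ _; rw [G.dy1 G.D1_apply]; alg_mem
  · change G.D2 _ ∈ _; rw [G.dy1 G.D2_apply]; alg_mem
  · change G.D1 _ ∈ _; rw [G.dy2 G.D1_apply]; alg_mem
  · change G.D2 _ ∈ _; rw [G.dy2 G.D2_apply]; alg_mem

lemma Low.lev (h : G.Low C) (hj : G.Jet C x y J) {n : ℕ} (hn : 4 ≤ n) (hJ : n + 1 ≤ J)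
    (v1 : G.D1 G.X ∈ G.D.H C n) (v2 : G.D2 G.X ∈ G.D.H C n) : G.Lev C n := by
  induction n, hn using Nat.le_induction with
  | base =>
    have k6 : ∀ {f}, f ∈ G.e.U C 6 → f ∈ G.D.H C 5 := fun hf =>
      S_of_U (by omega) (h.toD (by omega) (U_le hf (by omega)))
    have k5 : ∀ {f}, f ∈ G.e.U C 5 → f ∈ G.D.H C 4 := fun hf =>
      S_of_U (by omega) (h.toD (by omega) (U_le hf (by omega)))
    exact ⟨k6 h.x1, k6 h.x2, k6 h.y1, k6 h.y2, k6 h.P, k6 h.Q, k5 h.a1, k5 h.b1, k5 h.a2, k5 h.b2⟩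
  | succ n hn ih =>
    exact (ih (by omega) (S_le v1 (by omega)) (S_le v2 (by omega))).succ (by omega) hj hJ v1 v2

/-- the differentiated equation -/
lemma Lev.equation {n : ℕ} (h : G.Lev C n) (hn : 4 ≤ n) (hj : G.Jet C x y J) (hJ : n + 2 ≤ J)
    (v1 : G.D1 G.X ∈ G.D.H C n) (v2 : G.D2 G.X ∈ G.D.H C n) {ψ H : R} (hψ : ψ = G.D1^[n + 1] G.X)
    (hH : H = G.D2 (G.D2 ψ) + G.K * G.D1 (G.D1 ψ) + G.e1 n * G.D1 ψ + G.e2 * G.D2 ψ) :
    x * H ∈ C.L ∧ y * H ∈ C.L := by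
  have hn3 : 3 ≤ n := by omega
  have := h.y1; have := h.y2; have := h.P; have := h.Q; have := h.W
  have := h.iD hn3 hj (by omega); have := h.w1 hn3 hj (by omega); have := h.w2 hn3 hj (by omega)
  have hK := h.K hn3 hj hJ
  have := h.E hn3 hj (by omega); have := h.ig hn3 hj (by omega); have := h.k hn3 hj hJ
  have hB0 : G.B0 ∈ G.D.H C (n + 1) := by unfold B0; alg_mem
  have hB2 : G.B2 ∈ G.D.H C (n + 1) := by unfold B2; alg_mem
  have hk := hj.k (by omega)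
  have k1 : G.e.d1 G.k ∈ G.D.H C n := h.jet hn3 hn3 (by omega) (L_d1 (L_le hk.1 (by omega)))
    (U_d1 (U_le hk.2 (by omega)))
  have k2 : G.e.d2 G.k ∈ G.D.H C n := h.jet hn3 hn3 (by omega) (L_d2 (L_le hk.1 (by omega)))
    (U_d2 (U_le hk.2 (by omega)))
  have hB1' : 2 * G.E * G.k * (G.w1 * (G.y2 * G.iD) + G.w2 * (-G.y1 * G.iD)) ∈ G.D.H C (n + 1) := by
    alg_mem
  have hA : G.E * (G.y2 * G.iD) ∈ G.D.H C (n + 1) := by alg_mem
  have hA' : G.E * (-G.y1 * G.iD) ∈ G.D.H C (n + 1) := by alg_mem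
  have eB : G.B1 = G.E * (G.y2 * G.iD) * G.e.d1 G.k + G.E * (-G.y1 * G.iD) * G.e.d2 G.k -
    2 * G.E * G.k * (G.w1 * (G.y2 * G.iD) + G.w2 * (-G.y1 * G.iD)) := by rw [B1]; ring
  have hB1 : G.B1 ∈ G.D.H C n := by
    have := S_le hB1' (Nat.le_succ n); have := S_le hA (Nat.le_succ n)
    have := S_le hA' (Nat.le_succ n)
    rw [eB]; alg_mem
  have R1 := comm3 (D := G.D) (C := C) (f := G.K) (g := G.D1 G.X) n
    fun i l e h1 h2 => Ok.of_S hK v1 (by omega)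
  have R2 := comm2 (D := G.D) (C := C) (f := G.B1) (g := G.D1 G.X) n
    fun i l e h1 h2 => Ok.of_S hB1 v1 (by omega)
  have R3 := comm1' (D := G.D) (C := C) (f := G.B2) (g := G.D2 G.X) (n + 1)
    fun i l e h1 => Ok.of_S hB2 v2 (by omega)
  have R4 : G.D1^[n + 1] G.B0 ∈ C.L := W_iter1 (D := G.D) (n := 0) (n + 1) (S_L hB0 (by omega))
  change G.D1^[n + 2] _ - _ * G.D1^[n + 2] _ - _ * (G.D1 _ * G.D1^[n + 1] _) - G.D1^[n + 2] _ * _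
    ∈ _ at R1
  change G.D1^[n + 1] _ - _ * G.D1^[n + 1] _ - G.D1^[n + 1] _ * _ ∈ _ at R2
  change G.D1^[n + 1] _ - _ * G.D1^[n + 1] _ ∈ _ at R3
  have p1 : G.D1 ψ = G.D1^[n + 1] (G.D1 G.X) := by
    rw [hψ, ← Function.iterate_succ_apply' G.D1, Function.iterate_succ_apply]
  have p11 : G.D1 (G.D1 ψ) = G.D1^[n + 2] (G.D1 G.X) := by
    rw [p1, ← Function.iterate_succ_apply' G.D1]
  have p2 : G.D2 ψ = G.D1^[n + 1] (G.D2 G.X) := by rw [hψ]; exact comm_iter (D := G.D) _ _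
  have p22 : G.D2 (G.D2 ψ) = -G.D1^[n + 2] (G.K * G.D1 G.X) := by
    rw [p2, show G.D2 (G.D1^[n + 1] (G.D2 G.X)) = _ from comm_iter (D := G.D) _ _]
    change G.D1^[n + 1] (G.D2 (G.D2 G.X)) = _
    rw [main_eq, iter_neg, ← Function.iterate_succ_apply]
  have pK : G.D1^[n + 2] G.K = G.D1^[n + 1] (G.B1 * G.D1 G.X) + G.D1^[n + 1] (G.B2 * G.D2 G.X) +
      G.D1^[n + 1] G.B0 := by
    rw [Function.iterate_succ_apply, D1K, iter_add, iter_add]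
  have uv : G.D1 G.X ∈ C.U := U_base (S_U1 v1)
  have H1 : H + G.D1 G.X * G.D1 G.X * G.D1^[n + 1] G.B1 ∈ C.L := by
    have := sub_mem (neg_mem R1) (C.mul uv (add_mem (add_mem R2 R3) R4))
    convert this using 1
    rw [hH, p22, p11, p1, p2, pK, e1, e2]
    ring
  have key : ∀ z : R, (∀ n, z ∈ G.e.U C n) →
      (z * G.e.d1 G.k ∈ G.e.L C (J - 1) ∧ z * G.e.d1 G.k ∈ G.e.U C (J - 2)) →
      (z * G.e.d2 G.k ∈ G.e.L C (J - 1) ∧ z * G.e.d2 G.k ∈ G.e.U C (J - 2)) → z * H ∈ C.L := by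
    intro z hz z1 z2
    have hz' := h.jetU hn3 (hz (n + 1))
    have z1' := h.jet hn3 (k := n + 1) (by omega) le_rfl (L_le z1.1 (by omega)) (U_le z1.2 (by omega))
    have z2' := h.jet hn3 (k := n + 1) (by omega) le_rfl (L_le z2.1 (by omega)) (U_le z2.2 (by omega))
    have hzB : z * G.B1 ∈ G.D.H C (n + 1) := by
      have : z * G.B1 = G.E * (G.y2 * G.iD) * (z * G.e.d1 G.k) + G.E * (-G.y1 * G.iD) *
          (z * G.e.d2 G.k) - z * (2 * G.E * G.k * (G.w1 * (G.y2 * G.iD) + G.w2 * (-G.y1 * G.iD))) := by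
        rw [eB]; ring
      rw [this]
      exact sub_mem (add_mem (mul_mem hA z1') (mul_mem hA' z2')) (mul_mem hz' hB1')
    have R5 := comm1' (D := G.D) (C := C) (f := z) (g := G.B1) (n + 1)
      fun i l e h1 => Ok.of_S hz' hB1 (by omega)
    have R6 : G.D1^[n + 1] (z * G.B1) ∈ C.L :=
      W_iter1 (D := G.D) (n := 0) (n + 1) (S_L hzB (by omega))
    change G.D1^[n + 1] _ - _ * G.D1^[n + 1] _ ∈ _ at R5
    have := sub_mem (C.mul (U_base (hz 0)) H1) (C.mul (mul_mem uv uv) (sub_mem R6 R5))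
    convert this using 1
    ring
  exact ⟨key x hj.hx hj.xk1 hj.xk2, key y hj.hy hj.yk1 hj.yk2⟩

/-- all derivatives of the next order from the two controlled ones -/
lemma Lev.all {n : ℕ} (h : G.Lev C n) (hn : 4 ≤ n) (hj : G.Jet C x y J) (hJ : n + 2 ≤ J)
    (v1 : G.D1 G.X ∈ G.D.H C n) (v2 : G.D2 G.X ∈ G.D.H C n)
    (u1 : G.D1^[n + 2] G.X ∈ C.L) (u2 : G.D1^[n + 1] (G.D2 G.X) ∈ C.L) :
    G.D1 G.X ∈ G.D.L C (n + 1) ∧ G.D2 G.X ∈ G.D.L C (n + 1) := by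
  have hK := h.K (by omega) hj hJ
  have key : ∀ b a, a + b = n + 2 → G.D1^[a] (G.D2^[b] G.X) ∈ C.L := by
    intro b
    induction b using Nat.twoStepInduction with
    | zero => intro a e; obtain rfl : a = n + 2 := e; exact u1
    | one => intro a e; obtain rfl : a = n + 1 := by omega
             exact u2
    | more b ih _ =>
      intro a e
      have R1 := comm1 (D := G.D) (C := C) (f := G.K) (g := G.D1 G.X) (a + 1) b
        fun i l e h1 => Ok.of_S hK v1 (by omega)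
      have R2 := ih (a + 2) (by omega)
      change G.D1^[a + 1] (G.D2^[b] _) - _ * G.D1^[a + 1] (G.D2^[b] (G.D1 G.X)) ∈ _ at R1
      have c1 : ∀ f, G.D2^[b] (G.D1 f) = G.D1 (G.D2^[b] f) := fun f =>
        (comm_iter' (D := G.D) b f).symm
      rw [c1, ← Function.iterate_succ_apply G.D1] at R1
      rw [Function.iterate_succ_apply, Function.iterate_succ_apply, main_eq, iter_neg, iter_neg, c1,
        ← Function.iterate_succ_apply G.D1]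
      have := add_mem R1 (C.mul (U_base (S_U1 hK)) R2)
      rw [sub_add_cancel] at this
      exact neg_mem this
  constructor
  · refine mem_W_iff.2 fun a b hab => ?_
    rcases hab.lt_or_eq with hab | hab
    · exact mem_W_iff.1 v1.1 a b (by omega)
    · have := key b (a + 1) (by omega)
      rw [Function.iterate_succ_apply, show G.D1 (G.D2^[b] G.X) = _ from
        comm_iter' (D := G.D) b G.X] at this
      exact this
  · refine mem_W_iff.2 fun a b hab => ?_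
    rcases hab.lt_or_eq with hab | hab
    · exact mem_W_iff.1 v2.1 a b (by omega)
    · exact key (b + 1) a (by omega)

variable (G) in
/-- the analytic input -/
structure Ana (C : ℝ → Cls R) (x y : R) (J : ℕ) (r₀ r₁ : ℝ) : Prop where
  monoU : ∀ r r', r₀ < r → r ≤ r' → r' < r₁ → ∀ f ∈ (C r').U, f ∈ (C r).U
  monoL : ∀ r r', r₀ < r → r ≤ r' → r' < r₁ → ∀ f ∈ (C r').L, f ∈ (C r).L
  low : ∀ r, r₀ < r → r < r₁ → G.Low (C r)
  jet : ∀ r, r₀ < r → r < r₁ → G.Jet (C r) x y J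
  sob : ∀ r r', r₀ < r → r < r' → r' < r₁ → ∀ f ∈ G.e.L (C r') 2, f ∈ (C r).U
  energy : ∀ r r', r₀ < r → r < r' → r' < r₁ → ∀ n ≤ J, ∀ ψ H : R, ψ ∈ (C r').L →
    H = G.D2 (G.D2 ψ) + G.K * G.D1 (G.D1 ψ) + G.e1 n * G.D1 ψ + G.e2 * G.D2 ψ →
    x * H ∈ (C r').L → y * H ∈ (C r').L → G.D1 ψ ∈ (C r).L ∧ G.D2 ψ ∈ (C r).L

lemma Ana.monoH {C : ℝ → Cls R} {r₀ r₁ : ℝ} (h : G.Ana C x y J r₀ r₁) {r r' : ℝ} (h0 : r₀ < r)
    (h1 : r ≤ r') (h2 : r' < r₁) {n : ℕ} {f : R} (hf : f ∈ G.D.H (C r') n) : f ∈ G.D.H (C r) n :=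
  ⟨W_mono (h.monoL r r' h0 h1 h2) hf.1, W_mono (h.monoU r r' h0 h1 h2) hf.2.1,
    W_mono (h.monoU r r' h0 h1 h2) hf.2.2⟩

lemma Ana.sobD {C : ℝ → Cls R} {r₀ r₁ : ℝ} (h : G.Ana C x y J r₀ r₁) {r r' : ℝ} (h0 : r₀ < r)
    (h1 : r < r') (h2 : r' < r₁) {n : ℕ} {f : R} (hf : f ∈ G.D.L (C r') (n + 2)) :
    f ∈ G.D.U (C r) n := by
  induction n generalizing f with
  | zero => exact h.sob r r' h0 h1 h2 f ((h.low r' (h0.trans h1) h2).toE hf)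
  | succ n ih =>
    exact U_succ.2 ⟨h.sob r r' h0 h1 h2 f ((h.low r' (h0.trans h1) h2).toE (L_le hf (by omega))),
      ih (L_d1 hf), ih (L_d2 hf)⟩

lemma Ana.top {C : ℝ → Cls R} {r₀ r₁ : ℝ} (h : G.Ana C x y J r₀ r₁) {n : ℕ} (hn : 4 ≤ n)
    (hJ : n + 1 ≤ J) : ∀ r, r₀ < r → r < r₁ →
      G.D1 G.X ∈ G.D.H (C r) n ∧ G.D2 G.X ∈ G.D.H (C r) n := by
  induction n, hn using Nat.le_induction with
  | base =>
    intro r h0 h1
    have hl := h.low r h0 h1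
    exact ⟨S_of_U (by omega) (hl.toD (by omega) (U_le hl.D1X (by omega))),
      S_of_U (by omega) (hl.toD (by omega) (U_le hl.D2X (by omega)))⟩
  | succ n hn ih =>
    intro r h0 h1
    obtain ⟨r', a1, a2⟩ := exists_between h1
    obtain ⟨r'', a3, a4⟩ := exists_between a2
    have b1 := h0.trans a1
    have b2 := b1.trans a3
    obtain ⟨v1, v2⟩ := ih (by omega) r'' b2 a4
    obtain ⟨v1', v2'⟩ := ih (by omega) r' b1 a2
    have lev := (h.low r'' b2 a4).lev (h.jet r'' b2 a4) hn (by omega) v1 v2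
    have lev' := (h.low r' b1 a2).lev (h.jet r' b1 a2) hn (by omega) v1' v2'
    obtain ⟨c1, c2⟩ := lev.equation hn (h.jet r'' b2 a4) hJ v1 v2 rfl rfl
    have c0 : G.D1^[n + 1] G.X ∈ (C r'').L :=
      W_iter1 (D := G.D) (n := 0) n (by rw [zero_add]; exact v1.1)
    obtain ⟨u1, u2⟩ := h.energy r' r'' b1 a3 a4 n (by omega) _ _ c0 rfl c1 c2
    rw [← Function.iterate_succ_apply' G.D1] at u1
    rw [show G.D2 (G.D1^[n + 1] G.X) = _ from comm_iter (D := G.D) _ _] at u2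
    obtain ⟨t1, t2⟩ := lev'.all hn (h.jet r' b1 a2) hJ v1' v2' u1 u2
    obtain ⟨m, rfl⟩ : ∃ m, n = m + 1 := ⟨n - 1, by omega⟩
    exact ⟨S_mk (by omega) (W_mono (h.monoL r r' h0 a1.le a2) t1) (h.sobD h0 a1 a2 t1),
      S_mk (by omega) (W_mono (h.monoL r r' h0 a1.le a2) t2) (h.sobD h0 a1 a2 t2)⟩

/-- the equation at the critical level -/
lemma Ana.final {C : ℝ → Cls R} {r₀ r₁ : ℝ} {n : ℕ} (h : G.Ana C x y (n + 1) r₀ r₁) (hn : 4 ≤ n)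
    {r : ℝ} (h0 : r₀ < r) (h1 : r < r₁) {k₀ k₁ : R} (hk : G.k = k₀ + k₁)
    (hk₀ : k₀ ∈ G.e.U (C r) (n + 1)) :
    G.D1 (G.D1^[n] G.X) ∈ (C r).L ∧ G.D2 (G.D1^[n] G.X) ∈ (C r).L ∧
      G.D2 (G.D2 (G.D1^[n] G.X)) + G.E * k₀ * G.D1 (G.D1 (G.D1^[n] G.X)) +
        G.D1^[n + 1] (k₁ * (G.E * G.D1 G.X)) ∈ (C r).L := by
  obtain ⟨v1, v2⟩ := h.top hn le_rfl r h0 h1
  have lev := (h.low r h0 h1).lev (h.jet r h0 h1) hn le_rfl v1 v2
  have hK : G.E * k₀ ∈ G.D.H (C r) (n + 1) :=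
    mul_mem (lev.E (by omega) (h.jet r h0 h1) le_rfl) (lev.jetU (by omega) hk₀)
  have p1 : G.D1 (G.D1^[n] G.X) = G.D1^[n] (G.D1 G.X) := by
    rw [← Function.iterate_succ_apply' G.D1, Function.iterate_succ_apply]
  have p2 : G.D2 (G.D1^[n] G.X) = G.D1^[n] (G.D2 G.X) := comm_iter (D := G.D) _ _
  refine ⟨?_, ?_, ?_⟩
  · rw [p1]; exact W_iter1 (D := G.D) (n := 0) n (by rw [zero_add]; exact v1.1)
  · rw [p2]; exact W_iter1 (D := G.D) (n := 0) n (by rw [zero_add]; exact v2.1)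
  · have R1 := comm1' (D := G.D) (C := C r) (f := G.E * k₀) (g := G.D1 G.X) (n + 1)
      fun i l e h1 => Ok.of_S hK v1 (by omega)
    change G.D1^[n + 1] _ - _ * G.D1^[n + 1] _ ∈ _ at R1
    have p22 : G.D2 (G.D2 (G.D1^[n] G.X)) = -G.D1^[n + 1] (G.K * G.D1 G.X) := by
      rw [p2, show G.D2 (G.D1^[n] (G.D2 G.X)) = _ from comm_iter (D := G.D) _ _]
      change G.D1^[n] (G.D2 (G.D2 G.X)) = _
      rw [main_eq, iter_neg, ← Function.iterate_succ_apply]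
    have e : G.K * G.D1 G.X = G.E * k₀ * G.D1 G.X + k₁ * (G.E * G.D1 G.X) := by
      rw [K, hk]; ring
    rw [p22, e, iter_add, p1, ← Function.iterate_succ_apply' G.D1]
    convert neg_mem R1 using 1
    ring

end Geo

end Crest.Agent.R220
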