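import Crest.Agent.R220.Int
import Crest.Agent.R220.Reg

/-! Families of smooth functions and uniform bounds. -/

set_option autoImplicit false
set_option linter.unusedVariables false

namespace Crest.Agent.R220

open scoped ContDiff Topology
open Set Filter MeasureTheory Sm DP

/-- families of smooth functions on discs -/
abbrev Fam {ι : Type} (R : ι → ℝ) : Type := ∀ i, Sm (R i)

variable {ι : Type} {R : ι → ℝ}

/-- directional derivative of a family -/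
noncomputable def pdF (v : ℝ × ℝ) : Derivation ℝ (Fam R) (Fam R) :=
  Derivation.mk'
    { toFun := fun f i => pd v (f i)
      map_add' := fun f g => funext fun i => map_add _ _ _
      map_smul' := fun c f => funext fun i => (pd v).map_smul _ _ }
    fun f g => funext fun i => (pd v).leibniz _ _

lemma pdF_apply (v : ℝ × ℝ) (f : Fam R) (i : ι) : pdF v f i = pd v (f i) := rfl

variable (R) in
/-- the partial derivatives -/
noncomputable def eF : DP (Fam R) :=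
  ⟨pdF (1, 0), pdF (0, 1), fun _ => funext fun _ => pd_comm _ _ _⟩

lemma eF_d1 (f : Fam R) (i : ι) : (eF R).d1 f i = px (f i) := rfl
lemma eF_d2 (f : Fam R) (i : ι) : (eF R).d2 f i = py (f i) := rfl

lemma eF_iter (f : Fam R) (i : ι) (a b : ℕ) :
    ((eF R).d1^[a] ((eF R).d2^[b] f)) i = px^[a] (py^[b] (f i)) := by
  have h1 : ∀ a (f : Fam R), ((eF R).d1^[a] f) i = px^[a] (f i) := fun a => by
    induction a with
    | zero => exact fun _ => rfl
    | succ a ih => exact fun f => ih _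
  have h2 : ∀ a (f : Fam R), ((eF R).d2^[a] f) i = py^[a] (f i) := fun a => by
    induction a with
    | zero => exact fun _ => rfl
    | succ a ih => exact fun f => ih _
  rw [h1, h2]

/-- evaluation of a family -/
noncomputable def val (f : Fam R) (i : ι) (z : ℝ × ℝ) : ℝ := (f i).ev z

/-- evaluation as an algebra homomorphism -/
noncomputable def valA (i : ι) {z : ℝ × ℝ} (hz : z ∈ disc (R i)) : Fam R →ₐ[ℝ] ℝ :=
  (evA hz).comp (Pi.evalAlgHom ℝ (fun i => Sm (R i)) i)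

lemma valA_apply (i : ι) {z : ℝ × ℝ} (hz : z ∈ disc (R i)) (f : Fam R) :
    valA i hz f = val f i z := evA_apply hz _

lemma val_add (f g : Fam R) (i : ι) (z : ℝ × ℝ) : val (f + g) i z = val f i z + val g i z :=
  ev_add _ _ _
lemma val_sub (f g : Fam R) (i : ι) (z : ℝ × ℝ) : val (f - g) i z = val f i z - val g i z :=
  ev_sub _ _ _
lemma val_neg (f : Fam R) (i : ι) (z : ℝ × ℝ) : val (-f) i z = -val f i z := ev_neg _ _
lemma val_mul (f g : Fam R) (i : ι) (z : ℝ × ℝ) : val (f * g) i z = val f i z * val g i z :=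
  ev_mul _ _ _
lemma val_smul (c : ℝ) (f : Fam R) (i : ι) (z : ℝ × ℝ) : val (c • f) i z = c * val f i z :=
  ev_smul _ _ _
lemma val_zero (i : ι) (z : ℝ × ℝ) : val (0 : Fam R) i z = 0 := ev_zero _

lemma Fam.ext {f g : Fam R} (h : ∀ i, ∀ z ∈ disc (R i), val f i z = val g i z) : f = g :=
  funext fun i => Sm.ext (h i)

/-- uniformly bounded on the sets `D i` -/
def UB (D : ι → Set (ℝ × ℝ)) : Subalgebra ℝ (Fam R) where
  carrier := {f | ∃ C, ∀ i, ∀ z ∈ D i, |val f i z| ≤ C}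
  mul_mem' := fun {f g} ⟨C, hC⟩ ⟨C', hC'⟩ => ⟨C * C', fun i z hz => by
    rw [val_mul, abs_mul]
    exact mul_le_mul (hC i z hz) (hC' i z hz) (abs_nonneg _) ((abs_nonneg _).trans (hC i z hz))⟩
  add_mem' := fun {f g} ⟨C, hC⟩ ⟨C', hC'⟩ => ⟨C + C', fun i z hz => by
    rw [val_add]
    exact (abs_add_le _ _).trans (add_le_add (hC i z hz) (hC' i z hz))⟩
  algebraMap_mem' := fun c => ⟨|c|, fun i z _ => by
    by_cases h : z ∈ disc (R i)
    · rw [← valA_apply i h, AlgHom.commutes]; rfl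
    · rw [val, ev_of_not_mem _ h, abs_zero]; exact abs_nonneg _⟩

lemma UB.bound {D : ι → Set (ℝ × ℝ)} {f : Fam R} (h : f ∈ UB D) :
    ∃ C, 0 < C ∧ ∀ i, ∀ z ∈ D i, |val f i z| ≤ C := by
  obtain ⟨C, hC⟩ := h
  exact ⟨max C 1, by positivity, fun i z hz => (hC i z hz).trans (le_max_left _ _)⟩

lemma UB.mono {D D' : ι → Set (ℝ × ℝ)} (h : ∀ i, D i ⊆ D' i) {f : Fam R} (hf : f ∈ UB D') :
    f ∈ UB D := hf.imp fun _ hC i z hz => hC i z (h i hz)

/-- only boundedness -/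
noncomputable def clsU (D : ι → Set (ℝ × ℝ)) : Cls (Fam R) :=
  ⟨UB D, (UB D).toSubmodule, fun h h' => (UB D).mul_mem h h', id⟩

variable (R) in
/-- admissible indices -/
def Good (I : Set ι) (r : ℝ) (i : ι) : Prop := i ∈ I ∧ 0 ≤ r ∧ r < R i

lemma Good.mem {I : Set ι} {r : ℝ} {i : ι} (h : Good R I r i) {z : ℝ × ℝ} (hz : z ∈ cdisc r) :
    z ∈ disc (R i) := cdisc_subset_disc h.2.1 h.2.2 hz

variable (R) in
/-- the domain of the class -/
def dom (I : Set ι) (r : ℝ) (i : ι) : Set (ℝ × ℝ) := {z | Good R I r i ∧ z ∈ cdisc r}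

/-- uniformly integrable -/
def IB (I : Set ι) (r : ℝ) : Submodule ℝ (Fam R) where
  carrier := {f | ∃ C, ∀ i, Good R I r i → Ia r (f i) ≤ C}
  add_mem' := fun {f g} ⟨C, hC⟩ ⟨C', hC'⟩ => ⟨1 * (C + C'), fun i hi =>
    (Ia_le hi.2.1 hi.2.2 (g := f i) (g' := g i) (c := 1) fun z _ => by
      rw [Pi.add_apply, ev_add, one_mul]; exact abs_add_le _ _).trans
      (by linarith [hC i hi, hC' i hi])⟩
  zero_mem' := ⟨0, fun i _ => by simp [Ia, ev_zero]⟩
  smul_mem' := fun c f ⟨C, hC⟩ => ⟨|c| * (C + C), fun i hi =>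
    (Ia_le hi.2.1 hi.2.2 (g := f i) (g' := f i) (c := |c|) fun z _ => by
      rw [Pi.smul_apply, ev_smul, abs_mul]
      exact mul_le_mul_of_nonneg_left (le_add_of_nonneg_right (abs_nonneg _)) (abs_nonneg _)).trans
      (mul_le_mul_of_nonneg_left (by linarith [hC i hi]) (abs_nonneg _))⟩

variable {I : Set ι} {r : ℝ}

lemma IB.of_le {f g g' : Fam R} (hg : g ∈ IB I r) (hg' : g' ∈ IB I r) {c : ℝ}
    (h : ∀ i, Good R I r i → ∀ z ∈ cdisc r, |val f i z| ≤ c * (|val g i z| + |val g' i z|)) :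
    f ∈ IB I r := by
  obtain ⟨C, hC⟩ := hg
  obtain ⟨C', hC'⟩ := hg'
  refine ⟨|c| * (C + C'), fun i hi => (Ia_le hi.2.1 hi.2.2 (h i hi)).trans ?_⟩
  have := Ia_nonneg (r := r) (g i)
  have := Ia_nonneg (r := r) (g' i)
  exact (mul_le_mul_of_nonneg_right (le_abs_self c) (by positivity)).trans
    (mul_le_mul_of_nonneg_left (add_le_add (hC i hi) (hC' i hi)) (abs_nonneg _))

lemma IB.one : (1 : Fam R) ∈ IB I r :=
  ⟨volume.real (cdisc r) * 1, fun i hi => by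
    rw [← In_const hi.2.1 hi.2.2]
    refine Ia_le_In hi.2.1 hi.2.2 fun z hz => ?_
    rw [ev_algebraMap _ (hi.mem hz), ← evA_apply (hi.mem hz), Pi.one_apply, map_one, abs_one]⟩

lemma IB.mul {f g : Fam R} (hf : f ∈ UB (dom R I r)) (hg : g ∈ IB I r) : f * g ∈ IB I r := by
  obtain ⟨C, h0, hC⟩ := UB.bound hf
  refine IB.of_le hg hg (c := C) fun i hi z hz => ?_
  rw [val_mul, abs_mul]
  exact mul_le_mul (hC i z ⟨hi, hz⟩) (le_add_of_nonneg_right (abs_nonneg _)) (abs_nonneg _) h0.le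

/-- uniformly square integrable -/
def LB (I : Set ι) (r : ℝ) : Submodule ℝ (Fam R) where
  carrier := {f | f * f ∈ IB I r}
  add_mem' := fun {f g} hf hg => IB.of_le hf hg (c := 2) fun i _ z _ => by
    simp only [val_mul, val_add, abs_mul_self]
    nlinarith [sq_nonneg (val f i z - val g i z)]
  zero_mem' := by simp
  smul_mem' := fun c f hf => by
    change _ ∈ IB I r
    rw [smul_mul_smul_comm]
    exact Submodule.smul_mem _ _ hf

lemma LB.of_le {f g g' : Fam R} (hg : g ∈ LB I r) (hg' : g' ∈ LB I r) {c : ℝ}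
    (h : ∀ i, Good R I r i → ∀ z ∈ cdisc r, |val f i z| ≤ c * (|val g i z| + |val g' i z|)) :
    f ∈ LB I r :=
  IB.of_le hg hg' (c := 2 * c ^ 2) fun i hi z hz => by
    have h1 := mul_self_le_mul_self (abs_nonneg _) (h i hi z hz)
    simp only [val_mul, abs_mul]
    nlinarith [mul_nonneg (sq_nonneg c) (sq_nonneg (|val g i z| - |val g' i z|))]

lemma LB.mul_IB {f g : Fam R} (hf : f ∈ LB I r) (hg : g ∈ LB I r) : f * g ∈ IB I r :=
  IB.of_le hf hg (c := 1) fun i _ z _ => by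
    simp only [val_mul, abs_mul]
    nlinarith [sq_nonneg (|val f i z| - |val g i z|), abs_nonneg (val f i z), abs_nonneg (val g i z)]

variable (R) in
/-- the class attached to a set of indices and a radius -/
noncomputable def cls (I : Set ι) (r : ℝ) : Cls (Fam R) where
  U := UB (dom R I r)
  L := LB I r
  mul := fun {f g} hf hg => by
    change _ ∈ IB I r
    rw [mul_mul_mul_comm]
    exact IB.mul (mul_mem hf hf) hg
  le := fun {f} hf => by
    change _ ∈ IB I r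
    simpa using IB.mul (mul_mem hf hf) IB.one

lemma LB.IB {f : Fam R} (hf : f ∈ LB I r) : f ∈ IB I r := by
  simpa using LB.mul_IB hf ((cls R I r).le (one_mem _))

lemma LB.iff {f : Fam R} : f ∈ LB I r ↔ ∃ C, ∀ i, Good R I r i → In r (f i * f i) ≤ C := by
  refine exists_congr fun C => forall₂_congr fun i _ => ?_
  simp only [Ia, In, Pi.mul_apply, ev_mul, abs_mul_self]

lemma cls_monoU {r' : ℝ} (h0 : 0 ≤ r) (h : r ≤ r') (hI : ∀ i ∈ I, r' < R i) {f : Fam R}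
    (hf : f ∈ (cls R I r').U) : f ∈ (cls R I r).U :=
  UB.mono (D' := dom R I r') (D := dom R I r)
    (fun i _ hz => ⟨⟨hz.1.1, h0.trans h, hI i hz.1.1⟩, cdisc_mono h0 h hz.2⟩) hf

lemma cls_monoL {r' : ℝ} (h0 : 0 ≤ r) (h : r ≤ r') (hI : ∀ i ∈ I, r' < R i) {f : Fam R}
    (hf : f ∈ (cls R I r').L) : f ∈ (cls R I r).L := by
  obtain ⟨C, hC⟩ := LB.iff.1 hf
  exact (LB.iff (I := I) (r := r)).2 ⟨C, fun i hi => (In_sq_mono h0 h (hI i hi.1) _).trans
    (hC i ⟨hi.1, h0.trans h, hI i hi.1⟩)⟩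

lemma cls_of_clsU {D : ι → Set (ℝ × ℝ)} (hD : ∀ i, disc (R i) ⊆ D i) {n : ℕ} {f : Fam R}
    {e : DP (Fam R)} (hf : f ∈ e.U (clsU D) n) : f ∈ e.U (cls R I r) n :=
  W_mono (fun _ h => UB.mono (fun i _ hz => hD i (hz.1.mem hz.2)) h) hf

/-- vanishing on the sets `O i` -/
def Van (O : ι → Set (ℝ × ℝ)) : Ideal (Fam R) where
  carrier := {f | ∀ i, ∀ z ∈ O i, val f i z = 0}
  add_mem' := fun hf hg i z hz => by rw [val_add, hf i z hz, hg i z hz, add_zero]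
  zero_mem' := fun i z _ => val_zero i z
  smul_mem' := fun c f hf i z hz => by rw [smul_eq_mul, val_mul, hf i z hz, mul_zero]

lemma Van.pdF {O : ι → Set (ℝ × ℝ)} (hO : ∀ i, IsOpen (O i)) {f : Fam R} (hf : f ∈ Van O)
    (v : ℝ × ℝ) : pdF v f ∈ Van O := fun i => ev_pd_eq_zero (hO i) (hf i) v

lemma Van.der {O : ι → Set (ℝ × ℝ)} (hO : ∀ i, IsOpen (O i)) {d : Derivation ℝ (Fam R) (Fam R)}
    {a b : Fam R} (hd : ∀ f, d f = a * (eF R).d1 f + b * (eF R).d2 f) {f : Fam R}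
    (hf : f ∈ Van O) : d f ∈ Van O := by
  rw [hd]
  exact add_mem (Ideal.mul_mem_left _ _ (Van.pdF hO hf _)) (Ideal.mul_mem_left _ _ (Van.pdF hO hf _))

/-- compact support in the closed disc -/
abbrev CS (r : ℝ) : Ideal (Fam R) := Van fun _ => (cdisc r)ᶜ

lemma In_div {f g : Fam R} (hf : f ∈ CS r) (hg : g ∈ CS r) {i : ι} (hi : Good R I r i) :
    In r (((eF R).d1 f + (eF R).d2 g) i) = 0 := by
  rw [Pi.add_apply, In_add hi.2.1 hi.2.2, eF_d1, eF_d2, In_pd hi.2.1 hi.2.2 (hf i),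
    In_pd hi.2.1 hi.2.2 (hg i), add_zero]

/-- absorption of the terms of lower order -/
lemma absorb {u₁ u₂ g₁ g₂ h V : Fam R} {c : ℝ} (hc : 0 < c) (hV : ∀ i, Good R I r i → In r (V i) = 0)
    (h₁ : g₁ ∈ LB I r) (h₂ : g₂ ∈ LB I r) (hh : h ∈ IB I r)
    (key : ∀ i, Good R I r i → ∀ z ∈ cdisc r, c * (val u₁ i z ^ 2 + val u₂ i z ^ 2) ≤
      val (V + g₁ * u₁ + g₂ * u₂ + h) i z) : u₁ ∈ LB I r ∧ u₂ ∈ LB I r := by
  obtain ⟨C, hC⟩ := add_mem (Submodule.smul_mem _ c⁻¹ (add_mem h₁ h₂ : g₁ * g₁ + g₂ * g₂ ∈ IB I r))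
    (Submodule.smul_mem _ (2 : ℝ) hh)
  have main : ∀ u : Fam R, (∀ i z, val u i z ^ 2 ≤ val u₁ i z ^ 2 + val u₂ i z ^ 2) →
      u ∈ LB I r := by
    intro u hu
    refine LB.iff.2 ⟨c⁻¹ * C, fun i hi => ?_⟩
    have a1 : In r (c • (u i * u i)) ≤ In r ((2 : ℝ) • V i +
        (c⁻¹ • (g₁ * g₁ + g₂ * g₂) + (2 : ℝ) • h) i) := by
      refine In_mono hi.2.1 hi.2.2 fun z hz => ?_
      have k := key i hi z hz
      have k2 := hu i z
      change val (c • (u * u)) i z ≤ val ((2 : ℝ) • V + (c⁻¹ • (g₁ * g₁ + g₂ * g₂) + (2 : ℝ) • h)) i z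
      simp only [val_add, val_mul, val_smul] at k ⊢
      have e1 : 0 ≤ c⁻¹ * (val g₁ i z - c * val u₁ i z) ^ 2 := by positivity
      have e2 : 0 ≤ c⁻¹ * (val g₂ i z - c * val u₂ i z) ^ 2 := by positivity
      have e3 : c⁻¹ * c = 1 := inv_mul_cancel₀ hc.ne'
      have e4 : ∀ g u : ℝ, c⁻¹ * (g - c * u) ^ 2 = c⁻¹ * (g * g) - 2 * (g * u) + c * u ^ 2 := by
        intro g u; field_simp; ring
      rw [e4] at e1 e2
      nlinarith [mul_le_mul_of_nonneg_left k2 hc.le]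
    rw [In_smul, In_add hi.2.1 hi.2.2, In_smul, hV i hi, mul_zero, zero_add] at a1
    have a2 := (le_abs_self _).trans ((abs_In_le _).trans (hC i hi))
    rw [le_inv_mul_iff₀ hc]
    exact a1.trans a2
  exact ⟨main u₁ fun i z => le_add_of_nonneg_right (sq_nonneg _),
    main u₂ fun i z => le_add_of_nonneg_left (sq_nonneg _)⟩

/-- a fixed smooth function -/
noncomputable def cst (φ : ℝ × ℝ → ℝ) (hφ : ContDiff ℝ ∞ φ) : Fam R :=
  fun _ => mk φ hφ.contDiffOn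

lemma val_cst (φ : ℝ × ℝ → ℝ) (hφ : ContDiff ℝ ∞ φ) (i : ι) {z : ℝ × ℝ} (hz : z ∈ disc (R i)) :
    val (cst φ hφ : Fam R) i z = φ z := ev_mk _ _ hz

lemma contDiff_dir {φ : ℝ × ℝ → ℝ} (hφ : ContDiff ℝ ∞ φ) (v : ℝ × ℝ) :
    ContDiff ℝ ∞ fun z => fderiv ℝ φ z v :=
  (hφ.fderiv_right (m := ∞) (by simp)).clm_apply contDiff_const

lemma pdF_cst (v : ℝ × ℝ) (φ : ℝ × ℝ → ℝ) (hφ : ContDiff ℝ ∞ φ) :
    pdF v (cst φ hφ : Fam R) = cst _ (contDiff_dir hφ v) := funext fun _ => pd_mk _ _ _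

lemma cst_U {C : Cls (Fam R)} {D : ι → Set (ℝ × ℝ)} (hC : C.U = UB D) {M : ℝ} (hM : 0 ≤ M)
    (hD : ∀ i, D i ⊆ cdisc M) (n : ℕ) (φ : ℝ × ℝ → ℝ) (hφ : ContDiff ℝ ∞ φ) :
    (cst φ hφ : Fam R) ∈ (eF R).U C n := by
  have base : ∀ (φ : ℝ × ℝ → ℝ) (hφ : ContDiff ℝ ∞ φ), (cst φ hφ : Fam R) ∈ C.U := by
    intro φ hφ
    obtain ⟨B, hB⟩ := (isCompact_cdisc hM).exists_bound_of_continuousOn hφ.continuous.continuousOn
    rw [hC]
    refine ⟨B, fun i z hz => ?_⟩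
    by_cases h : z ∈ disc (R i)
    · rw [val_cst _ _ _ h]; exact hB z (hD i hz)
    · rw [val, ev_of_not_mem _ h, abs_zero]; exact (norm_nonneg _).trans (hB z (hD i hz))
  induction n generalizing φ with
  | zero => exact base φ hφ
  | succ n ih =>
    refine U_succ.2 ⟨base φ hφ, ?_, ?_⟩
    · change pdF _ _ ∈ _; rw [pdF_cst]; exact ih _ _
    · change pdF _ _ ∈ _; rw [pdF_cst]; exact ih _ _

lemma cst_cls (h0 : 0 ≤ r) (n : ℕ) (φ : ℝ × ℝ → ℝ) (hφ : ContDiff ℝ ∞ φ) :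
    (cst φ hφ : Fam R) ∈ (eF R).U (cls R I r) n :=
  cst_U rfl h0 (fun _ _ hz => hz.2) n φ hφ

/-- radial cutoff, `1` on the disc of radius `a` and `0` outside the disc of radius `b` -/
noncomputable def cut (a b : ℝ) (z : ℝ × ℝ) : ℝ :=
  Real.smoothTransition ((b ^ 2 - (z.1 ^ 2 + z.2 ^ 2)) / (b ^ 2 - a ^ 2))

lemma contDiff_cut (a b : ℝ) : ContDiff ℝ ∞ (cut a b) :=
  Real.smoothTransition.contDiff.comp (by fun_prop)

lemma cut_eq_one {a b : ℝ} (h0 : 0 ≤ a) (h : a < b) {z : ℝ × ℝ} (hz : z ∈ cdisc a) :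
    cut a b z = 1 := by
  have : 0 < b ^ 2 - a ^ 2 := by nlinarith
  exact Real.smoothTransition.one_of_one_le ((one_le_div this).2 (sub_le_sub_left hz _))

lemma cut_eq_zero {a b : ℝ} (h0 : 0 ≤ a) (h : a < b) {z : ℝ × ℝ} (hz : z ∉ disc b) :
    cut a b z = 0 := by
  have : 0 < b ^ 2 - a ^ 2 := by nlinarith
  exact Real.smoothTransition.zero_of_nonpos
    (div_nonpos_of_nonpos_of_nonneg (sub_nonpos.2 (not_lt.1 hz)) this.le)

lemma cst_Van {O : ι → Set (ℝ × ℝ)} {φ : ℝ × ℝ → ℝ} (hφ : ContDiff ℝ ∞ φ)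
    (h : ∀ i, ∀ z ∈ O i, φ z = 0) : (cst φ hφ : Fam R) ∈ Van O := by
  intro i z hz
  by_cases h' : z ∈ disc (R i)
  · rw [val_cst _ _ _ h', h i z hz]
  · exact ev_of_not_mem _ h'

lemma cut_CS {a b : ℝ} (h0 : 0 ≤ a) (h : a < b) (hr : b ≤ r) :
    (cst (cut a b) (contDiff_cut a b) : Fam R) ∈ CS r :=
  cst_Van _ fun _ _ hz => cut_eq_zero h0 h fun h' =>
    hz (cdisc_mono (h0.trans h.le) hr (disc_subset_cdisc _ h'))

/-- Sobolev embedding -/
lemma sobolev {r' : ℝ} (h0 : 0 ≤ r) (h : r < r') (hI : ∀ i ∈ I, r' < R i) {f : Fam R}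
    (hf : f ∈ (eF R).L (cls R I r') 2) : f ∈ (cls R I r).U := by
  have h1 := U_mul_L (cst_cls (h0.trans h.le) 2 _ (contDiff_cut r r')) hf
  obtain ⟨C, hC⟩ := LB.IB (L_base (L_d1 (L_d2 h1)))
  refine ⟨C, fun i z hz => ?_⟩
  have hi : Good R I r' i := ⟨hz.1.1, h0.trans h.le, hI i hz.1.1⟩
  have := abs_le_Ia hi.2.1 hi.2.2 (Ideal.mul_mem_right f _ (cut_CS h0 h le_rfl) i) z
  refine le_trans (le_of_eq ?_) (this.trans (hC i hi))
  change _ = |val _ i z|
  rw [val_mul, val_cst _ _ _ (hz.1.mem hz.2), cut_eq_one h0 h hz.2, one_mul]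

end Crest.Agent.R220
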