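import Crest.Agent.R220.Cls

/-! The equations of an isometric immersion in hodograph coordinates (pure algebra). -/

set_option autoImplicit false

namespace Crest.Agent.R220

/-- formal isometric immersion `(X, Y, Z)` for the metric `g (dx² + dy²)`, `g = exp (2 w)` -/
structure Geo (R : Type) [CommRing R] [Algebra ℝ R] where
  e : DP R
  X : R
  Y : R
  Z : R
  w : R
  g : R
  ig : R
  iD : R
  iJ : R
  dg1 : e.d1 g = 2 * g * e.d1 w
  dg2 : e.d2 g = 2 * g * e.d2 w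
  hig : g * ig = 1
  g11 : e.d1 X ^ 2 + e.d1 Y ^ 2 + e.d1 Z ^ 2 = g
  g22 : e.d2 X ^ 2 + e.d2 Y ^ 2 + e.d2 Z ^ 2 = g
  g12 : e.d1 X * e.d2 X + e.d1 Y * e.d2 Y + e.d1 Z * e.d2 Z = 0
  hD : (e.d1 X * e.d2 Y - e.d2 X * e.d1 Y) * iD = 1
  hJ : (e.d1 ((e.d1 Z * e.d2 Y - e.d2 Z * e.d1 Y) * iD) * e.d2 Y -
    e.d2 ((e.d1 Z * e.d2 Y - e.d2 Z * e.d1 Y) * iD) * e.d1 Y) * iJ = 1

variable {R : Type} [CommRing R] [Algebra ℝ R]

lemma two_cancel {a b : R} (h : 2 * a = 2 * b) : a = b := by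
  have h2 : algebraMap ℝ R (1 / 2) * 2 = 1 := by
    rw [← map_ofNat (algebraMap ℝ R) 2, ← map_mul]; norm_num
  linear_combination algebraMap ℝ R (1 / 2) * h - (a - b) * h2

lemma der_sq (d : Derivation ℝ R R) (f : R) : d (f ^ 2) = 2 * f * d f := by
  rw [sq, der_mul]; ring

lemma der_ofNat (d : Derivation ℝ R R) (n : ℕ) [n.AtLeastTwo] :
    d (no_index (OfNat.ofNat n) : R) = 0 := Derivation.map_natCast d n

namespace Geo
variable (G : Geo R)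

def x1 : R := G.e.d1 G.X
def x2 : R := G.e.d2 G.X
def y1 : R := G.e.d1 G.Y
def y2 : R := G.e.d2 G.Y
def z1 : R := G.e.d1 G.Z
def z2 : R := G.e.d2 G.Z
def w1 : R := G.e.d1 G.w
def w2 : R := G.e.d2 G.w
def Dl : R := G.x1 * G.y2 - G.x2 * G.y1
def P : R := (G.z1 * G.y2 - G.z2 * G.y1) * G.iD
def Q : R := (G.x1 * G.z2 - G.x2 * G.z1) * G.iD
def W : R := 1 + G.P ^ 2 + G.Q ^ 2
def iW : R := G.Dl ^ 2 * G.ig ^ 2
def J : R := G.e.d1 G.P * G.y2 - G.e.d2 G.P * G.y1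
def k : R := -(G.e.d1 G.w1 + G.e.d2 G.w2)
def E : R := G.ig * G.W ^ 2
def K : R := G.E * G.k
def l : R := G.e.d1 G.z1 - G.w1 * G.z1 + G.w2 * G.z2
def m : R := G.e.d2 G.z1 - G.w2 * G.z1 - G.w1 * G.z2
def n : R := G.e.d2 G.z2 + G.w1 * G.z1 - G.w2 * G.z2
def a1 : R := G.y2 * G.iJ
def b1 : R := -G.y1 * G.iJ
def a2 : R := -G.e.d2 G.P * G.iJ
def b2 : R := G.e.d1 G.P * G.iJ

lemma hD' : G.Dl * G.iD = 1 := G.hD
lemma hJ' : G.J * G.iJ = 1 := G.hJ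
lemma h11 : G.x1 ^ 2 + G.y1 ^ 2 + G.z1 ^ 2 = G.g := G.g11
lemma h22 : G.x2 ^ 2 + G.y2 ^ 2 + G.z2 ^ 2 = G.g := G.g22
lemma h12 : G.x1 * G.x2 + G.y1 * G.y2 + G.z1 * G.z2 = 0 := G.g12
lemma cx : G.e.d1 G.x2 = G.e.d2 G.x1 := G.e.comm _
lemma cy : G.e.d1 G.y2 = G.e.d2 G.y1 := G.e.comm _
lemma cz : G.e.d1 G.z2 = G.e.d2 G.z1 := G.e.comm _

lemma hz1 : G.z1 = G.P * G.x1 + G.Q * G.y1 := by
  have := G.hD'; simp only [P, Q, Dl] at this ⊢; linear_combination (-G.z1) * this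

lemma hz2 : G.z2 = G.P * G.x2 + G.Q * G.y2 := by
  have := G.hD'; simp only [P, Q, Dl] at this ⊢; linear_combination (-G.z2) * this

lemma gram : G.Dl ^ 2 * G.W = G.g ^ 2 := by
  have h11 := G.h11; have h22 := G.h22; have h12 := G.h12
  rw [hz1] at h11 h12; rw [hz2] at h22 h12
  simp only [Dl, W]
  linear_combination (G.x2 ^ 2 + G.y2 ^ 2 + (G.P * G.x2 + G.Q * G.y2) ^ 2) * h11 + G.g * h22 -
    (G.x1 * G.x2 + G.y1 * G.y2 + (G.P * G.x1 + G.Q * G.y1) * (G.P * G.x2 + G.Q * G.y2)) * h12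

lemma hW : G.W * G.iW = 1 := by
  have := G.gram; have h := G.hig
  simp only [iW]; linear_combination G.ig ^ 2 * this + (G.g * G.ig + 1) * h

lemma iD_eq : G.iD = G.Dl * G.W * G.ig ^ 2 := by
  have := G.hW; have h := G.hD'
  simp only [iW] at this
  linear_combination (-G.iD) * this + G.Dl * G.W * G.ig ^ 2 * h

lemma normal {u1 u2 u3 : R} (h1 : G.x1 * u1 + G.y1 * u2 + G.z1 * u3 = 0)
    (h2 : G.x2 * u1 + G.y2 * u2 + G.z2 * u3 = 0) : u1 = -G.P * u3 ∧ u2 = -G.Q * u3 := by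
  have := G.hD'
  simp only [P, Q, Dl] at this ⊢
  constructor
  · linear_combination G.iD * G.y2 * h1 - G.iD * G.y1 * h2 - u1 * this
  · linear_combination G.iD * G.x1 * h2 - G.iD * G.x2 * h1 - u2 * this

lemma d111 : G.x1 * G.e.d1 G.x1 + G.y1 * G.e.d1 G.y1 + G.z1 * G.e.d1 G.z1 = G.g * G.w1 := by
  have := congrArg G.e.d1 G.h11
  simp only [map_add, der_sq, G.dg1] at this
  exact two_cancel (by rw [w1]; linear_combination this)

lemma d112 : G.x1 * G.e.d2 G.x1 + G.y1 * G.e.d2 G.y1 + G.z1 * G.e.d2 G.z1 = G.g * G.w2 := by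
  have := congrArg G.e.d2 G.h11
  simp only [map_add, der_sq, G.dg2] at this
  exact two_cancel (by rw [w2]; linear_combination this)

lemma d221 : G.x2 * G.e.d2 G.x1 + G.y2 * G.e.d2 G.y1 + G.z2 * G.e.d2 G.z1 = G.g * G.w1 := by
  have := congrArg G.e.d1 G.h22
  simp only [map_add, der_sq, G.dg1, cx, cy, cz] at this
  exact two_cancel (by rw [w1]; linear_combination this)

lemma d222 : G.x2 * G.e.d2 G.x2 + G.y2 * G.e.d2 G.y2 + G.z2 * G.e.d2 G.z2 = G.g * G.w2 := by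
  have := congrArg G.e.d2 G.h22
  simp only [map_add, der_sq, G.dg2] at this
  exact two_cancel (by rw [w2]; linear_combination this)

lemma d121 : G.x2 * G.e.d1 G.x1 + G.y2 * G.e.d1 G.y1 + G.z2 * G.e.d1 G.z1 = -(G.g * G.w2) := by
  have := congrArg G.e.d1 G.h12
  simp only [map_add, der_mul, map_zero, cx, cy, cz] at this
  linear_combination this - G.d112

lemma d122 : G.x1 * G.e.d2 G.x2 + G.y1 * G.e.d2 G.y2 + G.z1 * G.e.d2 G.z2 = -(G.g * G.w1) := by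
  have := congrArg G.e.d2 G.h12
  simp only [map_add, der_mul, map_zero] at this
  linear_combination this - G.d221

lemma f11 : G.e.d1 G.x1 = G.w1 * G.x1 - G.w2 * G.x2 - G.P * G.l ∧
    G.e.d1 G.y1 = G.w1 * G.y1 - G.w2 * G.y2 - G.Q * G.l := by
  have := G.normal (u1 := G.e.d1 G.x1 - G.w1 * G.x1 + G.w2 * G.x2)
    (u2 := G.e.d1 G.y1 - G.w1 * G.y1 + G.w2 * G.y2) (u3 := G.l)
    (by rw [l]; linear_combination G.d111 - G.w1 * G.h11 + G.w2 * G.h12)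
    (by rw [l]; linear_combination G.d121 - G.w1 * G.h12 + G.w2 * G.h22)
  exact ⟨by linear_combination this.1, by linear_combination this.2⟩

lemma f12 : G.e.d2 G.x1 = G.w2 * G.x1 + G.w1 * G.x2 - G.P * G.m ∧
    G.e.d2 G.y1 = G.w2 * G.y1 + G.w1 * G.y2 - G.Q * G.m := by
  have := G.normal (u1 := G.e.d2 G.x1 - G.w2 * G.x1 - G.w1 * G.x2)
    (u2 := G.e.d2 G.y1 - G.w2 * G.y1 - G.w1 * G.y2) (u3 := G.m)
    (by rw [m]; linear_combination G.d112 - G.w2 * G.h11 - G.w1 * G.h12)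
    (by rw [m]; linear_combination G.d221 - G.w2 * G.h12 - G.w1 * G.h22)
  exact ⟨by linear_combination this.1, by linear_combination this.2⟩

lemma f22 : G.e.d2 G.x2 = -G.w1 * G.x1 + G.w2 * G.x2 - G.P * G.n ∧
    G.e.d2 G.y2 = -G.w1 * G.y1 + G.w2 * G.y2 - G.Q * G.n := by
  have := G.normal (u1 := G.e.d2 G.x2 + G.w1 * G.x1 - G.w2 * G.x2)
    (u2 := G.e.d2 G.y2 + G.w1 * G.y1 - G.w2 * G.y2) (u3 := G.n)
    (by rw [n]; linear_combination G.d122 + G.w1 * G.h11 - G.w2 * G.h12)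
    (by rw [n]; linear_combination G.d222 + G.w1 * G.h12 - G.w2 * G.h22)
  exact ⟨by linear_combination this.1, by linear_combination this.2⟩

lemma Wl : G.W * G.l = G.e.d1 G.P * G.x1 + G.e.d1 G.Q * G.y1 := by
  have := congrArg G.e.d1 G.hz1
  simp only [map_add, der_mul, G.f11.1, G.f11.2] at this
  have hl : G.l = G.e.d1 G.z1 - G.w1 * G.z1 + G.w2 * G.z2 := rfl
  rw [W]
  linear_combination hl + this - G.w1 * G.hz1 + G.w2 * G.hz2

lemma Wm : G.W * G.m = G.e.d2 G.P * G.x1 + G.e.d2 G.Q * G.y1 := by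
  have := congrArg G.e.d2 G.hz1
  simp only [map_add, der_mul, G.f12.1, G.f12.2] at this
  have hm : G.m = G.e.d2 G.z1 - G.w2 * G.z1 - G.w1 * G.z2 := rfl
  rw [W]
  linear_combination hm + this - G.w2 * G.hz1 - G.w1 * G.hz2

lemma Wm' : G.W * G.m = G.e.d1 G.P * G.x2 + G.e.d1 G.Q * G.y2 := by
  have := congrArg G.e.d1 G.hz2
  simp only [map_add, der_mul, cx, cy, cz, G.f12.1, G.f12.2] at this
  have hm : G.m = G.e.d2 G.z1 - G.w2 * G.z1 - G.w1 * G.z2 := rfl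
  rw [W]
  linear_combination hm + this - G.w2 * G.hz1 - G.w1 * G.hz2

lemma Wn : G.W * G.n = G.e.d2 G.P * G.x2 + G.e.d2 G.Q * G.y2 := by
  have := congrArg G.e.d2 G.hz2
  simp only [map_add, der_mul, G.f22.1, G.f22.2] at this
  have hn : G.n = G.e.d2 G.z2 + G.w1 * G.z1 - G.w2 * G.z2 := rfl
  rw [W]
  linear_combination hn + this + G.w1 * G.hz1 - G.w2 * G.hz2

/-- Theorema egregium -/
lemma gauss : G.W * (G.l * G.n - G.m ^ 2) = G.g * G.k := by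
  have a := congrArg G.e.d2 G.d112
  have b := congrArg G.e.d1 G.d122
  simp only [map_add, map_neg, der_mul, G.dg1, G.dg2, G.e.comm, cx, cy, cz] at a b
  have c : G.e.d1 G.x1 * G.e.d2 G.x2 + G.e.d1 G.y1 * G.e.d2 G.y2 + G.e.d1 G.z1 * G.e.d2 G.z2 -
      (G.e.d2 G.x1 ^ 2 + G.e.d2 G.y1 ^ 2 + G.e.d2 G.z1 ^ 2) =
      G.g * G.k - 2 * G.g * (G.w1 ^ 2 + G.w2 ^ 2) := by
    rw [k]
    change _ = 2 * G.g * G.w2 * G.w2 + _ at a
    change _ = -(2 * G.g * G.w1 * G.w1 + _) at b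
    linear_combination b - a
  have e1 : G.e.d1 G.z1 = G.l + G.w1 * G.z1 - G.w2 * G.z2 := by rw [l]; ring
  have e2 : G.e.d2 G.z1 = G.m + G.w2 * G.z1 + G.w1 * G.z2 := by rw [m]; ring
  have e3 : G.e.d2 G.z2 = G.n - G.w1 * G.z1 + G.w2 * G.z2 := by rw [n]; ring
  have h11 := G.h11; have h22 := G.h22
  rw [G.f11.1, G.f11.2, G.f12.1, G.f12.2, G.f22.1, G.f22.2, e1, e2, e3, hz1, hz2] at c
  rw [hz1] at h11; rw [hz2] at h22
  rw [W]
  linear_combination c + (G.w1 ^ 2 + G.w2 ^ 2) * (h11 + h22)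

lemma gauss' : G.e.d1 G.P * G.e.d2 G.Q - G.e.d2 G.P * G.e.d1 G.Q = G.K * G.Dl := by
  have h1 : (G.e.d1 G.P * G.e.d2 G.Q - G.e.d2 G.P * G.e.d1 G.Q) * G.Dl = G.W * (G.g * G.k) := by
    rw [← gauss, Dl]
    linear_combination (-(G.W * G.n)) * G.Wl - (G.e.d1 G.P * G.x1 + G.e.d1 G.Q * G.y1) * G.Wn +
      G.W * G.m * G.Wm + (G.e.d2 G.P * G.x1 + G.e.d2 G.Q * G.y1) * G.Wm'
  have h2 := G.hD'; have h3 := G.iD_eq; have h4 := G.hig
  rw [K, E]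
  linear_combination G.iD * h1 -
    (G.e.d1 G.P * G.e.d2 G.Q - G.e.d2 G.P * G.e.d1 G.Q) * h2 + G.W * G.g * G.k * h3 +
    G.W ^ 2 * G.k * G.Dl * G.ig * h4

/-- `∂/∂P` at fixed `Y` -/
def D1 : Derivation ℝ R R := G.a1 • G.e.d1 + G.b1 • G.e.d2
/-- `∂/∂Y` at fixed `P` -/
def D2 : Derivation ℝ R R := G.a2 • G.e.d1 + G.b2 • G.e.d2

lemma D1_apply (f : R) : G.D1 f = G.a1 * G.e.d1 f + G.b1 * G.e.d2 f := rfl
lemma D2_apply (f : R) : G.D2 f = G.a2 * G.e.d1 f + G.b2 * G.e.d2 f := rfl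

lemma D1P : G.D1 G.P = 1 := by
  have := G.hJ'; rw [D1_apply, a1, b1]; rw [J] at this; linear_combination this
lemma D2P : G.D2 G.P = 0 := by rw [D2_apply, a2, b2]; ring
lemma D1Y : G.D1 G.Y = 0 := by
  rw [D1_apply, a1, b1]; change _ * G.y1 + _ * G.y2 = 0; ring
lemma D2Y : G.D2 G.Y = 1 := by
  have := G.hJ'; rw [D2_apply, a2, b2]; rw [J] at this
  change _ * G.y1 + _ * G.y2 = 1; linear_combination this

lemma D_comm (f : R) : G.D1 (G.D2 f) = G.D2 (G.D1 f) := by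
  have key : ∀ f, G.D1 (G.D2 f) - G.D2 (G.D1 f) = (G.D1 G.a2 - G.D2 G.a1) * G.e.d1 f +
      (G.D1 G.b2 - G.D2 G.b1) * G.e.d2 f := by
    intro f
    simp only [D1_apply, D2_apply, map_add, der_mul, G.e.comm]
    ring
  have h1 := key G.P
  have h2 := key G.Y
  rw [D1P, D2P, map_zero, Derivation.map_one_eq_zero] at h1
  rw [D1Y, D2Y, map_zero, Derivation.map_one_eq_zero] at h2
  change _ = _ * G.y1 + _ * G.y2 at h2
  have h3 := G.hJ'
  rw [J] at h3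
  have u : G.D1 G.a2 - G.D2 G.a1 = 0 := by
    linear_combination (-G.iJ * G.y2) * h1 + G.iJ * G.e.d2 G.P * h2 - (G.D1 G.a2 - G.D2 G.a1) * h3
  have v : G.D1 G.b2 - G.D2 G.b1 = 0 := by
    linear_combination (G.iJ * G.y1) * h1 - G.iJ * G.e.d1 G.P * h2 - (G.D1 G.b2 - G.D2 G.b1) * h3
  have := key f
  rw [u, v] at this
  linear_combination this

/-- the hodograph derivations -/
def D : DP R := ⟨G.D1, G.D2, G.D_comm⟩

lemma dx_eq (f : R) : G.e.d1 f = G.e.d1 G.P * G.D1 f + G.y1 * G.D2 f := by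
  have := G.hJ'; rw [J] at this
  rw [D1_apply, D2_apply, a1, a2, b1, b2]; linear_combination (-G.e.d1 f) * this

lemma dy_eq (f : R) : G.e.d2 f = G.e.d2 G.P * G.D1 f + G.y2 * G.D2 f := by
  have := G.hJ'; rw [J] at this
  rw [D1_apply, D2_apply, a1, a2, b1, b2]; linear_combination (-G.e.d2 f) * this

lemma JD1 (f : R) : G.J * G.D1 f = G.e.d1 (G.y2 * f) + G.e.d2 (-G.y1 * f) := by
  have := G.hJ'
  rw [D1_apply, a1, b1, der_mul, der_mul, map_neg, cy]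
  linear_combination (G.y2 * G.e.d1 f - G.y1 * G.e.d2 f) * this

lemma JD2 (f : R) : G.J * G.D2 f = G.e.d1 (-G.e.d2 G.P * f) + G.e.d2 (G.e.d1 G.P * f) := by
  have := G.hJ'
  rw [D2_apply, a2, b2, der_mul, der_mul, map_neg, G.e.comm]
  linear_combination (G.e.d1 G.P * G.e.d2 f - G.e.d2 G.P * G.e.d1 f) * this

lemma D1X : G.D1 G.X = G.Dl * G.iJ := by
  rw [D1_apply, a1, b1, Dl]; change _ * G.x1 + _ * G.x2 = _; ring

lemma JD1X : G.J * G.D1 G.X = G.Dl := by rw [D1X]; linear_combination G.Dl * G.hJ'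

lemma D1Q : G.D1 G.Q = -G.D2 G.X := by
  rw [D1_apply, D2_apply, a1, a2, b1, b2]
  change _ = -(_ * G.x1 + _ * G.x2)
  linear_combination G.iJ * G.Wm - G.iJ * G.Wm'

lemma D2Q : G.D2 G.Q = G.K * G.D1 G.X := by
  rw [D2_apply, a2, b2, D1X]
  linear_combination G.iJ * G.gauss'

lemma main_eq : G.D2 (G.D2 G.X) = -G.D1 (G.K * G.D1 G.X) := by
  rw [← D2Q, D_comm, D1Q, map_neg, neg_neg]

lemma a1_eq : G.a1 = G.y2 * G.iD * G.D1 G.X := by
  rw [a1, D1X]; linear_combination (-G.y2 * G.iJ) * G.hD'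

lemma b1_eq : G.b1 = -G.y1 * G.iD * G.D1 G.X := by
  rw [b1, D1X]; linear_combination (G.y1 * G.iJ) * G.hD'

lemma a2_eq : G.a2 = (G.y2 * G.D2 G.X - G.x2) * G.iD := by
  have h1 := G.D2Y; have h2 := G.hD'
  rw [D2_apply] at h1 ⊢; rw [Dl] at h2
  change _ * G.y1 + _ * G.y2 = 1 at h1
  change _ = (_ * (_ * G.x1 + _ * G.x2) - _) * _
  linear_combination (-G.a2) * h2 - G.x2 * G.iD * h1

lemma b2_eq : G.b2 = (G.x1 - G.y1 * G.D2 G.X) * G.iD := by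
  have h1 := G.D2Y; have h2 := G.hD'
  rw [D2_apply] at h1 ⊢; rw [Dl] at h2
  change _ * G.y1 + _ * G.y2 = 1 at h1
  change _ = (_ - _ * (_ * G.x1 + _ * G.x2)) * _
  linear_combination (-G.b2) * h2 + G.x1 * G.iD * h1

section
variable {d : Derivation ℝ R R} {a b : R} (hd : ∀ f, d f = a * G.e.d1 f + b * G.e.d2 f)
include hd

lemma dx1 : d G.x1 = a * (G.w1 * G.x1 - G.w2 * G.x2) + b * (G.w2 * G.x1 + G.w1 * G.x2) -
    G.P * G.iW * (d G.P * G.x1 + d G.Q * G.y1) := by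
  simp only [hd, G.f11.1, G.f12.1]
  linear_combination (-G.P * G.iW * a) * G.Wl - G.P * G.iW * b * G.Wm +
    G.P * (a * G.l + b * G.m) * G.hW

lemma dy1 : d G.y1 = a * (G.w1 * G.y1 - G.w2 * G.y2) + b * (G.w2 * G.y1 + G.w1 * G.y2) -
    G.Q * G.iW * (d G.P * G.x1 + d G.Q * G.y1) := by
  simp only [hd, G.f11.2, G.f12.2]
  linear_combination (-G.Q * G.iW * a) * G.Wl - G.Q * G.iW * b * G.Wm +
    G.Q * (a * G.l + b * G.m) * G.hW

lemma dx2 : d G.x2 = a * (G.w2 * G.x1 + G.w1 * G.x2) + b * (-G.w1 * G.x1 + G.w2 * G.x2) -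
    G.P * G.iW * (d G.P * G.x2 + d G.Q * G.y2) := by
  simp only [hd, cx, G.f22.1, G.f12.1]
  linear_combination (-G.P * G.iW * a) * G.Wm' - G.P * G.iW * b * G.Wn +
    G.P * (a * G.m + b * G.n) * G.hW

lemma dy2 : d G.y2 = a * (G.w2 * G.y1 + G.w1 * G.y2) + b * (-G.w1 * G.y1 + G.w2 * G.y2) -
    G.Q * G.iW * (d G.P * G.x2 + d G.Q * G.y2) := by
  simp only [hd, cy, G.f22.2, G.f12.2]
  linear_combination (-G.Q * G.iW * a) * G.Wm' - G.Q * G.iW * b * G.Wn +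
    G.Q * (a * G.m + b * G.n) * G.hW

lemma dig : d G.ig = -2 * G.ig * d G.w := by
  have h0 : d G.g = 2 * G.g * d G.w := by rw [hd, hd, dg1, dg2]; ring
  have := congrArg d G.hig
  rw [der_mul, Derivation.map_one_eq_zero, h0] at this
  linear_combination G.ig * this - (d G.ig + 2 * G.ig * d G.w) * G.hig

end

def B0 : R := 4 * G.k * G.ig * G.W * G.P
def B1 : R := G.E * (G.e.d1 G.k * (G.y2 * G.iD) + G.e.d2 G.k * (-G.y1 * G.iD)) -
  2 * G.E * G.k * (G.w1 * (G.y2 * G.iD) + G.w2 * (-G.y1 * G.iD))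
def B2 : R := -4 * G.k * G.ig * G.W * G.Q

lemma D1K : G.D1 G.K = G.B1 * G.D1 G.X + G.B2 * G.D2 G.X + G.B0 := by
  have h1 : G.D1 G.k = (G.e.d1 G.k * (G.y2 * G.iD) + G.e.d2 G.k * (-G.y1 * G.iD)) * G.D1 G.X := by
    rw [G.D1_apply G.k, a1_eq, b1_eq]; ring
  have h2 : G.D1 G.w = (G.w1 * (G.y2 * G.iD) + G.w2 * (-G.y1 * G.iD)) * G.D1 G.X := by
    rw [G.D1_apply G.w, a1_eq, b1_eq, w1, w2]; ring
  have h3 : G.D1 G.W = 2 * G.P - 2 * G.Q * G.D2 G.X := by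
    rw [W, map_add, map_add, der_sq, der_sq, D1P, D1Q, Derivation.map_one_eq_zero]; ring
  rw [K, B0, B1, B2, E, der_mul, der_mul, der_sq, G.dig G.D1_apply, h1, h2, h3]
  ring

end Geo

end Crest.Agent.R220
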