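import Crest.Agent.R220.Defs

/-!
# Row 220: summing the bad discs
-/

set_option autoImplicit false

open scoped ContDiff
open Metric Filter

namespace Crest.Agent.R220

theorem goal_of (h : DiscStmt) : Goal := by
  let c : ℕ → EuclideanSpace ℝ (Fin 2) := fun j => EuclideanSpace.single 0 ((1 / 2) ^ j)
  let R : ℕ → ℝ := fun j => (1 / 2) ^ j / 4
  choose w hw h0 h1 h2 using fun j : ℕ => h (c j) (R j) ((1 / 2) ^ j) j j (by positivity)
    (by positivity)
  have hd : ∀ i j, i < j → Disjoint (ball (c i) (R i)) (ball (c j) (R j)) := fun i j hij => by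
    refine ball_disjoint_ball ?_
    have h3 : (1 / 2 : ℝ) ^ j ≤ (1 / 2) ^ (i + 1) :=
      pow_le_pow_of_le_one (by norm_num) (by norm_num) hij
    have h4 : (0 : ℝ) < (1 / 2) ^ j := by positivity
    rw [pow_succ] at h3
    simp only [c, R, PiLp.dist_single_same, Real.dist_eq]
    exact le_trans (by linarith) (le_abs_self _)
  have hW : ContDiff ℝ ∞ fun x => ∑' j, w j x :=
    contDiff_tsum_of_eventually (v := fun _ j => (1 / 2) ^ j) hw (fun _ _ => summable_geometric_two)
      fun k _ => by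
        rw [Nat.cofinite_eq_atTop]
        exact (eventually_ge_atTop k).mono fun j hj x => h1 j k hj x
  have hW' : ∀ j, ∀ x ∈ ball (c j) (R j), ∑' i, w i x = w j x := fun j x hx =>
    tsum_eq_single j fun i hi => h0 i x fun hx' => by
      rcases lt_or_gt_of_ne hi with h | h
      · exact Set.disjoint_left.mp (hd _ _ h) hx' hx
      · exact Set.disjoint_left.mp (hd _ _ h) hx hx'
  obtain ⟨B, hB⟩ : ∃ B : EuclideanSpace ℝ (Fin 2) →L[ℝ] EuclideanSpace ℝ (Fin 2) →L[ℝ] ℝ,
      ∀ v u, B v u = inner ℝ v u := ⟨innerSL ℝ, fun _ _ => rfl⟩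
  refine ⟨fun x => Real.exp (2 * ∑' j, w j x) • B,
    ContDiff.contDiffOn (contDiff_clm_apply_iff.mpr fun v => contDiff_clm_apply_iff.mpr fun u =>
      (contDiff_const.mul hW).exp.mul contDiff_const),
    fun x _ v u => by simp [hB, real_inner_comm], fun x _ v hv => ?_, ?_⟩
  · simpa [hB] using mul_pos (Real.exp_pos _) (pow_pos (norm_pos_iff.mpr hv) 2)
  rintro U hU hU0 - ⟨F, hF, hg⟩
  obtain ⟨r, hr, hrU⟩ := nhds_basis_closedBall.mem_iff.mp (hU.mem_nhds hU0)
  have h3 : ∀ k : ℕ, ∃ A : ℝ, ∀ x ∈ closedBall 0 r, ‖iteratedFDeriv ℝ k F x‖ ≤ A := fun k =>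
    (isCompact_closedBall 0 r).exists_bound_of_continuousOn fun x hx =>
      ((hF.contDiffAt (hU.mem_nhds (hrU hx))).continuousAt_iteratedFDeriv
        (by exact_mod_cast le_top)).continuousWithinAt
  choose A hA using h3
  have h4 : ∀ᶠ j : ℕ in atTop, ∀ k ∈ Finset.range 8, A k ≤ j :=
    (eventually_all_finset _).mpr fun k _ => tendsto_natCast_atTop_atTop.eventually_ge_atTop _
  obtain ⟨j, h5, h6⟩ := (h4.and ((tendsto_pow_atTop_nhds_zero_of_lt_one (r := (1 / 2 : ℝ))
    (by norm_num) (by norm_num)).eventually_lt_const (half_pos hr))).exists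
  have h7 : ball (c j) (R j) ⊆ closedBall 0 r := by
    refine ball_subset_closedBall.trans (closedBall_subset_closedBall' ?_)
    have h4 : (0 : ℝ) < (1 / 2) ^ j := by positivity
    simp only [c, R, dist_zero_right, PiLp.norm_single, Real.norm_eq_abs, abs_of_pos h4]
    linarith
  refine h2 j ⟨F, hF.mono (h7.trans hrU), fun k hk x hx => (hA k x (h7 hx)).trans
    (h5 k (Finset.mem_range_succ_iff.mpr hk)), fun x hx v u => ?_⟩
  rw [hg x (hrU (h7 hx)), ← hW' j x hx]
  simp [hB]

end Crest.Agent.R220
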