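import Crest.Agent.R220.Defs

/-!
# Row 220, part G3 (geometry): holonomy around a cone forces a large second fundamental form
-/

set_option autoImplicit false
set_option maxHeartbeats 400000

namespace Crest.Agent.R220.G3

open scoped ContDiff Topology
open Metric Filter

abbrev E2 := EuclideanSpace ℝ (Fin 2)
abbrev E3 := EuclideanSpace ℝ (Fin 3)

/-- Christoffel symbols of a conformal metric whose log-factor has gradient `g` -/
noncomputable def Gam (g v u : E2) : E2 :=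
  inner ℝ g v • u + inner ℝ g u • v - inner ℝ v u • g

/-- the normal part of the second derivative -/
noncomputable def Nn (w : E2 → ℝ) (F : E2 → E3) (x v u : E2) : E3 :=
  fderiv ℝ (fderiv ℝ F) x v u - fderiv ℝ F x (Gam (gradient w x) v u)

lemma Gam_sub (g g' v u : E2) : Gam g v u - Gam g' v u = Gam (g - g') v u := by
  simp only [Gam, inner_sub_left, sub_smul, smul_sub]
  abel

lemma norm_Gam_le (g v u : E2) (hv : ‖v‖ = 1) (hu : ‖u‖ = 1) : ‖Gam g v u‖ ≤ 3 * ‖g‖ := by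
  have h1 : ‖inner ℝ g v • u‖ ≤ ‖g‖ := by
    rw [norm_smul, hu, mul_one]
    simpa [hv] using norm_inner_le_norm (𝕜 := ℝ) g v
  have h2 : ‖inner ℝ g u • v‖ ≤ ‖g‖ := by
    rw [norm_smul, hv, mul_one]
    simpa [hu] using norm_inner_le_norm (𝕜 := ℝ) g u
  have h3 : ‖inner ℝ v u • g‖ ≤ ‖g‖ := by
    rw [norm_smul]
    have : ‖inner ℝ v u‖ ≤ 1 := by simpa [hu, hv] using norm_inner_le_norm (𝕜 := ℝ) v u
    nlinarith [norm_nonneg g]
  unfold Gam
  have h4 := norm_sub_le (inner ℝ g v • u + inner ℝ g u • v) (inner ℝ v u • g)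
  have h5 := norm_add_le (inner ℝ g v • u) (inner ℝ g u • v)
  linarith

lemma metric_deriv {w : E2 → ℝ} {F : E2 → E3} {x : E2} (hw : DifferentiableAt ℝ w x)
    (hF : ContDiffAt ℝ 2 F x)
    (hm : ∀ᶠ y in 𝓝 x, ∀ v u, inner ℝ (fderiv ℝ F y v) (fderiv ℝ F y u) =
      Real.exp (2 * w y) * inner ℝ v u) (a v u : E2) :
    inner ℝ (fderiv ℝ F x v) (fderiv ℝ (fderiv ℝ F) x a u) +
      inner ℝ (fderiv ℝ (fderiv ℝ F) x a v) (fderiv ℝ F x u) =
      Real.exp (2 * w x) * (2 * fderiv ℝ w x a) * inner ℝ v u := by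
  have hd : DifferentiableAt ℝ (fderiv ℝ F) x :=
    (hF.fderiv_right (m := 1) (by norm_num)).differentiableAt (by norm_num)
  have h1 : ∀ v : E2, HasFDerivAt (fun y => fderiv ℝ F y v)
      ((fderiv ℝ (fderiv ℝ F) x).flip v) x := by
    intro v
    have := hd.hasFDerivAt.clm_apply (hasFDerivAt_const v x)
    simpa using this
  have hL := (h1 v).inner ℝ (h1 u)
  have hR := ((hw.hasFDerivAt.const_mul 2).exp).mul_const (inner ℝ v u)
  have heq : (fun y => inner ℝ (fderiv ℝ F y v) (fderiv ℝ F y u)) =ᶠ[𝓝 x]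
      fun y => Real.exp (2 * w y) * inner ℝ v u := hm.mono fun y hy => hy v u
  have h2 := (hL.congr_of_eventuallyEq heq.symm).unique hR
  have h3 := congrArg (fun L : E2 →L[ℝ] ℝ => L a) h2
  simp only [ContinuousLinearMap.comp_apply, ContinuousLinearMap.prod_apply,
    fderivInnerCLM_apply, ContinuousLinearMap.flip_apply, smul_apply,
    smul_eq_mul] at h3
  rw [h3]; ring

lemma Nn_orth {w : E2 → ℝ} {F : E2 → E3} {x : E2} (hw : DifferentiableAt ℝ w x)
    (hF : ContDiffAt ℝ 2 F x)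
    (hm : ∀ᶠ y in 𝓝 x, ∀ v u, inner ℝ (fderiv ℝ F y v) (fderiv ℝ F y u) =
      Real.exp (2 * w y) * inner ℝ v u) (a v u : E2) :
    inner ℝ (fderiv ℝ F x a) (Nn w F x v u) = 0 := by
  have hs : IsSymmSndFDerivAt ℝ F x := hF.isSymmSndFDerivAt (by simp)
  have h1 := metric_deriv hw hF hm v u a
  have h2 := metric_deriv hw hF hm u v a
  have h3 := metric_deriv hw hF hm a v u
  have h0 := hm.self_of_nhds
  rw [hs.eq u v, hs.eq u a] at h2
  rw [hs.eq v a] at h1
  unfold Nn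
  rw [inner_sub_right, h0]
  unfold Gam
  simp only [inner_sub_right, inner_add_right, inner_smul_right, inner_gradient_left]
  rw [real_inner_comm (gradient w x) a, inner_gradient_left]
  rw [real_inner_comm (fderiv ℝ F x a)] at h1 h2
  rw [real_inner_comm (fderiv ℝ F x u)] at h3
  rw [real_inner_comm u a, real_inner_comm v a]
  linarith

lemma nat_le_inf (n : ℕ) : (n : WithTop ℕ∞) ≤ ∞ := by exact_mod_cast le_top

lemma norm_fderiv2 {E F' : Type*} [NormedAddCommGroup E] [NormedSpace ℝ E]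
    [NormedAddCommGroup F'] [NormedSpace ℝ F'] (F : E → F') (x : E) :
    ‖fderiv ℝ (fderiv ℝ F) x‖ = ‖iteratedFDeriv ℝ 2 F x‖ := by
  rw [← norm_iteratedFDeriv_one, norm_iteratedFDeriv_fderiv]

lemma norm_gradient_sub (w : E2 → ℝ) (x y : E2) :
    ‖gradient w x - gradient w y‖ = ‖fderiv ℝ w x - fderiv ℝ w y‖ := by
  rw [← toDual_gradient, ← toDual_gradient, ← map_sub, LinearIsometryEquiv.norm_map]

lemma norm_gradient (w : E2 → ℝ) (x : E2) : ‖gradient w x‖ = ‖fderiv ℝ w x‖ := by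
  rw [← toDual_gradient, LinearIsometryEquiv.norm_map]

lemma Nn_lip {w : E2 → ℝ} {F : E2 → E3} {c : E2} {R A : ℝ} (hw : ContDiff ℝ ∞ w)
    (hwb : ∀ k ≤ 2, ∀ x, ‖iteratedFDeriv ℝ k w x‖ ≤ 1)
    (hF : ContDiffOn ℝ ∞ F (ball c R))
    (hFb : ∀ k ≤ 7, ∀ x ∈ ball c R, ‖iteratedFDeriv ℝ k F x‖ ≤ A)
    {x y : E2} (hx : x ∈ ball c R) (hy : y ∈ ball c R) {v u : E2} (hv : ‖v‖ = 1) (hu : ‖u‖ = 1) :
    ‖Nn w F x v u - Nn w F y v u‖ ≤ 7 * A * ‖x - y‖ := by
  have hA : 0 ≤ A := (norm_nonneg _).trans (hFb 0 (by norm_num) x hx)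
  have hFa : ∀ z ∈ ball c R, ContDiffAt ℝ ∞ F z := fun z hz =>
    hF.contDiffAt (isOpen_ball.mem_nhds hz)
  have d1 : ∀ z ∈ ball c R, ContDiffAt ℝ 2 (fderiv ℝ F) z := fun z hz =>
    ((hFa z hz).of_le (nat_le_inf 3)).fderiv_right (m := 2) (by norm_num)
  have d2 : ∀ z ∈ ball c R, ContDiffAt ℝ 1 (fderiv ℝ (fderiv ℝ F)) z := fun z hz =>
    (d1 z hz).fderiv_right (m := 1) (by norm_num)
  have l2 : ‖fderiv ℝ (fderiv ℝ F) x - fderiv ℝ (fderiv ℝ F) y‖ ≤ A * ‖x - y‖ :=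
    (convex_ball c R).norm_image_sub_le_of_norm_fderiv_le (𝕜 := ℝ)
      (fun z hz => (d2 z hz).differentiableAt (by norm_num))
      (fun z hz => by rw [norm_fderiv2, norm_iteratedFDeriv_fderiv]; exact hFb 3 (by norm_num) z hz) hy hx
  have l1 : ‖fderiv ℝ F x - fderiv ℝ F y‖ ≤ A * ‖x - y‖ :=
    (convex_ball c R).norm_image_sub_le_of_norm_fderiv_le (𝕜 := ℝ)
      (fun z hz => (d1 z hz).differentiableAt (by norm_num))
      (fun z hz => by rw [norm_fderiv2]; exact hFb 2 (by norm_num) z hz) hy hx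
  have dw : ContDiff ℝ 1 (fderiv ℝ w) := 
    (hw.of_le (nat_le_inf 2)).fderiv_right (m := 1) (by norm_num)
  have lw : ‖gradient w x - gradient w y‖ ≤ 1 * ‖x - y‖ := by
    rw [norm_gradient_sub]
    exact (convex_ball c R).norm_image_sub_le_of_norm_fderiv_le (𝕜 := ℝ)
      (fun z _ => (dw.differentiable (by norm_num)) z)
      (fun z _ => by rw [norm_fderiv2]; exact hwb 2 le_rfl z) hy hx
  have bw : ‖gradient w x‖ ≤ 1 := by
    rw [norm_gradient, ← norm_iteratedFDeriv_one]; exact hwb 1 (by norm_num) x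
  have bF : ‖fderiv ℝ F y‖ ≤ A := by
    rw [← norm_iteratedFDeriv_one]; exact hFb 1 (by norm_num) y hy
  have e : Nn w F x v u - Nn w F y v u =
      (fderiv ℝ (fderiv ℝ F) x - fderiv ℝ (fderiv ℝ F) y) v u -
        (fderiv ℝ F x - fderiv ℝ F y) (Gam (gradient w x) v u) -
        fderiv ℝ F y (Gam (gradient w x - gradient w y) v u) := by
    rw [← Gam_sub]
    simp only [Nn, sub_apply, map_sub]
    abel
  have n1 : ‖(fderiv ℝ (fderiv ℝ F) x - fderiv ℝ (fderiv ℝ F) y) v u‖ ≤ A * ‖x - y‖ := by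
    have := (fderiv ℝ (fderiv ℝ F) x - fderiv ℝ (fderiv ℝ F) y).le_opNorm₂ v u
    rw [hv, hu, mul_one, mul_one] at this
    exact this.trans l2
  have n2 : ‖(fderiv ℝ F x - fderiv ℝ F y) (Gam (gradient w x) v u)‖ ≤ A * ‖x - y‖ * 3 := by
    refine ((fderiv ℝ F x - fderiv ℝ F y).le_opNorm _).trans ?_
    have := norm_Gam_le (gradient w x) v u hv hu
    exact mul_le_mul l1 (by linarith) (norm_nonneg _) (by positivity)
  have n3 : ‖fderiv ℝ F y (Gam (gradient w x - gradient w y) v u)‖ ≤ A * (3 * ‖x - y‖) := by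
    refine ((fderiv ℝ F y).le_opNorm _).trans ?_
    have := norm_Gam_le (gradient w x - gradient w y) v u hv hu
    exact mul_le_mul bF (by linarith) (norm_nonneg _) hA
  rw [e]
  refine (norm_sub_le _ _).trans ?_
  have := norm_sub_le ((fderiv ℝ (fderiv ℝ F) x - fderiv ℝ (fderiv ℝ F) y) v u)
    ((fderiv ℝ F x - fderiv ℝ F y) (Gam (gradient w x) v u))
  linarith

/-- unit circle -/
noncomputable def ee (t : ℝ) : E2 := !₂[Real.cos t, Real.sin t]
/-- its velocity -/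
noncomputable def ee' (t : ℝ) : E2 := !₂[-Real.sin t, Real.cos t]

lemma norm_ee (t : ℝ) : ‖ee t‖ = 1 := by
  rw [EuclideanSpace.norm_eq]; simp [ee, Fin.sum_univ_two]

lemma norm_ee' (t : ℝ) : ‖ee' t‖ = 1 := by
  rw [EuclideanSpace.norm_eq]; simp [ee', Fin.sum_univ_two]

lemma hasDerivAt_ee (t : ℝ) : HasDerivAt ee (ee' t) t := by
  have e1 : ee = fun t => Real.cos t • (!₂[1, 0] : E2) + Real.sin t • (!₂[0, 1] : E2) := by
    funext t; ext i; fin_cases i <;> simp [ee]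
  have e2 : ee' t = (-Real.sin t) • (!₂[1, 0] : E2) + Real.cos t • (!₂[0, 1] : E2) := by
    ext i; fin_cases i <;> simp [ee']
  rw [e1, e2]
  exact ((Real.hasDerivAt_cos t).smul_const _).add ((Real.hasDerivAt_sin t).smul_const _)

lemma Gam_circle (δ r t s : ℝ) (hr : r ≠ 0) :
    r • Gam (-(δ / r) • ee t) (ee' t) (ee s) + δ • ee' s = 0 := by
  have h := Real.sin_sq_add_cos_sq t
  ext i
  fin_cases i
  · simp [Gam, ee, ee', PiLp.inner_apply, Fin.sum_univ_two]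
    field_simp
    linear_combination (δ * Real.sin s) * h
  · simp [Gam, ee, ee', PiLp.inner_apply, Fin.sum_univ_two]
    field_simp
    linear_combination (-δ * Real.cos s) * h

lemma ee_ne (δ : ℝ) (h0 : 0 < δ) (h1 : δ < 1) : ee (δ * (2 * Real.pi)) - ee (δ * 0) ≠ 0 := by
  intro h
  have h2 := congrArg (fun v : E2 => v 0) (sub_eq_zero.1 h)
  simp only [ee, mul_zero, Real.cos_zero] at h2
  have h3 : Real.cos (δ * (2 * Real.pi)) = 1 := by simpa using h2
  have hp := Real.pi_pos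
  rw [Real.cos_eq_one_iff_of_lt_of_lt (by nlinarith) (by nlinarith)] at h3
  nlinarith

/-- holonomy: somewhere on the circle the normal part is large -/
lemma holonomy {w : E2 → ℝ} {F : E2 → E3} {c : E2} {R δ : ℝ} (hR : 0 < R)
    (hw0 : ∀ x, ‖w x‖ ≤ 1)
    (hg : ∀ x, ‖x - c‖ = R / 2 → gradient w x = -(δ / (R / 2) ^ 2) • (x - c))
    (hF : ContDiffOn ℝ ∞ F (ball c R))
    (hm : ∀ x ∈ ball c R, ∀ v u, inner ℝ (fderiv ℝ F x v) (fderiv ℝ F x u) =
      Real.exp (2 * w x) * inner ℝ v u) :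
    ∃ q v u : E2, ‖q - c‖ = R / 2 ∧ ‖v‖ = 1 ∧ ‖u‖ = 1 ∧
      Real.exp (-1) * ‖ee (δ * (2 * Real.pi)) - ee (δ * 0)‖ / (2 * Real.pi * R) ≤
        ‖Nn w F q v u‖ := by
  by_contra hcon
  push Not at hcon
  set r := R / 2 with hr
  have hr0 : 0 < r := by positivity
  set m := Real.exp (-1) * ‖ee (δ * (2 * Real.pi)) - ee (δ * 0)‖ / (2 * Real.pi * R) with hmdef
  let γ : ℝ → E2 := fun t => c + r • ee t
  have hγn : ∀ t, ‖γ t - c‖ = r := by
    intro t; simp [γ, norm_smul, norm_ee, abs_of_pos hr0]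
  have hγb : ∀ t, γ t ∈ ball c R := by
    intro t; rw [mem_ball, dist_eq_norm, hγn]; linarith
  have hγd : ∀ t, HasDerivAt γ (r • ee' t) t := fun t =>
    ((hasDerivAt_ee t).const_smul r).const_add c
  have hVd : ∀ t, HasDerivAt (fun t => ee (δ * t)) (δ • ee' (δ * t)) t := by
    intro t
    have := (hasDerivAt_ee (δ * t)).scomp t ((hasDerivAt_id t).const_mul δ)
    rw [mul_one] at this
    exact this
  have hU : ∀ t, HasDerivAt (fun t => fderiv ℝ F (γ t) (ee (δ * t)))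
      (r • Nn w F (γ t) (ee' t) (ee (δ * t))) t := by
    intro t
    have hFa : ContDiffAt ℝ ∞ F (γ t) := hF.contDiffAt (isOpen_ball.mem_nhds (hγb t))
    have hd : DifferentiableAt ℝ (fderiv ℝ F) (γ t) :=
      ((hFa.of_le (nat_le_inf 2)).fderiv_right (m := 1) (by norm_num)).differentiableAt
        (by norm_num)
    have h1 := (hd.hasFDerivAt.comp_hasDerivAt t (hγd t)).clm_apply (hVd t)
    refine HasDerivAt.congr_deriv h1 ?_
    have h2 : gradient w (γ t) = -(δ / r) • ee t := by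
      rw [hg _ (hγn t)]
      simp only [γ, add_sub_cancel_left, smul_smul]
      congr 1
      field_simp
    have h3 := Gam_circle δ r t (δ * t) hr0.ne'
    have h4 : δ • ee' (δ * t) = -(r • Gam (-(δ / r) • ee t) (ee' t) (ee (δ * t))) :=
      eq_neg_of_add_eq_zero_right h3
    simp only [Nn, Function.comp_apply, map_smul, smul_apply, h2, smul_sub]
    rw [← map_smul (fderiv ℝ F (γ t)) δ, h4, map_neg, map_smul, sub_eq_add_neg]
  have hp := Real.pi_pos
  have hb := norm_image_sub_le_of_norm_deriv_le_segment' (a := 0) (b := 2 * Real.pi)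
    (C := r * m) (fun t _ => (hU t).hasDerivWithinAt)
    (fun t _ => by
      rw [norm_smul, Real.norm_of_nonneg hr0.le]
      exact mul_le_mul_of_nonneg_left
        (hcon _ _ _ (hγn t) (norm_ee' t) (norm_ee _)).le hr0.le)
    (2 * Real.pi) ⟨by positivity, le_rfl⟩
  have hγp : γ (2 * Real.pi) = γ 0 := by simp [γ, ee]
  rw [hγp, ← map_sub] at hb
  set d := ee (δ * (2 * Real.pi)) - ee (δ * 0) with hd
  have hn : ‖fderiv ℝ F (γ 0) d‖ = Real.exp (w (γ 0)) * ‖d‖ := by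
    have h1 := hm _ (hγb 0) d d
    rw [real_inner_self_eq_norm_sq, real_inner_self_eq_norm_sq] at h1
    have h2 : Real.exp (2 * w (γ 0)) = Real.exp (w (γ 0)) ^ 2 := by
      rw [← Real.exp_nat_mul]; norm_num
    rw [h2, ← mul_pow] at h1
    exact (pow_left_inj₀ (norm_nonneg _) (by positivity) two_ne_zero).1 h1
  have he : Real.exp (-1) ≤ Real.exp (w (γ 0)) := by
    apply Real.exp_le_exp.2
    have := hw0 (γ 0)
    rw [Real.norm_eq_abs, abs_le] at this
    exact this.1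
  have hm0 : 0 < m := lt_of_le_of_lt (norm_nonneg _)
    (hcon _ _ _ (hγn 0) (norm_ee' 0) (norm_ee 0))
  have hval : r * m * (2 * Real.pi - 0) = Real.exp (-1) * ‖d‖ / 2 := by
    rw [hmdef, hr]; field_simp; ring
  have hpos : 0 < Real.exp (-1) * ‖d‖ := by
    have : 0 < r * m * (2 * Real.pi - 0) := by
      rw [sub_zero]; positivity
    linarith
  have := mul_le_mul_of_nonneg_right he (norm_nonneg d)
  rw [hn, hval] at hb
  linarith

theorem exists_normal (c : E2) {R A δ : ℝ} (hR : 0 < R) (hδ : 0 < δ) (hδ1 : δ < 1) (hA : 1 ≤ A) :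
    ∃ μ : ℝ, 0 < μ ∧ ∃ η : ℝ, 0 < η ∧ ∀ (w : E2 → ℝ) (F : E2 → E3), ContDiff ℝ ∞ w →
      (∀ k ≤ 2, ∀ x, ‖iteratedFDeriv ℝ k w x‖ ≤ 1) →
      (∀ x, ‖x - c‖ = R / 2 → gradient w x = -(δ / (R / 2) ^ 2) • (x - c)) →
      ContDiffOn ℝ ∞ F (ball c R) →
      (∀ k ≤ 7, ∀ x ∈ ball c R, ‖iteratedFDeriv ℝ k F x‖ ≤ A) →
      (∀ x ∈ ball c R, ∀ v u, inner ℝ (fderiv ℝ F x v) (fderiv ℝ F x u) =
        Real.exp (2 * w x) * inner ℝ v u) →
      ∃ q : E2, ‖q - c‖ = R / 2 ∧ ∀ p ∈ ball c R, ‖q - p‖ ≤ η →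
        ∃ (ν : E3) (v u : E2), ‖ν‖ = 1 ∧ ‖v‖ = 1 ∧ ‖u‖ = 1 ∧
          (∀ a, inner ℝ (fderiv ℝ F p a) ν = (0 : ℝ)) ∧
          μ ≤ |inner ℝ (iteratedFDeriv ℝ 2 F p ![v, u]) ν| := by
  set m := Real.exp (-1) * ‖ee (δ * (2 * Real.pi)) - ee (δ * 0)‖ / (2 * Real.pi * R) with hmdef
  have hm0 : 0 < m := by
    have := norm_pos_iff.2 (ee_ne δ hδ hδ1)
    have := Real.pi_pos
    positivity
  refine ⟨m / 2, by positivity, m / (14 * A), by positivity, ?_⟩
  intro w F hw hwb hg hF hFb hm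
  obtain ⟨q, v, u, hq, hv, hu, hN⟩ := holonomy (δ := δ) hR
    (fun x => by simpa using hwb 0 (by norm_num) x) hg hF hm
  refine ⟨q, hq, fun p hp hpq => ?_⟩
  have hqb : q ∈ ball c R := by rw [mem_ball, dist_eq_norm, hq]; linarith
  have hl := Nn_lip hw hwb hF hFb hqb hp hv hu
  have h1 : 7 * A * ‖q - p‖ ≤ m / 2 := by
    calc 7 * A * ‖q - p‖ ≤ 7 * A * (m / (14 * A)) := by gcongr
      _ = m / 2 := by field_simp; ring
  have h2 : m / 2 ≤ ‖Nn w F p v u‖ := by
    have := norm_sub_norm_le (Nn w F q v u) (Nn w F p v u)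
    linarith
  set N := Nn w F p v u with hNdef
  have hN0 : 0 < ‖N‖ := by linarith
  have horth : ∀ a, inner ℝ (fderiv ℝ F p a) N = (0 : ℝ) := fun a =>
    Nn_orth (hw.differentiable (by simp) p)
      ((hF.contDiffAt (isOpen_ball.mem_nhds hp)).of_le (nat_le_inf 2))
      (Filter.eventually_of_mem (isOpen_ball.mem_nhds hp) hm) a v u
  refine ⟨‖N‖⁻¹ • N, v, u, ?_, hv, hu, fun a => ?_, ?_⟩
  · rw [norm_smul, norm_inv, norm_norm, inv_mul_cancel₀ hN0.ne']
  · rw [inner_smul_right, horth, mul_zero]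
  · have e : iteratedFDeriv ℝ 2 F p ![v, u] = N + fderiv ℝ F p (Gam (gradient w p) v u) := by
      rw [iteratedFDeriv_two_apply, hNdef]; simp [Nn]
    rw [e, inner_smul_right, inner_add_left, horth, add_zero, real_inner_self_eq_norm_sq]
    have : ‖N‖⁻¹ * ‖N‖ ^ 2 = ‖N‖ := by field_simp
    rw [this, abs_of_pos hN0]
    exact h2

end Crest.Agent.R220.G3
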