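import Crest.Agent.R220.Sm

/-! Integration on closed discs. -/

set_option autoImplicit false

namespace Crest.Agent.R220

open scoped ContDiff Topology
open Set Filter MeasureTheory

/-- Sobolev inequality in the plane -/
lemma abs_le_integral_dxy {g : ℝ × ℝ → ℝ} (hg : ContDiff ℝ ∞ g) (hs : HasCompactSupport g)
    (z : ℝ × ℝ) : |g z| ≤ ∫ p, |dx (dy g) p| := by
  have sx : ∀ {f : ℝ × ℝ → ℝ}, ContDiff ℝ ∞ f → ∀ v, ContDiff ℝ ∞ fun z => fderiv ℝ f z v :=
    fun hf v => (hf.fderiv_right (m := ∞) (by simp)).clm_apply contDiff_const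
  have hy : ContDiff ℝ ∞ (dy g) := sx hg _
  have hxy : ContDiff ℝ ∞ (dx (dy g)) := sx hy _
  have hsy : HasCompactSupport (dy g) := hs.fderiv_apply ℝ _
  have hsxy : HasCompactSupport (dx (dy g)) := hsy.fderiv_apply ℝ _
  have one : ∀ (φ : ℝ → ℝ), ContDiff ℝ ∞ φ → HasCompactSupport φ → ∀ t, |φ t| ≤ ∫ s, |deriv φ s| := by
    intro φ hφ hc t
    have h1 := HasCompactSupport.integral_Iic_deriv_eq (hφ.of_le (m := 1) (by simp)) hc t
    have h2 : Integrable (deriv φ) :=
      (hφ.continuous_deriv (by simp)).integrable_of_hasCompactSupport hc.deriv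
    rw [← h1]
    exact abs_integral_le_integral_abs.trans
      (setIntegral_le_integral h2.abs (Eventually.of_forall fun _ => abs_nonneg _))
  have c1 : ∀ x : ℝ, Topology.IsClosedEmbedding (fun t : ℝ => (x, t)) := fun x =>
    (Isometry.of_dist_eq fun a b => by simp [Prod.dist_eq]).isClosedEmbedding
  have c2 : ∀ y : ℝ, Topology.IsClosedEmbedding (fun s : ℝ => (s, y)) := fun y =>
    (Isometry.of_dist_eq fun a b => by simp [Prod.dist_eq]).isClosedEmbedding
  have d1 : ∀ t, deriv (fun t => g (z.1, t)) t = dy g (z.1, t) := fun t =>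
    ((hg.differentiable (by simp) _).hasFDerivAt.comp_hasDerivAt t
      ((hasDerivAt_const t z.1).prodMk (hasDerivAt_id t))).deriv
  have d2 : ∀ t s, deriv (fun s => dy g (s, t)) s = dx (dy g) (s, t) := fun t s =>
    ((hy.differentiable (by simp) _).hasFDerivAt.comp_hasDerivAt s
      ((hasDerivAt_id s).prodMk (hasDerivAt_const s t))).deriv
  have h1 := one (fun t => g (z.1, t)) (hg.comp (by fun_prop)) (hs.comp_isClosedEmbedding (c1 _)) z.2
  have h2 : ∀ t, |dy g (z.1, t)| ≤ ∫ s, |dx (dy g) (s, t)| := fun t => by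
    have := one (fun s => dy g (s, t)) (hy.comp (by fun_prop)) (hsy.comp_isClosedEmbedding (c2 _)) z.1
    simpa only [d2] using this
  have hi : Integrable (fun p => |dx (dy g) p|) ((volume : Measure ℝ).prod volume) :=
    (hxy.continuous.integrable_of_hasCompactSupport hsxy).abs
  simp only [d1] at h1
  refine h1.trans ?_
  rw [Measure.volume_eq_prod, integral_prod_symm _ hi]
  refine integral_mono_of_nonneg (Eventually.of_forall fun _ => abs_nonneg _)
    hi.integral_prod_right (Eventually.of_forall h2)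

namespace Sm
variable {R r : ℝ}

/-- integral over the closed disc -/
noncomputable def In (r : ℝ) (f : Sm R) : ℝ := ∫ z in cdisc r, f.ev z

/-- integral of the absolute value -/
noncomputable def Ia (r : ℝ) (f : Sm R) : ℝ := ∫ z in cdisc r, |f.ev z|

lemma integrableOn (h0 : 0 ≤ r) (h : r < R) (f : Sm R) : IntegrableOn f.ev (cdisc r) :=
  (f.smooth.continuousOn.mono (cdisc_subset_disc h0 h)).integrableOn_compact (isCompact_cdisc h0)

lemma In_add (h0 : 0 ≤ r) (h : r < R) (f g : Sm R) : In r (f + g) = In r f + In r g := by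
  simp only [In, ev_add]; exact integral_add (integrableOn h0 h f) (integrableOn h0 h g)

lemma In_sub (h0 : 0 ≤ r) (h : r < R) (f g : Sm R) : In r (f - g) = In r f - In r g := by
  simp only [In, ev_sub]; exact integral_sub (integrableOn h0 h f) (integrableOn h0 h g)

lemma In_neg (f : Sm R) : In r (-f) = -In r f := by
  simp only [In, ev_neg]; exact integral_neg _

lemma In_smul (c : ℝ) (f : Sm R) : In r (c • f) = c * In r f := by
  simp only [In, ev_smul]; exact integral_const_mul _ _

lemma In_mono (h0 : 0 ≤ r) (h : r < R) {f g : Sm R} (hfg : ∀ z ∈ cdisc r, f.ev z ≤ g.ev z) :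
    In r f ≤ In r g :=
  setIntegral_mono_on (integrableOn h0 h f) (integrableOn h0 h g) (isClosed_cdisc r).measurableSet hfg

lemma Ia_le_In (h0 : 0 ≤ r) (h : r < R) {f g : Sm R} (hfg : ∀ z ∈ cdisc r, |f.ev z| ≤ g.ev z) :
    Ia r f ≤ In r g :=
  setIntegral_mono_on (integrableOn h0 h f).abs (integrableOn h0 h g)
    (isClosed_cdisc r).measurableSet hfg

lemma Ia_le (h0 : 0 ≤ r) (h : r < R) {f g g' : Sm R} {c : ℝ}
    (hfg : ∀ z ∈ cdisc r, |f.ev z| ≤ c * (|g.ev z| + |g'.ev z|)) :
    Ia r f ≤ c * (Ia r g + Ia r g') := by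
  rw [Ia, Ia, Ia, ← integral_add (integrableOn h0 h g).abs (integrableOn h0 h g').abs,
    ← integral_const_mul]
  exact setIntegral_mono_on (integrableOn h0 h f).abs
    (((integrableOn h0 h g).abs.add (integrableOn h0 h g').abs).const_mul c)
    (isClosed_cdisc r).measurableSet hfg

lemma abs_In_le (f : Sm R) : |In r f| ≤ Ia r f := abs_integral_le_integral_abs

lemma Ia_nonneg (f : Sm R) : 0 ≤ Ia r f := integral_nonneg fun _ => abs_nonneg _

lemma In_sq_mono {r' : ℝ} (h0 : 0 ≤ r) (h1 : r ≤ r') (h : r' < R) (f : Sm R) :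
    In r (f * f) ≤ In r' (f * f) :=
  setIntegral_mono_set (integrableOn (h0.trans h1) h _)
    (Eventually.of_forall fun z => by simp only [ev_mul, Pi.zero_apply]; exact mul_self_nonneg _)
    (cdisc_mono h0 h1).eventuallyLE

lemma In_const (h0 : 0 ≤ r) (h : r < R) (c : ℝ) :
    In r (algebraMap ℝ (Sm R) c) = volume.real (cdisc r) * c := by
  rw [In, setIntegral_congr_fun (isClosed_cdisc r).measurableSet
    (fun z hz => ev_algebraMap c (cdisc_subset_disc h0 h hz))]
  simp

section
variable (h0 : 0 ≤ r) (h : r < R) {f : Sm R} (hf : ∀ z ∉ cdisc r, f.ev z = 0)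
include h0 h hf

lemma contDiff_ev : ContDiff ℝ ∞ f.ev := by
  refine contDiff_iff_contDiffAt.2 fun z => ?_
  by_cases hz : z ∈ cdisc r
  · exact f.smoothAt (cdisc_subset_disc h0 h hz)
  · exact (contDiffAt_const (c := 0)).congr_of_eventuallyEq
      (eventually_of_mem ((isClosed_cdisc r).isOpen_compl.mem_nhds hz) hf)

omit h in
lemma compactSupport_ev : HasCompactSupport f.ev :=
  HasCompactSupport.intro (isCompact_cdisc h0) hf

lemma ev_pd_eq (v : ℝ × ℝ) : (pd v f).ev = fun z => fderiv ℝ f.ev z v := by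
  funext z
  by_cases hz : z ∈ disc R
  · exact ev_pd _ _ hz
  · have hz' : z ∉ cdisc r := fun h' => hz (cdisc_subset_disc h0 h h')
    have : f.ev =ᶠ[𝓝 z] fun _ => 0 :=
      eventually_of_mem ((isClosed_cdisc r).isOpen_compl.mem_nhds hz') hf
    rw [ev_of_not_mem _ hz, this.fderiv_eq]
    simp

lemma In_pd (v : ℝ × ℝ) : In r (pd v f) = 0 := by
  have h1 := contDiff_ev h0 h hf
  have h2 := compactSupport_ev h0 hf
  rw [In, setIntegral_eq_integral_of_forall_compl_eq_zero
    (ev_pd_eq_zero (isClosed_cdisc r).isOpen_compl hf v), ev_pd_eq h0 h hf]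
  have := integral_mul_fderiv_eq_neg_fderiv_mul_of_integrable (μ := (volume : Measure (ℝ × ℝ)))
    (f := fun _ => (1 : ℝ)) (g := f.ev) (v := v) (by simp)
    (by
      simp only [one_mul]
      exact ((h1.continuous_fderiv (by simp)).clm_apply
        continuous_const).integrable_of_hasCompactSupport (h2.fderiv_apply ℝ v))
    (by simpa using h1.continuous.integrable_of_hasCompactSupport h2)
    (fun _ _ => differentiableAt_const _) (fun x _ => h1.differentiable (by simp) x)
  simpa using this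

lemma abs_le_Ia (z : ℝ × ℝ) : |f.ev z| ≤ Ia r (px (py f)) := by
  have h1 := ev_pd_eq_zero (isClosed_cdisc r).isOpen_compl hf (0, 1)
  have h2 := ev_pd_eq_zero (isClosed_cdisc r).isOpen_compl h1 (1, 0)
  refine (abs_le_integral_dxy (contDiff_ev h0 h hf) (compactSupport_ev h0 hf) z).trans (le_of_eq ?_)
  rw [Ia, setIntegral_eq_integral_of_forall_compl_eq_zero
    (fun z hz => by rw [h2 z hz, abs_zero]), ev_pd_eq h0 h h1, ev_pd_eq h0 h hf]
  rfl

end

end Sm

end Crest.Agent.R220
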