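import Crest.Agent.R220.Test

/-! The local obstruction. -/

set_option autoImplicit false

namespace Crest.Agent.R220

open scoped ContDiff Topology
open Set Filter MeasureTheory Sm DP Geo

variable {J : ℕ} {A μ : ℝ} {ι : Type} (τ : ι → Tup J A μ) {c : ℝ} (hc : 0 < c)
  (hτ : ∀ i, ∀ z ∈ disc (RR τ i), c ≤ val (DlF τ) i z ∧ c ≤ val (NF τ) i z) (hJ : 8 ≤ J)
  {I : Set ι} {ρ : ℝ} {B : ℕ → ℝ} (hB : ∀ i ∈ I, ∀ m, Bnd (RR τ i) m (B m) (τ i).w₀)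

lemma toUn {R : ι → ℝ} {r : ℝ} {n : ℕ} {f : Fam R} {e : DP (Fam R)} (hf : f ∈ e.U (C0 R) n) :
    f ∈ e.U (cls R I r) n := cls_of_clsU (fun _ => subset_rfl) hf

include hB in
lemma w0F_cls (r : ℝ) (n : ℕ) : w0F τ ∈ (eF _).U (cls _ I r) n :=
  mk_U (D := dom _ I r) rfl _ _ fun i ⟨_, hz⟩ => hB i hz.1.1 n

include hB in
lemma k0F_cls (r : ℝ) (n : ℕ) : k0F τ ∈ (eF _).U (cls _ I r) n :=
  neg_mem (add_mem (U_d1 (U_d1 (w0F_cls τ hB r _))) (U_d2 (U_d2 (w0F_cls τ hB r _))))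

include hJ hB in
lemma geo_jet {r : ℝ} (r0 : 0 ≤ r) : (geo τ hc hτ).Jet (cls _ I r) xF yF J := by
  have hx : ∀ n, (xF : Fam (RR τ)) ∈ (eF _).U (cls _ I r) n := fun n => cst_cls r0 n _ _
  have hy : ∀ n, (yF : Fam (RR τ)) ∈ (eF _).U (cls _ I r) n := fun n => cst_cls r0 n _ _
  have hl := hll τ
  have key : ∀ {f g : Fam (RR τ)} {a : ℤ} (n : ℕ), (∀ m, f ∈ (eF _).U (cls _ I r) m) →
      Sc (ll τ) a g → a + n ≤ 0 → f + g ∈ (eF _).L (cls _ I r) (n + 1) ∧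
        f + g ∈ (eF _).U (cls _ I r) n := fun n hf hg ha =>
    ⟨add_mem (L_of_U (hf _)) (hg.L hl I r _ (by omega)), add_mem (hf _) (hg.U hl rfl _ ha)⟩
  have w1 := key (J - 1) (fun m => U_d1 (w0F_cls τ hB r (m + 1))) ((Sc_w1F τ).pdF hl (1, 0)) (by omega)
  have w2 := key (J - 1) (fun m => U_d2 (w0F_cls τ hB r (m + 1))) ((Sc_w1F τ).pdF hl (0, 1)) (by omega)
  have k1 := key (J - 2) (fun m => mul_mem (hx m) (U_d1 (k0F_cls τ hB r (m + 1))))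
    (((Sc_k1F τ).pdF hl (1, 0)).x_mul hl) (by omega)
  have k2 := key (J - 2) (fun m => mul_mem (hx m) (U_d2 (k0F_cls τ hB r (m + 1))))
    (((Sc_k1F τ).pdF hl (0, 1)).x_mul hl) (by omega)
  have k3 := key (J - 2) (fun m => mul_mem (hy m) (U_d1 (k0F_cls τ hB r (m + 1))))
    (((Sc_k1F τ).pdF hl (1, 0)).y_mul hl) (by omega)
  have k4 := key (J - 2) (fun m => mul_mem (hy m) (U_d2 (k0F_cls τ hB r (m + 1))))
    (((Sc_k1F τ).pdF hl (0, 1)).y_mul hl) (by omega)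
  rw [show J - 1 + 1 = J by omega] at w1 w2
  rw [show J - 2 + 1 = J - 1 by omega, ← mul_add] at k1 k2 k3 k4
  have e1 : (geo τ hc hτ).w1 = (eF _).d1 (w0F τ) + pdF (1, 0) (w1F τ) := map_add _ _ _
  have e2 : (geo τ hc hτ).w2 = (eF _).d2 (w0F τ) + pdF (0, 1) (w1F τ) := map_add _ _ _
  have e3 : (geo τ hc hτ).e.d1 (geo τ hc hτ).k = (eF _).d1 (k0F τ) + pdF (1, 0) (k1F τ) := by
    rw [geo_k]; exact map_add _ _ _
  have e4 : (geo τ hc hτ).e.d2 (geo τ hc hτ).k = (eF _).d2 (k0F τ) + pdF (0, 1) (k1F τ) := by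
    rw [geo_k]; exact map_add _ _ _
  exact ⟨hx, hy, toU (expF_U τ hJ _), e1 ▸ w1.2, e2 ▸ w2.2, e1 ▸ w1.1, e2 ▸ w2.1, e3 ▸ k1, e4 ▸ k2,
    e3 ▸ k3, e4 ▸ k4⟩

variable (ρ0 : 0 < ρ) (hρ : ∀ i ∈ I, (τ i).ρ = ρ) {c' : ℝ} (hc' : 0 < c')
  (pos : ∀ i ∈ I, ∀ z ∈ disc (RR τ i),
      (∀ n ≤ J, ∀ a b : ℝ, c' * (a ^ 2 + b ^ 2) ≤ val (geo τ hc hτ).J i z *
        (val ((geo τ hc hτ).Th n) i z * a ^ 2 + val ((geo τ hc hτ).Xi n) i z * (a * b) +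
          val (geo τ hc hτ).Up i z * b ^ 2)) ∧ c' ≤ val (geo τ hc hτ).J i z ∧
      (z ∉ cdisc (3 / 2 * (τ i).ρ) → c' ≤ val (geo τ hc hτ).J i z * val (geo τ hc hτ).K i z))
include hJ hB ρ0 hρ hc' pos

lemma geo_ana : (geo τ hc hτ).Ana (cls _ I) xF yF J (3 / 2 * ρ) (2 * ρ) := by
  have hI : ∀ r, r < 2 * ρ → ∀ i ∈ I, r < RR τ i := fun r hr i hi => by
    rw [RR, hρ i hi]; linarith
  have r0 : ∀ r, 3 / 2 * ρ < r → 0 ≤ r := fun r hr => by linarith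
  have low := geo_low τ hc hτ
  have low' : ∀ r, (geo τ hc hτ).Low (cls _ I r) := fun r =>
    ⟨toUn low.x1, toUn low.x2, toUn low.y1, toUn low.y2, toUn low.P, toUn low.Q, toUn low.iJ⟩
  refine ⟨fun r r' h0 h1 h2 f => cls_monoU (r0 r h0) h1 (hI r' h2),
    fun r r' h0 h1 h2 f => cls_monoL (r0 r h0) h1 (hI r' h2), fun r _ _ => low' r,
    fun r h0 _ => geo_jet τ hc hτ hJ hB (r0 r h0),
    fun r r' h0 h1 h2 f => sobolev (r0 r h0) h1 (hI r' h2), fun r r' h0 h1 h2 n hn ψ H a1 a2 a3 a4 => ?_⟩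
  set G := geo τ hc hτ with hG
  have he : G.e = eF _ := rfl
  obtain ⟨M1, m1, hM1⟩ := OB.bound (OB_P he low (geo_zero τ hc hτ))
  obtain ⟨M2, m2, hM2⟩ := OB.bound (OB_Y he low (geo_zero τ hc hτ))
  have mem : ∀ i ∈ I, ∀ z ∈ cdisc r', z ∈ disc (RR τ i) := fun i hi z hz =>
    cdisc_subset_disc (r0 r' (h0.trans h1)) (hI r' h2 i hi) hz
  have uE : G.E ∈ G.e.U (C0 _) 6 := geo_E τ hc hτ hJ
  have uk : G.k ∈ G.e.U (C0 _) 5 := geo_kU τ hc hτ hJ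
  have uK : G.K ∈ G.e.U (C0 _) 1 := mul_mem (U_le uE (by omega)) (U_le uk (by omega))
  have u1 := U_base (low.D1 (n := 0) (by omega) uK)
  have u2 := U_base low.D1X
  have u3 := U_base uE
  have u4 := U_base uk
  have u5 := U_base (U_d1 uk)
  have u6 := U_base (U_d2 uk)
  have u7 := U_base low.y1
  have u8 := U_base low.y2
  have u9 : G.iD ∈ (C0 _).U := U_base (geo_iD τ hc hτ)
  have u10 : G.w1 ∈ (C0 _).U := U_base (U_d1 (geo_w τ hc hτ hJ))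
  have u11 : G.w2 ∈ (C0 _).U := U_base (U_d2 (geo_w τ hc hτ hJ))
  have u12 : G.ig ∈ (C0 _).U := U_base (geo_ig τ hc hτ hJ)
  have u13 := U_base low.P
  have u14 := U_base low.Q
  refine energy he (c := c') (M := M1 + M2) (by positivity) h0 h1 (hI r' h2) (low' r') n
    (toU (U_base (YF_U τ))) (toUn uK) (toU ?_) (toU ?_) hc'
    (fun i hi z hz => (pos i hi z (mem i hi z hz)).1 n hn)
    (fun i hi z hz => (pos i hi z (mem i hi z hz)).2.1)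
    (fun i hi z hz h => (pos i hi z (mem i hi z hz)).2.2 (hρ i hi ▸ h))
    (fun i hi z hz => (hM1 i z (mem i hi z hz)).trans ?_)
    (fun i hi z hz => (hM2 i z (mem i hi z hz)).trans ?_) a1 a2 a3 a4
  · unfold e1 B1; alg_mem
  · unfold e2 B2 Geo.W; alg_mem
  · rw [pow_one]; gcongr; linarith
  · rw [pow_one]; gcongr; linarith

theorem bound_l (hl : ∀ i ∈ I, 3 ≤ ρ * √(τ i).l) : ∃ C, ∀ i ∈ I, √√(τ i).l ≤ C := by
  have ana := geo_ana τ hc hτ hJ hB ρ0 hρ hc' pos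
  obtain ⟨n, rfl⟩ : ∃ n, J = n + 1 := ⟨J - 1, by omega⟩
  set r := 7 / 4 * ρ with hr
  have r0 : 0 ≤ r := by positivity
  obtain ⟨u1, u2, hH⟩ := ana.final (by omega) (r := r) (by linarith) (by linarith) (geo_k τ hc hτ)
    (k0F_cls τ hB r _)
  set G := geo τ hc hτ with hG
  have he : G.e = eF _ := rfl
  have low : G.Low (C0 _) := geo_low τ hc hτ
  have uE : G.E ∈ G.e.U (C0 _) 6 := geo_E τ hc hτ hJ
  have ua : G.E * k0F τ ∈ G.e.U (C0 _) 1 := mul_mem (U_le uE (by omega)) (U_le (k0F_U τ) (by omega))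
  obtain ⟨m, m0, hm⟩ := geo_E_low τ hc hτ hJ
  obtain ⟨mJ, mJ0, hmJ⟩ := geo_J τ hc hτ
  set σ : ι → ℝ := fun i => √(-val (G.E * k0F τ) i 0) with hσ
  have σ0 : ∀ i, σ i ^ 2 = -val (G.E * k0F τ) i 0 := fun i => by
    have hz := zero_mem τ i
    refine Real.sq_sqrt ?_
    rw [val_mul, k0F_eq, val_sub, val_sc_mul, sq xF, sq yF, val_add, val_mul, val_mul, val_xF i hz,
      val_yF i hz, val_sc _ _ hz]
    have := mul_pos (m0.trans_le (hm i 0 hz)) (τ i).hκ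
    simpa using this.le
  have uσ : sc σ ∈ (C0 (RR τ)).U := by
    obtain ⟨C, hC⟩ := U_base ua
    refine sc_UB (M := √C) fun i _ => ?_
    rw [abs_of_nonneg (Real.sqrt_nonneg _)]
    exact Real.sqrt_le_sqrt ((neg_le_abs _).trans (hC i 0 (zero_mem τ i)))
  have haσ : G.E * k0F τ + sc σ ^ 2 ∈ OB 1 := OB.one (fun i => by
      rw [val_add, sq, val_sc_mul, val_sc _ _ (zero_mem τ i), ← sq, σ0, add_neg_cancel])
    (add_mem ua (pow_mem (sc_U uσ 1) 2))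
  set ξ := G.P + sc σ * G.Y with hξ
  have oξ : ξ ∈ OB 1 := add_mem (OB_P he low (geo_zero τ hc hτ))
    (OB.U_mul uσ (OB_Y he low (geo_zero τ hc hτ)))
  have uξ : ξ ∈ G.e.U (C0 _) 2 := add_mem (U_le low.P (by omega))
    (mul_mem (sc_U uσ 2) (U_le (YF_U τ) (by omega)))
  have ξ1 : G.D1 ξ = 1 := by rw [hξ, map_add, der_mul, D1_sc he, D1P, D1Y]; ring
  have ξ2 : G.D2 ξ = sc σ := by rw [hξ, map_add, der_mul, D2_sc he, D2P, D2Y]; ring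
  have hl1 := hll τ
  have hs : ∀ i, 1 ≤ √(ll τ i) := fun i => Real.one_le_sqrt.2 (hl1 i)
  have hs2 : ∀ i, √(ll τ i) ^ 2 = ll τ i := fun i => Real.sq_sqrt (by linarith [hl1 i])
  have hs3 : ∀ i, √(ll τ i) ≤ ll τ i := fun i => by nlinarith [hs i, hs2 i]
  have hq : ∀ i, √√(ll τ i) ^ 2 = √(ll τ i) := fun i => Real.sq_sqrt (Real.sqrt_nonneg _)
  have hq1 : ∀ i, √√(ll τ i) ≤ ll τ i := fun i => by
    nlinarith [hs3 i, hq i, Real.one_le_sqrt.2 (hs i)]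
  have hr' : ∀ i ∈ I, 3 ≤ r * √(ll τ i) := fun i hi =>
    (hl i hi).trans (mul_le_mul_of_nonneg_right (by linarith) (Real.sqrt_nonneg _))
  have hk : k1F τ ∈ Van fun i => (disc (2 / ll τ i))ᶜ := by
    have o : ∀ i, IsOpen (cdisc (ll τ i)⁻¹)ᶜ := fun i => (isClosed_cdisc _).isOpen_compl
    have h1 : w1F τ ∈ Van fun i => (cdisc (ll τ i)⁻¹)ᶜ := Ideal.mul_mem_left _ _ (scl_Van _
      fun i z hz => bump_eq_zero (smul_not_mem (by have := hl1 i; positivity) zero_le_one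
        (inv_mul_cancel₀ (by linarith [hl1 i])).ge hz))
    have h2 : k1F τ ∈ Van fun i => (cdisc (ll τ i)⁻¹)ᶜ := neg_mem (add_mem
      (Van.pdF o (Van.pdF o h1 _) _) (Van.pdF o (Van.pdF o h1 _) _))
    refine fun i z hz => h2 i z fun h => hz ?_
    have := hl1 i
    refine cdisc_subset_disc (by positivity) ?_ h
    rw [div_eq_mul_inv]
    linarith [inv_pos.2 (show 0 < ll τ i by positivity)]
  have T := testA he low mJ0 hmJ hs hq hs2 r0 hr' uσ oξ ξ1 ξ2 ua haσ hk (n + 1) u1 u2 hH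
  have eb : sc (ll τ) ^ (n + 1 + 2) * w1F τ = sc (ll τ) ^ 2 * scl bump contDiff_bump (ll τ) :=
    Fam.ext fun i z hz => by
      have := hl1 i
      rw [w1F, ← valA_apply i hz, ← valA_apply i hz]
      simp only [map_mul, map_pow, valA_apply, val_sc _ _ hz, zpow_neg, zpow_natCast]
      field_simp
      ring
  have dl : ∀ v (f : Fam (RR τ)), pdF v (sc (ll τ) ^ (n + 1 + 2) * f) =
      sc (ll τ) ^ (n + 1 + 2) * pdF v f := fun v f => by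
    rw [der_mul, Derivation.leibniz_pow, pdF_sc]; simp
  refine testB he low (I := I) (r := r) (q := fun i => √√(ll τ i)) (F := G.E * G.Dl) (m := m * c) hl1
    (fun i => Real.sqrt_nonneg _) hq1 r0 (fun i hi => ?_) (fun i hi => ?_) oξ uξ ξ1
    (mul_mem (U_le uE (by omega)) (U_le (DlF_U τ) (by omega))) (by positivity) (fun i z hz => ?_)
    eb ?_
  · nlinarith [hr' i hi, mul_le_mul_of_nonneg_left (hs3 i) r0]
  · rw [RR, hρ i hi]; linarith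
  · rw [val_mul]
    exact mul_le_mul (hm i z hz) (hτ i z hz).1 hc.le (m0.le.trans (hm i z hz))
  · convert T using 1
    change _ * -(pdF _ (pdF _ _) + pdF _ (pdF _ _)) = _
    rw [dl, dl, dl, dl, ← JD1X]
    change _ = _ * (_ * (-(pdF _ (pdF _ _) + pdF _ (pdF _ _)) * _))
    ring

omit hJ hB ρ0 hρ hc' pos in
theorem localStmt : LocalStmt := by
  intro J A μ hJ hμ
  obtain ⟨c, ρ₁, c0, ρ1, h⟩ := prelim (id : Tup J A μ → Tup J A μ) hJ hμ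
  let τ : {t : Tup J A μ // ∀ z ∈ disc (RR id t), c ≤ val (DlF id) t z ∧ c ≤ val (NF id) t z} →
    Tup J A μ := Subtype.val
  have hτ : ∀ i, ∀ z ∈ disc (RR τ i), c ≤ val (DlF τ) i z ∧ c ≤ val (NF τ) i z := fun i => i.2
  obtain ⟨ρ₀, κ₀, a1, a2, pos⟩ := positivity_geo τ c0 hτ hJ
  refine ⟨min 1 (min ρ₁ ρ₀), by positivity, fun ρ hρ hρ' => ⟨min 1 κ₀, by positivity,
    fun κ hκ hκ' B l₁ => ?_⟩⟩
  simp only [le_min_iff] at hρ' hκ'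
  obtain ⟨c', c'0, pos⟩ := pos κ hκ hκ'.2
  obtain ⟨C, hC⟩ := bound_l τ c0 hτ hJ (B := B)
    (I := {i | (τ i).ρ = ρ ∧ (τ i).κ = κ ∧ (∀ m, Bnd (RR τ i) m (B m) (τ i).w₀) ∧ i ∈ I0 τ ∧
      3 ≤ ρ * √(τ i).l}) (fun i hi => hi.2.2.1) hρ (fun i hi => hi.1) c'0
    (fun i hi => pos i hi.2.2.2.1 (hi.1 ▸ hρ'.2.2) hi.2.1) fun i hi => hi.2.2.2.2
  obtain ⟨l, b1, b2, b3, b4, b5⟩ : ∃ l, l₁ ≤ l ∧ 1 ≤ l ∧ (κ * ρ)⁻¹ ≤ l ∧ (3 / ρ) ^ 2 ≤ l ∧
      ((|C| + 1) ^ 2) ^ 2 ≤ l :=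
    ⟨max l₁ (max 1 (max (κ * ρ)⁻¹ (max ((3 / ρ) ^ 2) (((|C| + 1) ^ 2) ^ 2)))), by simp, by simp,
      by simp, by simp, by simp⟩
  refine ⟨l, b1, fun w₀ X Y Z hB sol => ?_⟩
  let t : Tup J A μ := ⟨ρ, κ, l, w₀, X, Y, Z, hρ, hρ'.1, hκ, hκ'.1, b2, sol⟩
  have := hC ⟨t, h t hρ'.2.1⟩ ⟨rfl, rfl, hB, (inv_le_iff_one_le_mul₀' (by positivity)).1 b3,
    (div_le_iff₀' hρ).1 (Real.le_sqrt_of_sq_le b4)⟩
  have h2 : |C| + 1 ≤ √√l := Real.le_sqrt_of_sq_le (Real.le_sqrt_of_sq_le b5)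
  change √√l ≤ C at this
  linarith [le_abs_self C]

end Crest.Agent.R220
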