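import Crest.Agent.R220.Defs

/-!
# Row 220: from the normalized local obstruction to the invariant one
-/

set_option autoImplicit false

open scoped ContDiff InnerProductSpace Laplacian
open Metric

namespace Crest.Agent.R220

namespace Nrm

/-- the plane -/
abbrev E2 := EuclideanSpace ℝ (Fin 2)

lemma exists_frame (b : E2 →L[ℝ] E2 →L[ℝ] ℝ) (hb : ∀ x y, b x y = b y x) {v u : E2}
    (hv : ‖v‖ = 1) (hu : ‖u‖ = 1) : ∃ e : OrthonormalBasis (Fin 2) ℝ E2,
      b (e 0) (e 1) = 0 ∧ |b v u| ≤ |b (e 0) (e 0)| := by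
  have hT : (InnerProductSpace.continuousLinearMapOfBilin b : E2 →ₗ[ℝ] E2).IsSymmetric := by
    intro x y
    rw [real_inner_comm (_ : E2) x]
    simp [InnerProductSpace.continuousLinearMapOfBilin_apply, hb x y]
  let e := hT.eigenvectorBasis finrank_euclideanSpace_fin
  have h0 : b (e 0) (e 1) = 0 := by
    have h := hT.apply_eigenvectorBasis finrank_euclideanSpace_fin 0
    rw [← InnerProductSpace.continuousLinearMapOfBilin_apply]
    refine (congrArg (fun x => ⟪x, e 1⟫_ℝ) h).trans ?_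
    simp only [inner_smul_left]
    rw [e.orthonormal.2 (by decide), mul_zero]
  have h1 : |b v u| ≤ max |b (e 0) (e 0)| |b (e 1) (e 1)| := by
    have hv' := e.sum_sq_norm_inner_right v
    have hu' := e.sum_sq_norm_inner_right u
    rw [← e.sum_repr' v, ← e.sum_repr' u]
    simp only [Fin.sum_univ_two, hu, hv, Real.norm_eq_abs, sq_abs, map_add, map_smul, add_apply,
      smul_apply, smul_eq_mul, hb (e 1) (e 0), h0, mul_zero, add_zero, zero_add] at hv' hu' ⊢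
    refine (abs_add_le _ _).trans ?_
    simp only [abs_mul]
    rw [← sq_abs, ← sq_abs ⟪e 1, _⟫_ℝ] at hv' hu'
    have h2 := le_max_left |b (e 0) (e 0)| |b (e 1) (e 1)|
    have h3 := le_max_right |b (e 0) (e 0)| |b (e 1) (e 1)|
    have h4 := (abs_nonneg _).trans h2
    generalize max |b (e 0) (e 0)| |b (e 1) (e 1)| = M at *
    calc _ ≤ |⟪e 0, u⟫_ℝ| * (|⟪e 0, v⟫_ℝ| * M) + |⟪e 1, u⟫_ℝ| * (|⟪e 1, v⟫_ℝ| * M) := by gcongr
      _ = (|⟪e 0, u⟫_ℝ| * |⟪e 0, v⟫_ℝ| + |⟪e 1, u⟫_ℝ| * |⟪e 1, v⟫_ℝ|) * M := by ring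
      _ ≤ 1 * M := by
        gcongr
        nlinarith [sq_nonneg (|⟪e 0, u⟫_ℝ| - |⟪e 0, v⟫_ℝ|), sq_nonneg (|⟪e 1, u⟫_ℝ| - |⟪e 1, v⟫_ℝ|)]
      _ = M := one_mul M
  rcases le_max_iff.mp h1 with h | h
  · exact ⟨e, h0, h⟩
  · exact ⟨e.reindex (Equiv.swap 0 1), by simpa [hb (e 1)] using h0, by simpa using h⟩

/-- coordinates in a frame -/
noncomputable def LL (e : OrthonormalBasis (Fin 2) ℝ E2) : ℝ × ℝ →L[ℝ] E2 :=
  (ContinuousLinearMap.fst ℝ ℝ ℝ).smulRight (e 0) + (ContinuousLinearMap.snd ℝ ℝ ℝ).smulRight (e 1)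

variable (e : OrthonormalBasis (Fin 2) ℝ E2)

lemma LL_x : LL e (1, 0) = e 0 := by simp [LL]

lemma LL_y : LL e (0, 1) = e 1 := by simp [LL]

lemma LL_norm (z : ℝ × ℝ) : ‖LL e z‖ ^ 2 = z.1 ^ 2 + z.2 ^ 2 := by
  rw [← e.sum_sq_norm_inner_right]
  simp [LL, inner_add_right, inner_smul_right, orthonormal_iff_ite.mp e.orthonormal]

variable {e} {p : E2} {r : ℝ}

lemma mem_ball_of {z : ℝ × ℝ} (hr : 0 < r) (hz : z ∈ disc r) : p + LL e z ∈ ball p r := by
  rw [mem_ball, dist_self_add_left]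
  exact lt_of_pow_lt_pow_left₀ 2 hr.le ((LL_norm e z).trans_lt hz)

lemma isOpen_disc (r : ℝ) : IsOpen (disc r) := isOpen_lt (by fun_prop) (by fun_prop)

variable {G : Type*} [NormedAddCommGroup G] [NormedSpace ℝ G] {f : E2 → G}

lemma step (hr : 0 < r) (hf : ContDiffOn ℝ ∞ f (ball p r)) (φ : G →L[ℝ] ℝ) {n : ℕ}
    {m : Fin n → E2} {g : ℝ × ℝ → ℝ}
    (hg : ∀ z ∈ disc r, g z = φ (iteratedFDeriv ℝ n f (p + LL e z) m)) (a : ℝ × ℝ) :
    ∀ z ∈ disc r, fderiv ℝ g z a =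
      φ (iteratedFDeriv ℝ (n + 1) f (p + LL e z) (Matrix.vecCons (LL e a) m)) := by
  intro z hz
  have h1 : DifferentiableAt ℝ (iteratedFDeriv ℝ n f) (p + LL e z) :=
    (hf.contDiffAt (isOpen_ball.mem_nhds (mem_ball_of hr hz))).differentiableAt_iteratedFDeriv
      (by exact_mod_cast ENat.natCast_lt_top n)
  have h2 := (φ ∘L ContinuousMultilinearMap.apply ℝ _ _ m).hasFDerivAt.comp z
    (h1.hasFDerivAt.comp z ((LL e).hasFDerivAt.const_add p))
  rw [(h2.congr_of_eventuallyEq (Filter.eventually_of_mem ((isOpen_disc r).mem_nhds hz) hg)).fderiv]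
  rfl

lemma bnd (hr : 0 < r) (hf : ContDiffOn ℝ ∞ f (ball p r)) (φ : G →L[ℝ] ℝ) (hφ : ‖φ‖ ≤ 1) {k : ℕ}
    {A : ℝ} (hA : ∀ n ≤ k, ∀ x ∈ ball p r, ‖iteratedFDeriv ℝ n f x‖ ≤ A) :
    Bnd r k A fun z => φ (f (p + LL e z)) := by
  let P : ℕ → (ℝ × ℝ → ℝ) → Prop := fun n g => ∃ m : Fin n → E2, (∀ i, ‖m i‖ = 1) ∧
    ∀ z ∈ disc r, g z = φ (iteratedFDeriv ℝ n f (p + LL e z) m)
  have h1 : ∀ n g a, ‖LL e a‖ = 1 → P n g → P (n + 1) fun z => fderiv ℝ g z a :=
    fun n g a ha ⟨m, hm, hg⟩ => ⟨_, fun i => Fin.cases ha hm i, step hr hf φ hg a⟩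
  have h2 : ∀ b, P b (dy^[b] fun z => φ (f (p + LL e z))) := fun b => by
    induction b with
    | zero => exact ⟨0, fun i => i.elim0, fun z _ => rfl⟩
    | succ b ih =>
      rw [Function.iterate_succ_apply']
      exact h1 _ _ _ (by rw [LL_y, e.orthonormal.1]) ih
  have h3 : ∀ b a, P (b + a) (dx^[a] (dy^[b] fun z => φ (f (p + LL e z)))) := fun b a => by
    induction a with
    | zero => exact h2 b
    | succ a ih =>
      rw [Function.iterate_succ_apply']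
      exact h1 _ _ _ (by rw [LL_x, e.orthonormal.1]) ih
  intro a b hab z hz
  obtain ⟨m, hm, h⟩ := h3 b a
  rw [h z hz]
  refine (φ.le_of_opNorm_le hφ _).trans ?_
  rw [one_mul]
  refine (ContinuousMultilinearMap.le_opNorm _ _).trans ?_
  simpa [hm] using hA _ (by omega) _ (mem_ball_of hr hz)

lemma bnd_mono {k : ℕ} {A A' : ℝ} {g : ℝ × ℝ → ℝ} (h : Bnd r k A g) (hA : A ≤ A') :
    Bnd r k A' g := fun a b hab z hz => (h a b hab z hz).trans hA

lemma bnd_sub {k : ℕ} {A c : ℝ} {g : ℝ × ℝ → ℝ} (h : Bnd r k A g) (hc : |c| ≤ A) :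
    Bnd r k (2 * A) fun z => g z - c := by
  have h0 : A ≤ 2 * A := by linarith [abs_nonneg c]
  rintro a (_ | b) hab z hz
  · rcases a with _ | a
    · exact (abs_sub _ _).trans (by linarith [show |g z| ≤ A from h 0 0 hab z hz])
    · have : dx (fun z => g z - c) = dx g := funext fun z => by simp [dx, fderiv_sub_const]
      simpa [this] using (h (a + 1) 0 hab z hz).trans h0
  · have : dy (fun z => g z - c) = dy g := funext fun z => by simp [dy, fderiv_sub_const]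
    simpa [this] using (h a (b + 1) hab z hz).trans h0

lemma smooth (hr : 0 < r) (hf : ContDiffOn ℝ ∞ f (ball p r)) (φ : G →L[ℝ] ℝ) :
    ContDiffOn ℝ ∞ (fun z => φ (f (p + LL e z))) (disc r) :=
  φ.contDiff.comp_contDiffOn (hf.comp (contDiff_const.add (LL e).contDiff).contDiffOn
    fun _ hz => mem_ball_of hr hz)

lemma d1 (hr : 0 < r) (hf : ContDiffOn ℝ ∞ f (ball p r)) (φ : G →L[ℝ] ℝ) (c : ℝ) (a : ℝ × ℝ) :
    ∀ z ∈ disc r, fderiv ℝ (fun z => φ (f (p + LL e z)) - c) z a =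
      φ (fderiv ℝ f (p + LL e z) (LL e a)) := fun z hz => by
  rw [fderiv_sub_const]
  simpa using step (e := e) hr hf φ (n := 0) (m := ![]) (fun _ _ => rfl) a z hz

lemma d2 (hr : 0 < r) (hf : ContDiffOn ℝ ∞ f (ball p r)) (φ : G →L[ℝ] ℝ) (a a' : ℝ × ℝ) :
    ∀ z ∈ disc r, fderiv ℝ (fun z => fderiv ℝ (fun z => φ (f (p + LL e z))) z a') z a =
      φ (iteratedFDeriv ℝ 2 f (p + LL e z) ![LL e a, LL e a']) :=
  step hr hf φ (step hr hf φ (n := 0) (m := ![]) (fun _ _ => rfl) a') a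

end Nrm

open Nrm

theorem localE_of (h : LocalStmt) : LocalE := by
  intro J A μ hJ hμ
  obtain ⟨ρ₀, h0, h⟩ := h J (2 * A) μ hJ hμ
  refine ⟨ρ₀, h0, fun ρ hρ hρ' => ?_⟩
  obtain ⟨κ₀, h1, h⟩ := h ρ hρ hρ'
  refine ⟨κ₀, h1, fun κ hκ hκ' B l₁ => ?_⟩
  obtain ⟨l, hl, h⟩ := h κ hκ hκ' (fun m => ∑ k ∈ Finset.range (m + 1), |B k|) l₁
  refine ⟨l, hl, fun p w₀ F hw hF hB hAw hAF hΔ hg ν v u hν hv hu hn => ?_⟩
  by_contra! hc
  have hr : 0 < 3 * ρ := by positivity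
  have hp : p ∈ ball p (3 * ρ) := mem_ball_self hr
  have hA : 0 ≤ A := (norm_nonneg _).trans (hAF 0 (by norm_num) p hp)
  have hs : IsSymmSndFDerivAt ℝ F p :=
    (hF.contDiffAt (isOpen_ball.mem_nhds hp)).isSymmSndFDerivAt
      (by simpa using WithTop.coe_le_coe.mpr (le_top (a := (2 : ℕ∞))))
  obtain ⟨e, he1, he2⟩ := exists_frame ((ContinuousLinearMap.compL ℝ _ _ ℝ (innerSL ℝ ν)) ∘L
    fderiv ℝ (fderiv ℝ F) p) (fun x y => congrArg (innerSL ℝ ν) (hs x y)) hv hu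
  simp only [ContinuousLinearMap.comp_apply, ContinuousLinearMap.compL_apply, innerSL_apply_apply]
    at he1 he2
  rw [iteratedFDeriv_two_apply, real_inner_comm] at hc
  obtain ⟨s, hs1, hs2⟩ : ∃ s : ℝ, s * s = 1 ∧ μ ≤ s * ⟪ν, fderiv ℝ (fderiv ℝ F) p (e 0) (e 0)⟫_ℝ := by
    rcases le_abs.mp (hc.trans he2) with h | h
    · exact ⟨1, by simp, by simpa using h⟩
    · exact ⟨-1, by simp, by simpa using h⟩
  have hn' : ∀ a, ⟪ν, fderiv ℝ F p a⟫_ℝ = 0 := fun a => (real_inner_comm _ _).trans (hn a)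
  have he := orthonormal_iff_ite.mp e.orthonormal
  obtain ⟨q, hq, hq'⟩ : ∃ q : ℝ, 0 < q ∧ ∀ a a', ⟪fderiv ℝ F p a, fderiv ℝ F p a'⟫_ℝ =
      q * q * ⟪a, a'⟫_ℝ := ⟨_, Real.exp_pos _, fun a a' =>
    (hg p hp a a').trans (by rw [← Real.exp_add, ← two_mul])⟩
  have ho : Orthonormal ℝ ![q⁻¹ • fderiv ℝ F p (e 0), q⁻¹ • fderiv ℝ F p (e 1), s • ν] := by
    have h1 : q⁻¹ * (q⁻¹ * (q * q)) = 1 := by field_simp
    rw [orthonormal_iff_ite]
    intro i j
    fin_cases i <;> fin_cases j <;>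
      simp [inner_smul_left, inner_smul_right, -inner_self_eq_norm_sq_to_K, hq', he, hn, hn', h1,
        real_inner_self_eq_norm_sq ν, hν, hs1]
  let b := (basisOfOrthonormalOfCardEqFinrank ho (by simp)).toOrthonormalBasis (by simpa using ho)
  have b0 : b 0 = q⁻¹ • fderiv ℝ F p (e 0) := by simp [b]
  have b1 : b 1 = q⁻¹ • fderiv ℝ F p (e 1) := by simp [b]
  have b2 : b 2 = s • ν := by simp [b]
  have hb : ∀ i, ‖innerSL ℝ (b i)‖ ≤ 1 := fun i => by simp [b.orthonormal.1]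
  have hz : (0 : ℝ × ℝ) ∈ disc (3 * ρ) := by simpa [disc] using pow_pos hr 2
  have hX := fun i => d1 (e := e) hr hF (innerSL ℝ (b i)) 0
  simp only [sub_zero] at hX
  have hY := d1 (e := e) hr hF (innerSL ℝ (b 1)) (innerSL ℝ (b 1) (F p))
  have hG : ∀ z ∈ disc (3 * ρ), ∀ a a', ∑ i, innerSL ℝ (b i) (fderiv ℝ F (p + LL e z) a) *
      innerSL ℝ (b i) (fderiv ℝ F (p + LL e z) a') = Real.exp (2 * (w₀ (p + LL e z) +
        l⁻¹ ^ J * bump (l • z))) * ⟪a, a'⟫_ℝ := fun z hz a a' => by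
    have h1 := hg _ (mem_ball_of (e := e) hr hz) a a'
    rw [← b.sum_inner_mul_inner, add_sub_cancel_left, LL_norm] at h1
    simp only [innerSL_apply_apply, bump, Prod.smul_fst, Prod.smul_snd, smul_eq_mul, mul_pow,
      ← mul_add, ← h1]
    exact Finset.sum_congr rfl fun i _ => by rw [real_inner_comm]
  simp only [Fin.sum_univ_three] at hG
  refine h (fun z => ContinuousLinearMap.id ℝ ℝ (w₀ (p + LL e z)))
    (fun z => innerSL ℝ (b 0) (F (p + LL e z)))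
    (fun z => innerSL ℝ (b 1) (F (p + LL e z)) - innerSL ℝ (b 1) (F p))
    (fun z => innerSL ℝ (b 2) (F (p + LL e z)))
    (fun m => bnd hr hw _ ContinuousLinearMap.norm_id_le fun n hn x hx =>
      ((hB n x hx).trans (le_abs_self _)).trans (Finset.single_le_sum (f := fun k => |B k|)
        (fun _ _ => abs_nonneg _) (Finset.mem_range_succ_iff.mpr hn)))
    { sw := smooth hr hw _
      sX := smooth hr hF _
      sY := (smooth hr hF _).sub contDiffOn_const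
      sZ := smooth hr hF _
      bw := bnd_mono (bnd hr hw _ ContinuousLinearMap.norm_id_le hAw) (by linarith)
      bX := bnd_mono (bnd hr hF _ (hb 0) hAF) (by linarith)
      bY := bnd_sub (bnd hr hF _ (hb 1) hAF) (((innerSL ℝ (b 1)).le_of_opNorm_le (hb 1) _).trans
        (by simpa using hAF 0 (by norm_num) p hp))
      bZ := bnd_mono (bnd hr hF _ (hb 2) hAF) (by linarith)
      lap := fun z hz => ?_
      g11 := fun z hz => ?_
      g22 := fun z hz => ?_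
      g12 := fun z hz => ?_
      Y0 := by simp
      Xx0 := ?_
      Xy0 := ?_
      Yx0 := ?_
      Yy0 := ?_
      Zx0 := ?_
      Zy0 := ?_
      Zxy0 := ?_
      Zxx0 := ?_ }
  · have h1 := hΔ _ (mem_ball_of (e := e) hr hz)
    rw [InnerProductSpace.laplacian_eq_iteratedFDeriv_orthonormalBasis _ e, add_sub_cancel_left,
      LL_norm] at h1
    unfold dx dy
    rw [d2 hr hw _ _ _ z hz, d2 hr hw _ _ _ z hz, LL_x, LL_y, ← h1]
    simp
  · simp only [dx, hX _ _ z hz, hY _ z hz, sq, hG z hz, LL_x, he]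
    simp
  · simp only [dy, hX _ _ z hz, hY _ z hz, sq, hG z hz, LL_y, he]
    simp
  · simp only [dx, dy, hX _ _ z hz, hY _ z hz, hG z hz, LL_x, LL_y, he]
    simp
  · simp only [dx, hX _ _ 0 hz]
    simp [b0, LL_x, inner_smul_left, -inner_self_eq_norm_sq_to_K, hq', he, hq]
  · simp only [dy, hX _ _ 0 hz]
    simp [b0, LL_y, inner_smul_left, hq', he]
  · simp only [dx, hY _ 0 hz]
    simp [b1, LL_x, inner_smul_left, hq', he]
  · simp only [dy, hY _ 0 hz]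
    simp [b1, LL_y, inner_smul_left, -inner_self_eq_norm_sq_to_K, hq', he, hq]
  · simp only [dx, hX _ _ 0 hz]
    simp [b2, inner_smul_left, hn']
  · simp only [dy, hX _ _ 0 hz]
    simp [b2, inner_smul_left, hn']
  · unfold dx dy
    rw [d2 hr hF _ _ _ 0 hz]
    simp [b2, LL_x, LL_y, inner_smul_left, iteratedFDeriv_two_apply, he1]
  · unfold dx
    rw [d2 hr hF _ _ _ 0 hz]
    simpa [b2, LL_x, inner_smul_left, iteratedFDeriv_two_apply] using hs2

end Crest.Agent.R220
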