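import Crest.Agent.R220.Data

/-! Positivity of the quadratic form of the multiplier. -/

set_option autoImplicit false

namespace Crest.Agent.R220

open scoped ContDiff Topology
open Set Filter MeasureTheory Sm DP Geo

section alg
variable {R : Type} [CommRing R] [Algebra ℝ R] (G : Geo R)

lemma Geo.XB1 : G.D1 G.X * G.B1 = G.E * G.D1 G.k - 2 * G.E * G.k * G.D1 G.w := by
  rw [G.D1_apply G.k, G.D1_apply G.w, a1_eq, b1_eq, B1, w1, w2]; ring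

lemma Geo.Th_eq (n : ℕ) {q κ x y k₁ : R} (hk : G.k = q * (x ^ 2 + y ^ 2) - κ + k₁)
    (hq1 : G.D1 q = 0) (hq2 : G.D2 q = 0) (hκ1 : G.D1 κ = 0) (hκ2 : G.D2 κ = 0) :
    G.Th n = G.E * (κ + q * ((8 * n + 19) * x ^ 2 + y ^ 2)) +
      n * (4 * (G.E * (q * (G.P * G.D1 (x ^ 2 + y ^ 2) - 2 * x ^ 2)) + G.E * G.P * G.D1 k₁ +
        G.D1 G.E * (G.k * G.P))) +
      (10 * G.E * (q * (G.P * G.D1 (x ^ 2 + y ^ 2) - 2 * x ^ 2)) +
        G.E * (q * (G.Y * G.D2 (x ^ 2 + y ^ 2) - 2 * y ^ 2)) - G.E * k₁ +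
        10 * G.E * G.P * G.D1 k₁ + G.E * G.Y * G.D2 k₁ +
        (6 * G.D1 G.E - 8 * G.E * G.D1 G.w) * (G.k * G.P) + G.D2 G.E * (G.k * G.Y)) := by
  have h1 : G.D1 G.k = q * G.D1 (x ^ 2 + y ^ 2) + G.D1 k₁ := by
    rw [hk, map_add, map_sub, der_mul, hq1, hκ1]; ring
  have h2 : G.D2 G.k = q * G.D2 (x ^ 2 + y ^ 2) + G.D2 k₁ := by
    rw [hk, map_add, map_sub, der_mul, hq2, hκ2]; ring
  rw [Th, e1, XB1, K, der_mul, der_mul, h1, h2]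
  linear_combination (-G.E) * hk

lemma Geo.Xi_eq (n : ℕ) : G.Xi n = n * (2 * (G.E * (G.Y * G.D1 G.k) + G.D1 G.E * G.Y * G.k)) +
    (4 * G.E * (G.Y * G.D1 G.k) + (2 * G.D1 G.E * G.Y - 4 * G.Y * G.E * G.D1 G.w) * G.k +
      4 * G.P * G.e2) := by
  rw [Xi, e1, XB1, K, der_mul]; ring

end alg

variable {ι : Type} {R : ι → ℝ}

lemma d1_xF : (eF R).d1 xF = 1 := Fam.ext fun i z hz => by
  change val (pdF _ (cst _ _)) i z = _
  rw [pdF_cst, val_cst _ _ _ hz, ← valA_apply i hz 1, map_one, fderiv_fst]; rfl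
lemma d2_xF : (eF R).d2 xF = 0 := Fam.ext fun i z hz => by
  change val (pdF _ (cst _ _)) i z = _
  rw [pdF_cst, val_cst _ _ _ hz, val_zero, fderiv_fst]; rfl
lemma d1_yF : (eF R).d1 yF = 0 := Fam.ext fun i z hz => by
  change val (pdF _ (cst _ _)) i z = _
  rw [pdF_cst, val_cst _ _ _ hz, val_zero, fderiv_snd]; rfl
lemma d2_yF : (eF R).d2 yF = 1 := Fam.ext fun i z hz => by
  change val (pdF _ (cst _ _)) i z = _
  rw [pdF_cst, val_cst _ _ _ hz, ← valA_apply i hz 1, map_one, fderiv_snd]; rfl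

/-- bounded by a multiple of the weight -/
def WB (wt : ι → ℝ) (I : Set ι) : Submodule ℝ (Fam R) where
  carrier := {f | ∃ C, 0 ≤ C ∧ ∀ i ∈ I, ∀ z ∈ disc (R i), |val f i z| ≤ C * wt i}
  add_mem' := fun {f g} ⟨C, h, hC⟩ ⟨C', h', hC'⟩ => ⟨C + C', by positivity, fun i hi z hz => by
    rw [val_add, add_mul]
    exact (abs_add_le _ _).trans (add_le_add (hC i hi z hz) (hC' i hi z hz))⟩
  zero_mem' := ⟨0, le_rfl, fun i _ z _ => by simp [val_zero]⟩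
  smul_mem' := fun c f ⟨C, h, hC⟩ => ⟨|c| * C, by positivity, fun i hi z hz => by
    rw [val_smul, abs_mul, mul_assoc]
    exact mul_le_mul_of_nonneg_left (hC i hi z hz) (abs_nonneg _)⟩

lemma WB.U_mul {wt : ι → ℝ} {I : Set ι} {f g : Fam R} (hf : f ∈ (C0 R).U) (hg : g ∈ WB wt I) :
    f * g ∈ WB wt I := by
  obtain ⟨C, h0, hC⟩ := UB.bound hf
  obtain ⟨C', h0', hC'⟩ := hg
  refine ⟨C * C', by positivity, fun i hi z hz => ?_⟩
  rw [val_mul, abs_mul, mul_assoc]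
  exact mul_le_mul (hC i z hz) (hC' i hi z hz) (abs_nonneg _) h0.le

section geo
variable {G : Geo (Fam R)} (he : G.e = eF R)
include he

lemma D1_sc (a : ι → ℝ) : G.D1 (sc a) = 0 := by
  rw [D1_apply, he]; change _ * pdF _ _ + _ * pdF _ _ = 0; simp [pdF_sc]
lemma D2_sc (a : ι → ℝ) : G.D2 (sc a) = 0 := by
  rw [D2_apply, he]; change _ * pdF _ _ + _ * pdF _ _ = 0; simp [pdF_sc]

lemma D1_s : G.D1 (xF ^ 2 + yF ^ 2) = 2 * G.a1 * xF + 2 * G.b1 * yF := by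
  simp only [D1_apply, he, map_add, der_sq, d1_xF, d2_xF, d1_yF, d2_yF]; ring
lemma D2_s : G.D2 (xF ^ 2 + yF ^ 2) = 2 * G.a2 * xF + 2 * G.b2 * yF := by
  simp only [D2_apply, he, map_add, der_sq, d1_xF, d2_xF, d1_yF, d2_yF]; ring

variable (low : G.Low (C0 R)) (hR : ∀ i, (0 : ℝ × ℝ) ∈ disc (R i)) (hY : G.Y ∈ (C0 R).U)
  (h0 : ∀ i, val G.P i 0 = 0 ∧ val G.Y i 0 = 0 ∧ val G.y1 i 0 = 0 ∧ val ((eF R).d2 G.P) i 0 = 0)
include low h0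

lemma OB_P : G.P ∈ OB 1 := OB.one (fun i => (h0 i).1) (he ▸ U_le low.P (by omega))

lemma OB_Y : G.Y ∈ OB 1 := OB.succ (fun i => (h0 i).2.1) (he ▸ OB.of_U (U_base low.y1))
  (he ▸ OB.of_U (U_base low.y2))

lemma OB_y1 : G.y1 ∈ OB 1 := OB.one (fun i => (h0 i).2.2.1) (he ▸ U_le low.y1 (by omega))

lemma OB_P2 : G.e.d2 G.P ∈ OB 1 := OB.one (fun i => he ▸ (h0 i).2.2.2)
  (he ▸ U_le (U_d2 low.P) (by omega))

include hR

lemma OB_T1 : G.P * G.D1 (xF ^ 2 + yF ^ 2) - 2 * xF ^ 2 ∈ OB 3 := by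
  have p := OB_P he low h0
  have b1 : G.b1 ∈ OB 1 := OB.mul_U (neg_mem (OB_y1 he low h0)) (U_base low.iJ)
  have h1 : G.P * G.a1 - xF ∈ OB 2 := by
    refine OB.succ (fun i => ?_) ?_ ?_
    · rw [val_sub, val_mul, (h0 i).1, val_xF i (hR i)]; simp
    · have : (eF R).d1 (G.P * G.a1 - xF) = G.P * G.e.d1 G.a1 - G.b1 * G.e.d2 G.P := by
        have := G.D1P
        rw [D1_apply] at this
        rw [map_sub, d1_xF, der_mul, ← he]; linear_combination this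
      rw [this]
      exact sub_mem (OB.mul_U p (U_base (U_d1 low.a1))) (OB.mul_U b1 (U_base (U_d2 low.P)))
    · rw [map_sub, d2_xF, der_mul, ← he, sub_zero]
      exact add_mem (OB.mul_U (OB_P2 he low h0) (U_base low.a1)) (OB.mul_U p (U_base (U_d2 low.a1)))
  have : G.P * G.D1 (xF ^ 2 + yF ^ 2) - 2 * xF ^ 2 =
      2 * ((G.P * G.a1 - xF) * xF) + 2 * (G.P * G.b1 * yF) := by rw [D1_s he]; ring
  rw [this]
  exact add_mem (OB.U_mul (ofNat_mem _ _) (OB.mul h1 OB.x))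
    (OB.U_mul (ofNat_mem _ _) (OB.mul (OB.mul p b1) OB.y))

lemma OB_T2 : G.Y * G.D2 (xF ^ 2 + yF ^ 2) - 2 * yF ^ 2 ∈ OB 3 := by
  have p := OB_Y he low h0
  have a2 : G.a2 ∈ OB 1 := OB.mul_U (neg_mem (OB_P2 he low h0)) (U_base low.iJ)
  have h1 : G.Y * G.b2 - yF ∈ OB 2 := by
    refine OB.succ (fun i => ?_) ?_ ?_
    · rw [val_sub, val_mul, (h0 i).2.1, val_yF i (hR i)]; simp
    · rw [map_sub, d1_yF, der_mul, ← he, sub_zero]
      exact add_mem (OB.mul_U (OB_y1 he low h0) (U_base low.b2)) (OB.mul_U p (U_base (U_d1 low.b2)))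
    · have : (eF R).d2 (G.Y * G.b2 - yF) = G.Y * G.e.d2 G.b2 - G.a2 * G.y1 := by
        have := G.D2Y
        rw [D2_apply] at this
        rw [map_sub, d2_yF, der_mul, ← he, y1]; linear_combination this
      rw [this]
      exact sub_mem (OB.mul_U p (U_base (U_d2 low.b2))) (OB.mul_U a2 (U_base low.y1))
  have : G.Y * G.D2 (xF ^ 2 + yF ^ 2) - 2 * yF ^ 2 =
      2 * ((G.Y * G.b2 - yF) * yF) + 2 * (G.Y * G.a2 * xF) := by rw [D2_s he]; ring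
  rw [this]
  exact add_mem (OB.U_mul (ofNat_mem _ _) (OB.mul h1 OB.y))
    (OB.U_mul (ofNat_mem _ _) (OB.mul (OB.mul p a2) OB.x))

end geo

variable {J : ℕ} {A μ : ℝ} (τ : ι → Tup J A μ)

/-- indices with a very concentrated bump -/
def I0 : Set ι := {i | 1 ≤ (τ i).κ * (τ i).ρ * (τ i).l}

/-- small -/
abbrev SM : Submodule ℝ (Fam (RR τ)) := WB (fun i => (τ i).κ * (τ i).ρ) (I0 τ)
/-- medium -/
abbrev MD : Submodule ℝ (Fam (RR τ)) := WB (fun i => (τ i).κ) (I0 τ)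

variable {τ}

lemma SM.md {f : Fam (RR τ)} (h : f ∈ SM τ) : f ∈ MD τ := by
  obtain ⟨C, h0, hC⟩ := h
  exact ⟨C, h0, fun i hi z hz => (hC i hi z hz).trans (mul_le_mul_of_nonneg_left
    (mul_le_of_le_one_right (τ i).hκ.le (τ i).hρ1) h0)⟩

lemma SM.q3 {f : Fam (RR τ)} (h : f ∈ OB 3) : sc (fun i => (τ i).κ / (τ i).ρ ^ 2) * f ∈ SM τ := by
  obtain ⟨C, h0, hC⟩ := OB.bound h
  refine ⟨C * 216, by positivity, fun i _ z hz => ?_⟩
  have := (τ i).hρ; have := (τ i).hκ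
  rw [val_sc_mul, abs_mul, abs_of_pos (by positivity)]
  calc _ ≤ (τ i).κ / (τ i).ρ ^ 2 * (C * (6 * (τ i).ρ) ^ 3) := by
        gcongr
        exact (hC i z hz).trans (by gcongr; exact abs_le_rho τ i hz)
    _ = _ := by field_simp; ring

lemma MD.q2 {f : Fam (RR τ)} (h : f ∈ OB 2) : sc (fun i => (τ i).κ / (τ i).ρ ^ 2) * f ∈ MD τ := by
  obtain ⟨C, h0, hC⟩ := OB.bound h
  refine ⟨C * 36, by positivity, fun i _ z hz => ?_⟩
  have := (τ i).hρ; have := (τ i).hκ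
  rw [val_sc_mul, abs_mul, abs_of_pos (by positivity)]
  calc _ ≤ (τ i).κ / (τ i).ρ ^ 2 * (C * (6 * (τ i).ρ) ^ 2) := by
        gcongr
        exact (hC i z hz).trans (by gcongr; exact abs_le_rho τ i hz)
    _ = _ := by field_simp; ring

lemma SM.mul {f g : Fam (RR τ)} (hf : f ∈ MD τ) (hg : g ∈ OB 1) : f * g ∈ SM τ := by
  obtain ⟨C, h0, hC⟩ := hf
  obtain ⟨C', h0', hC'⟩ := OB.bound hg
  refine ⟨C * C' * 6, by positivity, fun i hi z hz => ?_⟩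
  have := (τ i).hρ; have := (τ i).hκ
  rw [val_mul, abs_mul]
  calc _ ≤ C * (τ i).κ * (C' * (6 * (τ i).ρ) ^ 1) := by
        refine mul_le_mul (hC i hi z hz) ?_ (abs_nonneg _) (by positivity)
        exact (hC' i z hz).trans (by gcongr; exact abs_le_rho τ i hz)
    _ = _ := by ring

lemma SM.of_Sc {f : Fam (RR τ)} {a : ℤ} (h : Sc (ll τ) a f) (ha : a + 1 ≤ 0) : f ∈ SM τ := by
  obtain ⟨C, h0, hC⟩ := UB.bound ((h.sc_mul (hll τ)).UB (hll τ) ha fun i => disc (RR τ i))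
  refine ⟨C, h0.le, fun i hi z hz => ?_⟩
  have h1 := hC i z hz
  have h2 : 1 ≤ (τ i).κ * (τ i).ρ * ll τ i := hi
  have h3 := hll τ i
  have := (τ i).hρ; have := (τ i).hκ
  rw [val_sc_mul, abs_mul, abs_of_pos (by positivity)] at h1
  calc _ ≤ (τ i).κ * (τ i).ρ * ll τ i * |val f i z| := le_mul_of_one_le_left (abs_nonneg _) h2
    _ = (τ i).κ * (τ i).ρ * (ll τ i * |val f i z|) := by ring
    _ ≤ (τ i).κ * (τ i).ρ * C := by gcongr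
    _ = _ := by ring

lemma aux1 {m κ ρ E q u v n J C1 C2 : ℝ} (m0 : 0 < m) (hκ : 0 < κ) (hρ : 0 < ρ) (c1 : 0 ≤ C1)
    (e0 : m ≤ E) (hq : 0 ≤ q) (hn0 : 0 ≤ n) (hn : n ≤ J) (a1 : -(C1 * (κ * ρ)) ≤ u)
    (a2 : -(C2 * (κ * ρ)) ≤ v) (h : ρ * (2 * (J * C1 + C2 + 1)) ≤ m) :
    m * κ / 2 ≤ E * (κ + q) + n * u + v := by
  have a4 := mul_le_mul e0 (le_add_of_nonneg_right hq) hκ.le (m0.le.trans e0)
  have a5 := mul_le_mul_of_nonneg_left a1 hn0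
  have a6 : n * (C1 * (κ * ρ)) ≤ J * (C1 * (κ * ρ)) := by gcongr
  nlinarith [mul_le_mul_of_nonneg_left h hκ.le, mul_pos hκ hρ]

lemma aux2 {κ u v n J C3 C4 : ℝ} (hκ : 0 < κ) (hn0 : 0 ≤ n) (hn : n ≤ J) (a1 : |u| ≤ C3 * κ)
    (a2 : |v| ≤ C4 * κ) : |n * u + v| ≤ (J * C3 + C4 + 1) * κ := by
  refine (abs_add_le _ _).trans ?_
  rw [abs_mul, abs_of_nonneg hn0]
  have := mul_le_mul hn a1 (abs_nonneg _) (hn0.trans hn)
  nlinarith

lemma aux3 {m κ T X U D a b : ℝ} (hκ : 0 < κ) (t1 : m * κ / 2 ≤ T) (t2 : |X| ≤ D * κ)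
    (t3 : 1 / 2 ≤ U) (h : κ * (4 * D ^ 2) ≤ m) :
    min (m * κ / 4) (1 / 4) * (a ^ 2 + b ^ 2) ≤ T * a ^ 2 + X * (a * b) + U * b ^ 2 := by
  have n1 : min (m * κ / 4) (1 / 4) ≤ m * κ / 4 := min_le_left _ _
  have n2 : min (m * κ / 4) (1 / 4) ≤ 1 / 4 := min_le_right _ _
  have t4 : X ^ 2 ≤ m * κ / 4 := by
    have := pow_le_pow_left₀ (abs_nonneg _) t2 2
    rw [sq_abs] at this
    nlinarith [mul_le_mul_of_nonneg_left h hκ.le]
  nlinarith [sq_nonneg (X * a + b / 2), mul_le_mul_of_nonneg_right t1 (sq_nonneg a),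
    mul_le_mul_of_nonneg_right t3 (sq_nonneg b), mul_le_mul_of_nonneg_right t4 (sq_nonneg a),
    mul_le_mul_of_nonneg_right n1 (sq_nonneg a), mul_le_mul_of_nonneg_right n2 (sq_nonneg b)]

lemma aux4 {κ ρ s u C : ℝ} (hκ : 0 < κ) (hρ : 0 < ρ) (a1 : -(C * (κ * ρ)) ≤ u)
    (a2 : (3 / 2 * ρ) ^ 2 < s) (h : ρ * (4 * (C + 1)) ≤ 1) : κ ≤ κ / ρ ^ 2 * s - κ + u := by
  have a3 : 9 / 4 * κ ≤ κ / ρ ^ 2 * s := by
    rw [div_mul_eq_mul_div κ, le_div_iff₀ (by positivity)]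
    nlinarith
  nlinarith [mul_le_mul_of_nonneg_left h hκ.le, mul_pos hκ hρ]

lemma aux5 {κ u C : ℝ} (hκ : 0 < κ) (a1 : -(C * κ) ≤ u) (h : κ * (2 * (C + 1)) ≤ 1) :
    1 / 2 ≤ 1 + u := by nlinarith

variable (τ) {c : ℝ} (hc : 0 < c)
  (hτ : ∀ i, ∀ z ∈ disc (RR τ i), c ≤ val (DlF τ) i z ∧ c ≤ val (NF τ) i z) (hJ : 8 ≤ J)
include hJ

lemma geo_w : (geo τ hc hτ).w ∈ (geo τ hc hτ).e.U (C0 _) 7 := wF_U τ hJ

lemma geo_ig : (geo τ hc hτ).ig ∈ (geo τ hc hτ).e.U (C0 _) 6 :=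
  ig_U _ (expF_U τ hJ _) (U_le (U_d1 (wF_U τ hJ)) (by omega)) (U_le (U_d2 (wF_U τ hJ)) (by omega))

lemma geo_E : (geo τ hc hτ).E ∈ (geo τ hc hτ).e.U (C0 _) 6 := by
  have := geo_ig τ hc hτ hJ; have := (geo_low τ hc hτ).P; have := (geo_low τ hc hτ).Q
  unfold Geo.E Geo.W; alg_mem

lemma geo_kU : (geo τ hc hτ).k ∈ (geo τ hc hτ).e.U (C0 _) 5 :=
  neg_mem (add_mem (U_d1 (U_d1 (wF_U τ hJ))) (U_d2 (U_d2 (wF_U τ hJ))))

lemma geo_E_low : ∃ m, 0 < m ∧ ∀ i, ∀ z ∈ disc (RR τ i), m ≤ val (geo τ hc hτ).E i z := by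
  obtain ⟨m, h0, hm⟩ := expF_low τ hJ (-2)
  refine ⟨m, h0, fun i z hz => (hm i z hz).trans ?_⟩
  rw [← valA_apply i hz (Geo.E _), Geo.E, Geo.W]
  simp only [map_mul, map_add, map_pow, map_one, valA_apply]
  refine le_mul_of_one_le_right (h0.le.trans (hm i z hz)) (one_le_pow₀ ?_)
  nlinarith [sq_nonneg (val (geo τ hc hτ).P i z), sq_nonneg (val (geo τ hc hτ).Q i z)]

theorem positivity_geo : ∃ ρ₀ κ₀, 0 < ρ₀ ∧ 0 < κ₀ ∧ ∀ κ, 0 < κ → κ ≤ κ₀ → ∃ c', 0 < c' ∧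
    ∀ i ∈ I0 τ, (τ i).ρ ≤ ρ₀ → (τ i).κ = κ → ∀ z ∈ disc (RR τ i),
      (∀ n ≤ J, ∀ a b : ℝ, c' * (a ^ 2 + b ^ 2) ≤ val (geo τ hc hτ).J i z *
        (val ((geo τ hc hτ).Th n) i z * a ^ 2 + val ((geo τ hc hτ).Xi n) i z * (a * b) +
          val (geo τ hc hτ).Up i z * b ^ 2)) ∧ c' ≤ val (geo τ hc hτ).J i z ∧
      (z ∉ cdisc (3 / 2 * (τ i).ρ) → c' ≤ val (geo τ hc hτ).J i z * val (geo τ hc hτ).K i z) := by
  set G := geo τ hc hτ with hG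
  have he : G.e = eF _ := rfl
  have low : G.Low (C0 _) := geo_low τ hc hτ
  have h0 := geo_zero τ hc hτ
  have hk : G.k = sc (fun i => (τ i).κ / (τ i).ρ ^ 2) * (xF ^ 2 + yF ^ 2) -
      sc (fun i => (τ i).κ) + k1F τ := by rw [geo_k, k0F_eq]
  have uE := geo_E τ hc hτ hJ
  have u1 := U_base uE
  have u2 := U_base (low.D1 (n := 0) (by omega) (U_le uE (by omega)))
  have u3 := U_base (low.D2 (n := 0) (by omega) (U_le uE (by omega)))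
  have u4 := U_base (low.D1 (n := 0) (by omega) (U_le (geo_w τ hc hτ hJ) (by omega)))
  have u5 := U_base low.P
  have u6 : G.Y ∈ (C0 _).U := U_base (YF_U τ)
  have u7 := U_base low.Q
  have u8 := U_base (geo_ig τ hc hτ hJ)
  have u9 := U_base low.D1X
  have oP := OB_P he low h0
  have oY := OB_Y he low h0
  have s0 : k1F τ ∈ SM τ := SM.of_Sc (Sc_k1F τ) (by omega)
  have s1 : G.e.d1 (k1F τ) ∈ SM τ := SM.of_Sc ((Sc_k1F τ).pdF (hll τ) _) (by omega)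
  have s2 : G.e.d2 (k1F τ) ∈ SM τ := SM.of_Sc ((Sc_k1F τ).pdF (hll τ) _) (by omega)
  have s3 : G.D1 (k1F τ) ∈ SM τ := add_mem (WB.U_mul (U_base low.a1) s1) (WB.U_mul (U_base low.b1) s2)
  have s4 : G.D2 (k1F τ) ∈ SM τ := add_mem (WB.U_mul (U_base low.a2) s1) (WB.U_mul (U_base low.b2) s2)
  have s5 := SM.q3 (OB_T1 he low (zero_mem τ) h0)
  have s6 := SM.q3 (OB_T2 he low (zero_mem τ) h0)
  have m0 : G.k ∈ MD τ := by
    rw [hk]
    refine add_mem (sub_mem (MD.q2 ?_) ⟨1, zero_le_one, fun i _ z hz => ?_⟩) (SM.md s0)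
    · rw [sq, sq]; exact add_mem (OB.mul OB.x OB.x) (OB.mul OB.y OB.y)
    · rw [val_sc _ _ hz, abs_of_pos (τ i).hκ, one_mul]
  have s7 := SM.mul m0 oP
  have s8 := SM.mul m0 oY
  have m1 : G.Y * G.D1 G.k ∈ MD τ := by
    have : G.Y * G.D1 G.k = sc (fun i => (τ i).κ / (τ i).ρ ^ 2) * (G.Y * (2 * G.a1 * xF +
        2 * G.b1 * yF)) + G.Y * G.D1 (k1F τ) := by
      rw [hk, map_add, map_sub, der_mul, D1_sc he, D1_sc he, D1_s he]; ring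
    rw [this]
    exact add_mem (MD.q2 (OB.mul oY (add_mem
      (OB.U_mul (mul_mem (ofNat_mem _ _) (U_base low.a1)) OB.x)
      (OB.U_mul (mul_mem (ofNat_mem _ _) (U_base low.b1)) OB.y)))) (WB.U_mul u6 (SM.md s3))
  have m2 : G.e2 ∈ MD τ := by
    have : G.e2 = (G.D1 G.X * (-4 * G.ig * G.W * G.Q)) * G.k := by rw [e2, B2]; ring
    rw [this]
    refine WB.U_mul ?_ m0
    unfold Geo.W; alg_mem
  obtain ⟨C1, c1, h1⟩ : 4 * (G.E * (sc (fun i => (τ i).κ / (τ i).ρ ^ 2) *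
      (G.P * G.D1 (xF ^ 2 + yF ^ 2) - 2 * xF ^ 2)) + G.E * G.P * G.D1 (k1F τ) +
        G.D1 G.E * (G.k * G.P)) ∈ SM τ :=
    WB.U_mul (ofNat_mem _ _) (add_mem (add_mem (WB.U_mul u1 s5) (WB.U_mul (by alg_mem) s3))
      (WB.U_mul u2 s7))
  obtain ⟨C2, c2, h2⟩ : 10 * G.E * (sc (fun i => (τ i).κ / (τ i).ρ ^ 2) *
      (G.P * G.D1 (xF ^ 2 + yF ^ 2) - 2 * xF ^ 2)) + G.E * (sc (fun i => (τ i).κ / (τ i).ρ ^ 2) *
      (G.Y * G.D2 (xF ^ 2 + yF ^ 2) - 2 * yF ^ 2)) - G.E * k1F τ +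
        10 * G.E * G.P * G.D1 (k1F τ) + G.E * G.Y * G.D2 (k1F τ) +
        (6 * G.D1 G.E - 8 * G.E * G.D1 G.w) * (G.k * G.P) + G.D2 G.E * (G.k * G.Y) ∈ SM τ :=
    add_mem (add_mem (add_mem (add_mem (sub_mem (add_mem (WB.U_mul (by alg_mem) s5) (WB.U_mul u1 s6))
      (WB.U_mul u1 s0)) (WB.U_mul (by alg_mem) s3)) (WB.U_mul (by alg_mem) s4))
      (WB.U_mul (by alg_mem) s7)) (WB.U_mul u3 s8)
  obtain ⟨C3, c3, h3⟩ : 2 * (G.E * (G.Y * G.D1 G.k) + G.D1 G.E * G.Y * G.k) ∈ MD τ :=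
    WB.U_mul (ofNat_mem _ _) (add_mem (WB.U_mul u1 m1) (WB.U_mul (by alg_mem) m0))
  obtain ⟨C4, c4, h4⟩ : 4 * G.E * (G.Y * G.D1 G.k) +
      (2 * G.D1 G.E * G.Y - 4 * G.Y * G.E * G.D1 G.w) * G.k + 4 * G.P * G.e2 ∈ MD τ :=
    add_mem (add_mem (WB.U_mul (by alg_mem) m1) (WB.U_mul (by alg_mem) m0))
      (WB.U_mul (by alg_mem) m2)
  obtain ⟨C5, c5, h5⟩ : 2 * G.Y * G.e2 ∈ MD τ := WB.U_mul (by alg_mem) m2
  obtain ⟨C6, c6, h6⟩ := s0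
  obtain ⟨m, m0, hm⟩ := geo_E_low τ hc hτ hJ
  obtain ⟨mJ, mJ0, hmJ⟩ := geo_J τ hc hτ
  refine ⟨min (m / (2 * (J * C1 + C2 + 1))) (1 / (4 * (C6 + 1))),
    min (1 / (2 * (C5 + 1))) (m / (4 * (J * C3 + C4 + 1) ^ 2)), by positivity, by positivity,
    fun κ hκ hκ0 => ⟨mJ * min (m * κ / 4) (1 / 4), by positivity, ?_⟩⟩
  rintro i hi hρ rfl z hz
  have hρ0 := (τ i).hρ
  have hρ1 := (le_div_iff₀ (by positivity)).1 (hρ.trans (min_le_left _ _))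
  have hρ2 := (le_div_iff₀ (by positivity)).1 (hρ.trans (min_le_right _ _))
  have hκ1 := (le_div_iff₀ (by positivity)).1 (hκ0.trans (min_le_left _ _))
  have hκ2 := (le_div_iff₀ (by positivity)).1 (hκ0.trans (min_le_right _ _))
  have j0 : mJ ≤ val G.J i z := hmJ i z hz
  have e0 : m ≤ val G.E i z := hm i z hz
  have n1 : min (m * (τ i).κ / 4) (1 / 4) ≤ m * (τ i).κ / 4 := min_le_left _ _
  have n2 : min (m * (τ i).κ / 4) (1 / 4) ≤ 1 / 4 := min_le_right _ _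
  have n0 : 0 < min (m * (τ i).κ / 4) (1 / 4) := by positivity
  refine ⟨fun n hn a b => ?_,
    (mul_le_of_le_one_right mJ0.le (n2.trans (by norm_num))).trans j0, fun hz' => ?_⟩
  · have hn' : (n : ℝ) ≤ J := by exact_mod_cast hn
    have hn0 : (0 : ℝ) ≤ n := n.cast_nonneg
    have vn : val (n : Fam (RR τ)) i z = n := by rw [← valA_apply i hz, map_natCast]
    have t1 : m * (τ i).κ / 2 ≤ val (G.Th n) i z := by
      have a3 : 0 ≤ val (sc (fun i => (τ i).κ / (τ i).ρ ^ 2) *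
          ((8 * (n : Fam (RR τ)) + 19) * xF ^ 2 + yF ^ 2) : Fam (RR τ)) i z := by
        rw [← valA_apply i hz]
        simp only [map_mul, map_add, map_pow, map_natCast, map_ofNat, valA_apply, val_sc _ _ hz]
        positivity
      rw [G.Th_eq n hk (D1_sc he _) (D2_sc he _) (D1_sc he _) (D2_sc he _), val_add, val_add,
        val_mul (n : Fam (RR τ)), vn, val_mul G.E, val_add (sc _), val_sc _ _ hz]
      exact aux1 m0 hκ hρ0 c1 e0 a3 hn0 hn' (abs_le.1 (h1 i hi z hz)).1 (abs_le.1 (h2 i hi z hz)).1 hρ1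
    have t2 : |val (G.Xi n) i z| ≤ (J * C3 + C4 + 1) * (τ i).κ := by
      rw [G.Xi_eq n, val_add, val_mul (n : Fam (RR τ)), vn]
      exact aux2 hκ hn0 hn' (h3 i hi z hz) (h4 i hi z hz)
    have t3 : 1 / 2 ≤ val G.Up i z := by
      rw [Up, val_add, ← valA_apply i hz 1, map_one]
      exact aux5 hκ (abs_le.1 (h5 i hi z hz)).1 hκ1
    rw [mul_assoc]
    exact mul_le_mul j0 (aux3 hκ t1 t2 t3 hκ2) (by positivity) (mJ0.le.trans j0)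
  · refine mul_le_mul j0 ?_ n0.le (mJ0.le.trans j0)
    have a4 : (τ i).κ ≤ val G.k i z := by
      rw [hk, val_add, val_sub, val_sc_mul, val_sc _ _ hz, sq xF, sq yF, val_add, val_mul, val_mul,
        val_xF i hz, val_yF i hz, ← sq, ← sq]
      exact aux4 hκ hρ0 (abs_le.1 (h6 i hi z hz)).1 (not_le.1 hz') hρ2
    rw [K, val_mul]
    have := mul_le_mul e0 a4 hκ.le (m0.le.trans e0)
    linarith [mul_pos m0 hκ]

end Crest.Agent.R220
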