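import Crest.Agent.R220.Energy

/-! Scalars, rescaled bumps and orders of vanishing. -/

set_option autoImplicit false

namespace Crest.Agent.R220

open scoped ContDiff Topology
open Set Filter MeasureTheory Sm DP Geo

variable {ι : Type} {R : ι → ℝ}

/-- a family of constants -/
noncomputable def sc (a : ι → ℝ) : Fam R := fun i => algebraMap ℝ _ (a i)

lemma val_sc (a : ι → ℝ) (i : ι) {z : ℝ × ℝ} (hz : z ∈ disc (R i)) : val (sc a : Fam R) i z = a i :=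
  ev_algebraMap _ hz

lemma val_sc_mul (a : ι → ℝ) (f : Fam R) (i : ι) (z : ℝ × ℝ) :
    val (sc a * f) i z = a i * val f i z := by
  by_cases hz : z ∈ disc (R i)
  · rw [val_mul, val_sc _ _ hz]
  · simp only [val, ev_of_not_mem _ hz, mul_zero]

lemma pdF_sc (v : ℝ × ℝ) (a : ι → ℝ) : pdF v (sc a : Fam R) = 0 :=
  funext fun i => (pd v).map_algebraMap (a i)

lemma sc_mul (a b : ι → ℝ) : (sc a * sc b : Fam R) = sc (a * b) :=
  funext fun i => (map_mul (algebraMap ℝ (Sm (R i))) (a i) (b i)).symm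

lemma pdF_sc_mul (v : ℝ × ℝ) (a : ι → ℝ) (f : Fam R) : pdF v (sc a * f) = sc a * pdF v f := by
  rw [der_mul, pdF_sc, zero_mul, zero_add]

lemma sc_UB {D : ι → Set (ℝ × ℝ)} {a : ι → ℝ} {M : ℝ} (h : ∀ i, (D i).Nonempty → |a i| ≤ M) :
    (sc a : Fam R) ∈ UB D := by
  refine ⟨M, fun i z hz => ?_⟩
  by_cases h' : z ∈ disc (R i)
  · rw [val_sc _ _ h']; exact h i ⟨z, hz⟩
  · rw [val, ev_of_not_mem _ h', abs_zero]; exact (abs_nonneg _).trans (h i ⟨z, hz⟩)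

lemma sc_U {C : Cls (Fam R)} {a : ι → ℝ} (h : (sc a : Fam R) ∈ C.U) (n : ℕ) :
    (sc a : Fam R) ∈ (eF R).U C n := W_const h (pdF_sc _ a) (pdF_sc _ a) n

lemma In_sc_mul (r : ℝ) (a : ι → ℝ) (f : Fam R) (i : ι) :
    In r ((sc a * f : Fam R) i) = a i * In r (f i) := by
  rw [← In_smul, Algebra.smul_def]; rfl

/-- a rescaled function -/
noncomputable def scl (φ : ℝ × ℝ → ℝ) (hφ : ContDiff ℝ ∞ φ) (l : ι → ℝ) : Fam R :=
  fun i => mk (fun z => φ (l i • z)) (hφ.comp (contDiff_const_smul (l i))).contDiffOn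

lemma val_scl (φ : ℝ × ℝ → ℝ) (hφ : ContDiff ℝ ∞ φ) (l : ι → ℝ) (i : ι) {z : ℝ × ℝ}
    (hz : z ∈ disc (R i)) : val (scl φ hφ l : Fam R) i z = φ (l i • z) := ev_mk _ _ hz

lemma pdF_scl (v : ℝ × ℝ) (φ : ℝ × ℝ → ℝ) (hφ : ContDiff ℝ ∞ φ) (l : ι → ℝ) :
    pdF v (scl φ hφ l : Fam R) = sc l * scl _ (contDiff_dir hφ v) l := by
  refine Fam.ext fun i z hz => ?_
  rw [val_sc_mul, val_scl _ _ _ _ hz, val, pdF_apply, scl, pd_mk, ev_mk _ _ hz]
  have h := (hφ.differentiable (by simp) (l i • z)).hasFDerivAt.comp z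
    ((hasFDerivAt_id z).const_smul (l i))
  exact (congrArg (fun L : ℝ × ℝ →L[ℝ] ℝ => L v) h.fderiv).trans (by simp)

/-- rescaled bumps of amplitude `l ^ a` -/
def Sc (l : ι → ℝ) (a : ℤ) (f : Fam R) : Prop :=
  ∃ (φ : ℝ × ℝ → ℝ) (hφ : ContDiff ℝ ∞ φ), HasCompactSupport φ ∧
    f = sc (fun i => l i ^ a) * scl φ hφ l

namespace Sc
variable {l : ι → ℝ} {a : ℤ} {f g : Fam R}

lemma pdF (hl : ∀ i, 1 ≤ l i) (h : Sc l a f) (v : ℝ × ℝ) : Sc l (a + 1) (pdF v f) := by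
  obtain ⟨φ, hφ, hc, rfl⟩ := h
  refine ⟨_, contDiff_dir hφ v, hc.fderiv_apply ℝ v, ?_⟩
  rw [pdF_sc_mul, pdF_scl, ← mul_assoc, sc_mul]
  congr 2
  funext i
  exact (zpow_add_one₀ (by linarith [hl i]) a).symm

lemma add (hf : Sc l a f) (hg : Sc l a g) : Sc l a (f + g) := by
  obtain ⟨φ, hφ, hc, rfl⟩ := hf
  obtain ⟨ψ, hψ, hc', rfl⟩ := hg
  refine ⟨φ + ψ, hφ.add hψ, hc.add hc', Fam.ext fun i z hz => ?_⟩
  simp only [val_add, val_sc_mul, val_scl _ _ _ _ hz, Pi.add_apply, mul_add]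

lemma neg (hf : Sc l a f) : Sc l a (-f) := by
  obtain ⟨φ, hφ, hc, rfl⟩ := hf
  refine ⟨-φ, hφ.neg, hc.neg, Fam.ext fun i z hz => ?_⟩
  simp only [val_neg, val_sc_mul, val_scl _ _ _ _ hz, Pi.neg_apply, mul_neg]

lemma x_mul (hl : ∀ i, 1 ≤ l i) (hf : Sc l a f) : Sc l (a - 1) (xF * f) := by
  obtain ⟨φ, hφ, hc, rfl⟩ := hf
  refine ⟨(fun z => z.1) * φ, contDiff_fst.mul hφ, hc.mul_left, Fam.ext fun i z hz => ?_⟩
  have : l i ≠ 0 := by linarith [hl i]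
  simp only [val_mul, val_xF _ hz, val_sc _ _ hz, val_scl _ _ _ _ hz, Pi.mul_apply, Prod.smul_fst,
    smul_eq_mul, zpow_sub_one₀ this]
  field_simp

lemma y_mul (hl : ∀ i, 1 ≤ l i) (hf : Sc l a f) : Sc l (a - 1) (yF * f) := by
  obtain ⟨φ, hφ, hc, rfl⟩ := hf
  refine ⟨(fun z => z.2) * φ, contDiff_snd.mul hφ, hc.mul_left, Fam.ext fun i z hz => ?_⟩
  have : l i ≠ 0 := by linarith [hl i]
  simp only [val_mul, val_yF _ hz, val_sc _ _ hz, val_scl _ _ _ _ hz, Pi.mul_apply, Prod.smul_snd,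
    smul_eq_mul, zpow_sub_one₀ this]
  field_simp

lemma sc_mul (hl : ∀ i, 1 ≤ l i) (hf : Sc l a f) : Sc l (a + 1) (sc l * f) := by
  obtain ⟨φ, hφ, hc, rfl⟩ := hf
  refine ⟨φ, hφ, hc, ?_⟩
  rw [← mul_assoc, Crest.Agent.R220.sc_mul]
  congr 2
  funext i
  rw [Pi.mul_apply, mul_comm]
  exact (zpow_add_one₀ (by linarith [hl i]) a).symm

lemma mul (hl : ∀ i, 1 ≤ l i) {b : ℤ} (hf : Sc l a f) (hg : Sc l b g) : Sc l (a + b) (f * g) := by
  obtain ⟨φ, hφ, hc, rfl⟩ := hf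
  obtain ⟨ψ, hψ, hc', rfl⟩ := hg
  refine ⟨φ * ψ, hφ.mul hψ, hc.mul_right, Fam.ext fun i z hz => ?_⟩
  have : l i ≠ 0 := by linarith [hl i]
  simp only [val_mul, val_sc _ _ hz, val_scl _ _ _ _ hz, Pi.mul_apply, zpow_add₀ this]
  ring

lemma UB (hl : ∀ i, 1 ≤ l i) (hf : Sc l a f) (ha : a ≤ 0) (D : ι → Set (ℝ × ℝ)) : f ∈ UB D := by
  obtain ⟨φ, hφ, hc, rfl⟩ := hf
  obtain ⟨B, hB⟩ := hφ.continuous.bounded_above_of_compact_support hc
  refine mul_mem (sc_UB (M := 1) fun i _ => ?_) ⟨B, fun i z _ => ?_⟩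
  · rw [abs_of_pos (zpow_pos (by linarith [hl i]) a)]
    exact zpow_le_one_of_nonpos₀ (hl i) ha
  · by_cases hz : z ∈ disc (R i)
    · rw [val_scl _ _ _ _ hz]; exact hB _
    · rw [val, ev_of_not_mem _ hz, abs_zero]; exact (norm_nonneg _).trans (hB 0)

lemma IB (hl : ∀ i, 1 ≤ l i) (hf : Sc l a f) (ha : a ≤ 2) (I : Set ι) (r : ℝ) : f ∈ IB I r := by
  obtain ⟨φ, hφ, hc, rfl⟩ := hf
  refine ⟨∫ z, |φ z|, fun i hi => ?_⟩
  have l0 : 0 < l i := by linarith [hl i]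
  have hi' : Integrable fun z : ℝ × ℝ => |φ z| :=
    (hφ.continuous.integrable_of_hasCompactSupport hc).abs
  have h1 : Ia r ((sc (fun i => l i ^ a) * scl φ hφ l : Fam R) i) =
      ∫ z in cdisc r, l i ^ a * |φ (l i • z)| :=
    setIntegral_congr_fun (isClosed_cdisc r).measurableSet fun z hz => by
      change |val _ i z| = _
      rw [val_sc_mul, val_scl _ _ _ _ (hi.mem hz), abs_mul, abs_of_pos (zpow_pos l0 a)]
  have h2 : ∫ z in cdisc r, |φ (l i • z)| ≤ ∫ z, |φ (l i • z)| :=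
    setIntegral_le_integral (hi'.comp_smul l0.ne') (Eventually.of_forall fun _ => abs_nonneg _)
  rw [Measure.integral_comp_smul volume (fun z => |φ z|)] at h2
  rw [h1, integral_const_mul]
  refine (mul_le_mul_of_nonneg_left h2 (zpow_pos l0 a).le).trans ?_
  rw [smul_eq_mul, ← mul_assoc]
  refine mul_le_of_le_one_left (integral_nonneg fun _ => abs_nonneg _) ?_
  rw [show Module.finrank ℝ (ℝ × ℝ) = 2 by simp, abs_of_pos (by positivity), mul_inv_le_iff₀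
    (by positivity), one_mul, ← zpow_natCast]
  exact zpow_le_zpow_right₀ (hl i) ha

lemma U (hl : ∀ i, 1 ≤ l i) {C : Cls (Fam R)} {D : ι → Set (ℝ × ℝ)} (hC : C.U = R220.UB D)
    (n : ℕ) (hf : Sc l a f) (ha : a + n ≤ 0) : f ∈ (eF R).U C n := by
  induction n generalizing f a with
  | zero => change f ∈ C.U; rw [hC]; exact hf.UB hl (by omega) D
  | succ n ih =>
    exact U_succ.2 ⟨hC ▸ hf.UB hl (by omega) D, ih (hf.pdF hl _) (by omega),
      ih (hf.pdF hl _) (by omega)⟩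

lemma L (hl : ∀ i, 1 ≤ l i) (I : Set ι) (r : ℝ) (n : ℕ) (hf : Sc l a f) (ha : a + n ≤ 1) :
    f ∈ (eF R).L (cls R I r) n := by
  induction n generalizing f a with
  | zero => exact (hf.mul hl hf).IB hl (by omega) I r
  | succ n ih =>
    exact L_succ.2 ⟨(hf.mul hl hf).IB hl (by omega) I r, ih (hf.pdF hl _) (by omega),
      ih (hf.pdF hl _) (by omega)⟩

end Sc

variable (R) in
/-- bounded on the whole discs -/
noncomputable abbrev C0 : Cls (Fam R) := clsU fun i => disc (R i)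

/-- vanishing to order `k` at the origin -/
def OB (k : ℕ) : Submodule ℝ (Fam R) where
  carrier := {f | ∃ C, ∀ i, ∀ z ∈ disc (R i), |val f i z| ≤ C * (|z.1| + |z.2|) ^ k}
  add_mem' := fun {f g} ⟨C, hC⟩ ⟨C', hC'⟩ => ⟨C + C', fun i z hz => by
    rw [val_add, add_mul]
    exact (abs_add_le _ _).trans (add_le_add (hC i z hz) (hC' i z hz))⟩
  zero_mem' := ⟨0, fun i z _ => by simp [val_zero]⟩
  smul_mem' := fun c f ⟨C, hC⟩ => ⟨|c| * C, fun i z hz => by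
    rw [val_smul, abs_mul, mul_assoc]
    exact mul_le_mul_of_nonneg_left (hC i z hz) (abs_nonneg _)⟩

namespace OB
variable {f g : Fam R} {k m : ℕ}

lemma bound (h : f ∈ OB k) :
    ∃ C, 0 < C ∧ ∀ i, ∀ z ∈ disc (R i), |val f i z| ≤ C * (|z.1| + |z.2|) ^ k := by
  obtain ⟨C, hC⟩ := h
  exact ⟨max C 1, by positivity, fun i z hz => (hC i z hz).trans
    (mul_le_mul_of_nonneg_right (le_max_left _ _) (by positivity))⟩

lemma of_U (h : f ∈ (C0 R).U) : f ∈ OB 0 := h.imp fun _ hC i z hz => by simpa using hC i z hz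

lemma mul (hf : f ∈ OB k) (hg : g ∈ OB m) : f * g ∈ OB (k + m) := by
  obtain ⟨C, h0, hC⟩ := bound hf
  obtain ⟨C', hC'⟩ := hg
  refine ⟨C * C', fun i z hz => ?_⟩
  rw [val_mul, abs_mul, pow_add, mul_mul_mul_comm]
  exact mul_le_mul (hC i z hz) (hC' i z hz) (abs_nonneg _) (by positivity)

lemma U_mul (hf : f ∈ (C0 R).U) (hg : g ∈ OB m) : f * g ∈ OB m := by
  simpa using mul (of_U hf) hg

lemma mul_U (hg : g ∈ OB m) (hf : f ∈ (C0 R).U) : g * f ∈ OB m := mul_comm f g ▸ U_mul hf hg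

lemma x : (xF : Fam R) ∈ OB 1 := ⟨1, fun i z hz => by simp [val_xF i hz]⟩
lemma y : (yF : Fam R) ∈ OB 1 := ⟨1, fun i z hz => by simp [val_yF i hz]⟩

lemma sub_zero (h1 : (eF R).d1 f ∈ OB k) (h2 : (eF R).d2 f ∈ OB k) :
    ∃ C, 0 < C ∧ ∀ i, ∀ z ∈ disc (R i), |val f i z - val f i 0| ≤ C * (|z.1| + |z.2|) ^ (k + 1) := by
  obtain ⟨C, h0, hC⟩ := bound h1
  obtain ⟨C', h0', hC'⟩ := bound h2
  refine ⟨C + C', by positivity, fun i z hz => ?_⟩
  have := norm_image_sub_le_of_norm_deriv_le_segment_01' (f := fun t : ℝ => (f i).ev (t • z))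
    (C := (C + C') * (|z.1| + |z.2|) ^ (k + 1))
    (fun t ht => ((f i).hasDerivAt_ray z (smul_mem_disc hz ht.1 ht.2)).hasDerivWithinAt)
    fun t ht => by
      have m := smul_mem_disc hz ht.1 ht.2.le
      have e : (|(t • z).1| + |(t • z).2|) ^ k ≤ (|z.1| + |z.2|) ^ k := by
        refine pow_le_pow_left₀ (by positivity) ?_ k
        simp only [Prod.smul_fst, Prod.smul_snd, smul_eq_mul, abs_mul, abs_of_nonneg ht.1]
        nlinarith [abs_nonneg z.1, abs_nonneg z.2, ht.1, ht.2]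
      have a1 := (hC i _ m).trans (mul_le_mul_of_nonneg_left e h0.le)
      have a2 := (hC' i _ m).trans (mul_le_mul_of_nonneg_left e h0'.le)
      refine (abs_add_le _ _).trans ?_
      rw [abs_mul, abs_mul, pow_succ]
      have b1 := mul_le_mul_of_nonneg_left a1 (abs_nonneg z.1)
      have b2 := mul_le_mul_of_nonneg_left a2 (abs_nonneg z.2)
      have b3 : 0 ≤ (|z.1| + |z.2|) ^ k := by positivity
      change |z.1| * |val ((eF R).d1 f) i _| + |z.2| * |val ((eF R).d2 f) i _| ≤ _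
      nlinarith [mul_nonneg (mul_nonneg h0.le b3) (abs_nonneg z.2),
        mul_nonneg (mul_nonneg h0'.le b3) (abs_nonneg z.1)]
  simpa [val] using this

lemma succ (h0 : ∀ i, val f i 0 = 0) (h1 : (eF R).d1 f ∈ OB k) (h2 : (eF R).d2 f ∈ OB k) :
    f ∈ OB (k + 1) := by
  obtain ⟨C, -, hC⟩ := sub_zero h1 h2
  exact ⟨C, fun i z hz => by simpa [h0] using hC i z hz⟩

lemma one (h0 : ∀ i, val f i 0 = 0) (h : f ∈ (eF R).U (C0 R) 1) : f ∈ OB 1 :=
  succ h0 (of_U (U_base (U_d1 h))) (of_U (U_base (U_d2 h)))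

lemma lip (h : f ∈ (eF R).U (C0 R) 1) :
    ∃ C, 0 < C ∧ ∀ i, ∀ z ∈ disc (R i), |val f i z - val f i 0| ≤ C * (|z.1| + |z.2|) := by
  simpa using sub_zero (of_U (U_base (U_d1 h))) (of_U (U_base (U_d2 h)))

end OB

lemma abs_add_le_of_mem {r : ℝ} (hr : 0 ≤ r) {z : ℝ × ℝ} (hz : z ∈ cdisc r) :
    |z.1| + |z.2| ≤ 2 * r := by
  have h := norm_le_of_mem_cdisc hr hz
  rw [Prod.norm_def, max_le_iff] at h
  linarith [h.1, h.2, Real.norm_eq_abs z.1, Real.norm_eq_abs z.2]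

end Crest.Agent.R220
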