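import Crest.Agent.R220.Defs

/-! The ring of smooth functions on a disc, with its partial derivatives. -/

set_option autoImplicit false

namespace Crest.Agent.R220

open scoped ContDiff Topology
open Set Filter

lemma isOpen_disc (r : ℝ) : IsOpen (disc r) := isOpen_lt (by fun_prop) (by fun_prop)

/-- the closed disc -/
def cdisc (r : ℝ) : Set (ℝ × ℝ) := {z | z.1 ^ 2 + z.2 ^ 2 ≤ r ^ 2}

lemma isClosed_cdisc (r : ℝ) : IsClosed (cdisc r) := isClosed_le (by fun_prop) (by fun_prop)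

lemma norm_le_of_mem_cdisc {r : ℝ} (hr : 0 ≤ r) {z : ℝ × ℝ} (hz : z ∈ cdisc r) : ‖z‖ ≤ r := by
  have h : z.1 ^ 2 + z.2 ^ 2 ≤ r ^ 2 := hz
  rw [Prod.norm_def, max_le_iff]
  exact ⟨abs_le_of_sq_le_sq' (by nlinarith [sq_nonneg z.2]) hr |> abs_le.2,
    abs_le_of_sq_le_sq' (by nlinarith [sq_nonneg z.1]) hr |> abs_le.2⟩

lemma isCompact_cdisc {r : ℝ} (hr : 0 ≤ r) : IsCompact (cdisc r) :=
  (isCompact_closedBall (0 : ℝ × ℝ) r).of_isClosed_subset (isClosed_cdisc r) fun _ hz => by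
    simpa using norm_le_of_mem_cdisc hr hz

lemma cdisc_subset_disc {r R : ℝ} (hr : 0 ≤ r) (h : r < R) : cdisc r ⊆ disc R := fun _ hz =>
  lt_of_le_of_lt (b := r ^ 2) hz (by nlinarith)

lemma disc_subset_cdisc (r : ℝ) : disc r ⊆ cdisc r := fun z hz => le_of_lt (a := z.1 ^ 2 + z.2 ^ 2) hz

lemma cdisc_mono {r R : ℝ} (hr : 0 ≤ r) (h : r ≤ R) : cdisc r ⊆ cdisc R := fun _ hz =>
  le_trans (b := r ^ 2) hz (by nlinarith)

lemma zero_mem_disc {r : ℝ} (hr : 0 < r) : (0 : ℝ × ℝ) ∈ disc r := by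
  simp [disc, hr]

lemma smul_mem_disc {r t : ℝ} {z : ℝ × ℝ} (hz : z ∈ disc r) (h0 : 0 ≤ t) (h1 : t ≤ 1) :
    t • z ∈ disc r := by
  have h : z.1 ^ 2 + z.2 ^ 2 < r ^ 2 := hz
  have h2 : t ^ 2 ≤ 1 := by nlinarith
  show (t * z.1) ^ 2 + (t * z.2) ^ 2 < r ^ 2
  nlinarith [mul_le_mul_of_nonneg_right h2 (add_nonneg (sq_nonneg z.1) (sq_nonneg z.2))]

open Classical in
/-- extension by zero -/
noncomputable def ext0 (R : ℝ) (f : disc R → ℝ) : ℝ × ℝ → ℝ :=
  fun z => if h : z ∈ disc R then f ⟨z, h⟩ else 0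

lemma ext0_of_mem {R : ℝ} (f : disc R → ℝ) {z : ℝ × ℝ} (h : z ∈ disc R) :
    ext0 R f z = f ⟨z, h⟩ := dif_pos h

/-- smooth functions on the disc -/
def SmA (R : ℝ) : Subalgebra ℝ (disc R → ℝ) where
  carrier := {f | ContDiffOn ℝ ∞ (ext0 R f) (disc R)}
  mul_mem' := fun {f g} hf hg => (ContDiffOn.mul hf hg).congr fun z hz => by
    simp [ext0_of_mem _ hz]
  add_mem' := fun {f g} hf hg => (ContDiffOn.add hf hg).congr fun z hz => by
    simp [ext0_of_mem _ hz]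
  algebraMap_mem' := fun c => (contDiffOn_const (c := c)).congr fun z hz => by
    simp [ext0_of_mem _ hz]

/-- smooth functions on the disc -/
def Sm (R : ℝ) : Type := SmA R

noncomputable instance (R : ℝ) : CommRing (Sm R) := inferInstanceAs (CommRing (SmA R))
noncomputable instance (R : ℝ) : Algebra ℝ (Sm R) := inferInstanceAs (Algebra ℝ (SmA R))

namespace Sm
variable {R : ℝ}

/-- the function on the plane -/
noncomputable def ev (f : Sm R) : ℝ × ℝ → ℝ := ext0 R f.1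

lemma smooth (f : Sm R) : ContDiffOn ℝ ∞ f.ev (disc R) := f.2

lemma smoothAt (f : Sm R) {z : ℝ × ℝ} (hz : z ∈ disc R) : ContDiffAt ℝ ∞ f.ev z :=
  f.smooth.contDiffAt ((isOpen_disc R).mem_nhds hz)

lemma diffAt (f : Sm R) {z : ℝ × ℝ} (hz : z ∈ disc R) : DifferentiableAt ℝ f.ev z :=
  (f.smoothAt hz).differentiableAt (by simp)

lemma ev_of_not_mem (f : Sm R) {z : ℝ × ℝ} (hz : z ∉ disc R) : f.ev z = 0 := dif_neg hz

/-- evaluation at a point of the disc -/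
noncomputable def evA {z : ℝ × ℝ} (hz : z ∈ disc R) : Sm R →ₐ[ℝ] ℝ :=
  (Pi.evalAlgHom ℝ (fun _ : disc R => ℝ) ⟨z, hz⟩).comp (SmA R).val

lemma evA_apply {z : ℝ × ℝ} (hz : z ∈ disc R) (f : Sm R) : evA hz f = f.ev z :=
  (ext0_of_mem _ hz).symm

lemma ext {f g : Sm R} (h : ∀ z ∈ disc R, f.ev z = g.ev z) : f = g :=
  Subtype.ext (funext fun z => by
    have := h z z.2
    rwa [ev, ev, ext0_of_mem _ z.2, ext0_of_mem _ z.2] at this)

/-- a smooth function as an element of the ring -/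
noncomputable def mk (f : ℝ × ℝ → ℝ) (hf : ContDiffOn ℝ ∞ f (disc R)) : Sm R :=
  ⟨fun z => f z, hf.congr fun _ hz => ext0_of_mem _ hz⟩

lemma ev_mk (f : ℝ × ℝ → ℝ) (hf : ContDiffOn ℝ ∞ f (disc R)) {z : ℝ × ℝ} (hz : z ∈ disc R) :
    (mk f hf).ev z = f z := ext0_of_mem _ hz

lemma ev_add (f g : Sm R) (z : ℝ × ℝ) : (f + g).ev z = f.ev z + g.ev z := by
  by_cases hz : z ∈ disc R
  · simp only [← evA_apply hz, map_add]
  · simp [ev_of_not_mem _ hz]

lemma ev_sub (f g : Sm R) (z : ℝ × ℝ) : (f - g).ev z = f.ev z - g.ev z := by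
  by_cases hz : z ∈ disc R
  · simp only [← evA_apply hz, map_sub]
  · simp [ev_of_not_mem _ hz]

lemma ev_neg (f : Sm R) (z : ℝ × ℝ) : (-f).ev z = -f.ev z := by
  by_cases hz : z ∈ disc R
  · simp only [← evA_apply hz, map_neg]
  · simp [ev_of_not_mem _ hz]

lemma ev_mul (f g : Sm R) (z : ℝ × ℝ) : (f * g).ev z = f.ev z * g.ev z := by
  by_cases hz : z ∈ disc R
  · simp only [← evA_apply hz, map_mul]
  · simp [ev_of_not_mem _ hz]

lemma ev_smul (c : ℝ) (f : Sm R) (z : ℝ × ℝ) : (c • f).ev z = c * f.ev z := by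
  by_cases hz : z ∈ disc R
  · simp only [← evA_apply hz, map_smul, smul_eq_mul]
  · simp [ev_of_not_mem _ hz]

lemma ev_zero (z : ℝ × ℝ) : (0 : Sm R).ev z = 0 := by
  by_cases hz : z ∈ disc R
  · simp only [← evA_apply hz, map_zero]
  · simp [ev_of_not_mem _ hz]

lemma ev_algebraMap (c : ℝ) {z : ℝ × ℝ} (hz : z ∈ disc R) : (algebraMap ℝ (Sm R) c).ev z = c := by
  simp only [← evA_apply hz, AlgHom.commutes]; rfl

lemma ev_mk_nhds (f : ℝ × ℝ → ℝ) (hf : ContDiffOn ℝ ∞ f (disc R)) {z : ℝ × ℝ} (hz : z ∈ disc R) :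
    (mk f hf).ev =ᶠ[𝓝 z] f :=
  eventually_of_mem ((isOpen_disc R).mem_nhds hz) fun _ h => ev_mk f hf h

lemma smooth_fderiv {f : ℝ × ℝ → ℝ} (hf : ContDiffOn ℝ ∞ f (disc R)) (v : ℝ × ℝ) :
    ContDiffOn ℝ ∞ (fun z => fderiv ℝ f z v) (disc R) :=
  (hf.fderiv_of_isOpen (isOpen_disc R) (m := ∞) (by simp)).clm_apply contDiffOn_const

/-- directional derivative -/
noncomputable def pd (v : ℝ × ℝ) : Derivation ℝ (Sm R) (Sm R) :=
  Derivation.mk'
    { toFun := fun f => mk (fun z => fderiv ℝ f.ev z v) (smooth_fderiv f.smooth v)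
      map_add' := fun f g => ext fun z hz => by
        rw [ev_add, ev_mk _ _ hz, ev_mk _ _ hz, ev_mk _ _ hz,
          show (f + g).ev = f.ev + g.ev from funext (ev_add f g),
          fderiv_add (f.diffAt hz) (g.diffAt hz)]
        rfl
      map_smul' := fun c f => ext fun z hz => by
        rw [RingHom.id_apply, ev_smul, ev_mk _ _ hz, ev_mk _ _ hz,
          show (c • f).ev = c • f.ev from funext (ev_smul c f), fderiv_const_smul (f.diffAt hz)]
        rfl }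
    fun f g => ext fun z hz => by
      simp only [LinearMap.coe_mk, AddHom.coe_mk, smul_eq_mul]
      rw [ev_add, ev_mul, ev_mul, ev_mk _ _ hz, ev_mk _ _ hz, ev_mk _ _ hz,
        show (f * g).ev = f.ev * g.ev from funext (ev_mul f g),
        fderiv_mul (f.diffAt hz) (g.diffAt hz)]
      rfl

lemma ev_pd (v : ℝ × ℝ) (f : Sm R) {z : ℝ × ℝ} (hz : z ∈ disc R) :
    (pd v f).ev z = fderiv ℝ f.ev z v := ev_mk _ (smooth_fderiv f.smooth v) hz

lemma pd_mk (v : ℝ × ℝ) (f : ℝ × ℝ → ℝ) (hf : ContDiffOn ℝ ∞ f (disc R)) :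
    pd v (mk f hf) = mk (fun z => fderiv ℝ f z v) (smooth_fderiv hf v) := ext fun z hz => by
  rw [ev_pd _ _ hz, ev_mk _ _ hz, (ev_mk_nhds f hf hz).fderiv_eq]

lemma pd_comm (v u : ℝ × ℝ) (f : Sm R) : pd v (pd u f) = pd u (pd v f) := ext fun z hz => by
  have key : ∀ v u, (pd v (pd u f)).ev z = fderiv ℝ (fderiv ℝ f.ev) z v u := by
    intro v u
    have h1 : (pd u f).ev =ᶠ[𝓝 z] fun z => fderiv ℝ f.ev z u :=
      ev_mk_nhds _ (smooth_fderiv f.smooth u) hz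
    have h2 : DifferentiableAt ℝ (fderiv ℝ f.ev) z :=
      ((f.smoothAt hz).fderiv_right (m := ∞) (by simp)).differentiableAt (by simp)
    rw [ev_pd _ _ hz, h1.fderiv_eq, fderiv_clm_apply h2 (differentiableAt_const _)]
    simp
  rw [key, key]
  exact ((f.smoothAt hz).of_le (m := 2) (WithTop.coe_le_coe.2 (le_top : (2 : ℕ∞) ≤ ⊤))).isSymmSndFDerivAt
    (by simp) v u

/-- composition with a smooth function of one variable -/
noncomputable def comp (φ : ℝ → ℝ) (hφ : ContDiff ℝ ∞ φ) (f : Sm R) : Sm R :=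
  mk (fun z => φ (f.ev z)) (hφ.comp_contDiffOn f.smooth)

lemma ev_comp (φ : ℝ → ℝ) (hφ : ContDiff ℝ ∞ φ) (f : Sm R) {z : ℝ × ℝ} (hz : z ∈ disc R) :
    (comp φ hφ f).ev z = φ (f.ev z) := ev_mk _ _ hz

lemma pd_comp (v : ℝ × ℝ) (φ : ℝ → ℝ) (hφ : ContDiff ℝ ∞ φ) (f : Sm R) :
    pd v (comp φ hφ f) = comp (deriv φ) (contDiff_infty_iff_deriv.1 hφ).2 f * pd v f :=
  ext fun z hz => by
    rw [comp, pd_mk, ev_mk _ _ hz, ev_mul, ev_comp _ _ _ hz, ev_pd _ _ hz]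
    have h := ((hφ.differentiable (by simp)) (f.ev z)).hasDerivAt.comp_hasFDerivAt z
      (f.diffAt hz).hasFDerivAt
    exact (congrArg (fun L : ℝ × ℝ →L[ℝ] ℝ => L v) h.fderiv).trans (by simp)

/-- the inverse of a nowhere vanishing function -/
noncomputable def inv (f : Sm R) (h : ∀ z ∈ disc R, f.ev z ≠ 0) : Sm R :=
  mk (fun z => (f.ev z)⁻¹) (f.smooth.inv h)

lemma mul_inv (f : Sm R) (h : ∀ z ∈ disc R, f.ev z ≠ 0) : f * inv f h = 1 := ext fun z hz => by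
  rw [ev_mul, inv, ev_mk _ _ hz, mul_inv_cancel₀ (h z hz), ← evA_apply hz, map_one]

/-- the partial derivatives -/
noncomputable abbrev px : Derivation ℝ (Sm R) (Sm R) := pd (1, 0)
/-- the partial derivatives -/
noncomputable abbrev py : Derivation ℝ (Sm R) (Sm R) := pd (0, 1)

lemma ev_iter (f : ℝ × ℝ → ℝ) (hf : ContDiffOn ℝ ∞ f (disc R)) (a b : ℕ) :
    ∃ h, px^[a] (py^[b] (mk f hf)) = mk (dx^[a] (dy^[b] f)) h := by
  induction a with
  | zero =>
    induction b with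
    | zero => exact ⟨hf, rfl⟩
    | succ b ih =>
      obtain ⟨h, e⟩ := ih
      simp only [Function.iterate_zero, id, Function.iterate_succ_apply'] at e ⊢
      exact ⟨smooth_fderiv h _, by rw [e, pd_mk]; rfl⟩
  | succ a ih =>
    obtain ⟨h, e⟩ := ih
    simp only [Function.iterate_succ_apply']
    exact ⟨smooth_fderiv h _, by rw [e, pd_mk]; rfl⟩

/-- derivative along rays from the origin -/
lemma hasDerivAt_ray (f : Sm R) (z : ℝ × ℝ) {t : ℝ} (ht : t • z ∈ disc R) :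
    HasDerivAt (fun t : ℝ => f.ev (t • z))
      (z.1 * (px f).ev (t • z) + z.2 * (py f).ev (t • z)) t := by
  have h := (f.diffAt ht).hasFDerivAt.comp_hasDerivAt t ((hasDerivAt_id t).smul_const z)
  refine HasDerivAt.congr_deriv h ?_
  rw [ev_pd _ _ ht, ev_pd _ _ ht, one_smul, ← smul_eq_mul, ← smul_eq_mul, ← map_smul, ← map_smul,
    ← map_add]
  simp

/-- locality of derivatives -/
lemma ev_pd_eq_zero {O : Set (ℝ × ℝ)} (hO : IsOpen O) {f : Sm R} (hf : ∀ z ∈ O, f.ev z = 0)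
    (v : ℝ × ℝ) : ∀ z ∈ O, (pd v f).ev z = 0 := by
  intro z hz
  by_cases h : z ∈ disc R
  · have : f.ev =ᶠ[𝓝 z] fun _ => 0 := eventually_of_mem (hO.mem_nhds hz) hf
    rw [ev_pd _ _ h, this.fderiv_eq]
    simp
  · exact ev_of_not_mem _ h

end Sm

end Crest.Agent.R220
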