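import Crest.Agent.R220.Thin

/-! Testing the equation against a travelling wave. -/

set_option autoImplicit false

namespace Crest.Agent.R220

open scoped ContDiff Topology
open Set Filter MeasureTheory Sm DP Geo

variable {ι : Type} {R : ι → ℝ} {I : Set ι} {r : ℝ}

/-- the profile of the wave -/
noncomputable def prof (n : ℕ) (t : ℝ) : ℝ := t ^ n * Real.smoothTransition (2 - t ^ 2)

lemma contDiff_prof (n : ℕ) : ContDiff ℝ ∞ (prof n) :=
  (contDiff_id.pow n).mul (Real.smoothTransition.contDiff.comp (by fun_prop))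

lemma cs_prof (n : ℕ) : HasCompactSupport (prof n) :=
  HasCompactSupport.intro (isCompact_Icc (a := (-2 : ℝ)) (b := 2)) fun t ht => by
    rw [prof, Real.smoothTransition.zero_of_nonpos, mul_zero]
    by_contra h
    exact ht (abs_le.1 (abs_le_of_sq_le_sq' (by linarith) (by norm_num) |> abs_le.2))

lemma prof_eq (n : ℕ) {t : ℝ} (h : |t| ≤ 1) : prof n t = t ^ n := by
  rw [prof, Real.smoothTransition.one_of_one_le, mul_one]
  nlinarith [(sq_le_one_iff_abs_le_one t).2 h]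

lemma Sc_scl {φ : ℝ × ℝ → ℝ} (hφ : ContDiff ℝ ∞ φ) (hc : HasCompactSupport φ) (s : ι → ℝ) :
    Sc s 0 (scl φ hφ s : Fam R) :=
  ⟨φ, hφ, hc, Fam.ext fun i z _ => by rw [val_sc_mul, zpow_zero, one_mul]⟩

lemma scl_Van {φ : ℝ × ℝ → ℝ} (hφ : ContDiff ℝ ∞ φ) {s : ι → ℝ} {O : ι → Set (ℝ × ℝ)}
    (h : ∀ i, ∀ z ∈ O i, φ (s i • z) = 0) : (scl φ hφ s : Fam R) ∈ Van O := by
  intro i z hz
  by_cases h' : z ∈ disc (R i)
  · rw [val_scl _ _ _ _ h', h i z hz]
  · exact ev_of_not_mem _ h'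

lemma smul_not_mem {a s : ℝ} (r0 : 0 ≤ r) (a0 : 0 ≤ a) (h : a ≤ r * s) {z : ℝ × ℝ}
    (hz : z ∉ cdisc r) : s • z ∉ disc a := by
  intro h'
  have h1 : (s * z.1) ^ 2 + (s * z.2) ^ 2 < a ^ 2 := h'
  have h2 : r ^ 2 < z.1 ^ 2 + z.2 ^ 2 := not_le.1 hz
  have h3 := pow_le_pow_left₀ a0 h 2
  nlinarith [mul_le_mul_of_nonneg_left h2.le (sq_nonneg s)]

lemma LB.OB_mul {f g : Fam R} (hf : f ∈ OB 1) (h1 : xF * g ∈ LB I r) (h2 : yF * g ∈ LB I r) :
    f * g ∈ LB I r := by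
  obtain ⟨C, hC⟩ := hf
  refine LB.of_le h1 h2 (c := C) fun i hi z hz => ?_
  rw [val_mul, val_mul, val_mul, val_xF i (hi.mem hz), val_yF i (hi.mem hz), abs_mul, abs_mul,
    abs_mul, ← add_mul, ← mul_assoc]
  exact mul_le_mul_of_nonneg_right (by simpa using hC i z (hi.mem hz)) (abs_nonneg _)

lemma IB.OB_mul {f g : Fam R} (hf : f ∈ OB 1) (h1 : xF * g ∈ IB I r) (h2 : yF * g ∈ IB I r) :
    f * g ∈ IB I r := by
  obtain ⟨C, hC⟩ := hf
  refine IB.of_le h1 h2 (c := C) fun i hi z hz => ?_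
  rw [val_mul, val_mul, val_mul, val_xF i (hi.mem hz), val_yF i (hi.mem hz), abs_mul, abs_mul,
    abs_mul, ← add_mul, ← mul_assoc]
  exact mul_le_mul_of_nonneg_right (by simpa using hC i z (hi.mem hz)) (abs_nonneg _)

lemma wave_id {S : Type} [CommRing S] [Algebra ℝ S] (G : Geo S) {σ : S} (h1 : G.D1 σ = 0)
    (h2 : G.D2 σ = 0) (χ ψ a T : S) :
    G.J * (χ * T) = G.J * χ * (G.D2 (G.D2 ψ) + a * G.D1 (G.D1 ψ) + T) -
      (G.J * G.D2 (χ * (G.D2 ψ + σ * G.D1 ψ)) +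
        G.J * G.D1 (χ * ((a + σ ^ 2) * G.D1 ψ - σ * (G.D2 ψ + σ * G.D1 ψ)))) +
      (G.J * (G.D2 χ - σ * G.D1 χ) * (G.D2 ψ + σ * G.D1 ψ) +
        G.J * G.D1 (χ * (a + σ ^ 2)) * G.D1 ψ) := by
  simp only [der_mul, der_sq, map_add, map_sub, h1, h2, G.D_comm]
  ring

variable {G : Geo (Fam R)} (he : G.e = eF R) (low : G.Low (C0 R))
include he low

theorem testA {m : ℝ} (m0 : 0 < m) (hm : ∀ i, ∀ z ∈ disc (R i), m ≤ val G.J i z)
    {q s l : ι → ℝ} (hs : ∀ i, 1 ≤ s i) (hq : ∀ i, q i ^ 2 = s i) (hl : ∀ i, s i ^ 2 = l i)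
    (r0 : 0 ≤ r) (hr : ∀ i ∈ I, 3 ≤ r * s i) {ξ a k f ψ : Fam R} {σ : ι → ℝ}
    (hσ : sc σ ∈ (C0 R).U) (hξ : ξ ∈ OB 1) (ξ1 : G.D1 ξ = 1) (ξ2 : G.D2 ξ = sc σ)
    (ha : a ∈ G.e.U (C0 R) 1) (haσ : a + sc σ ^ 2 ∈ OB 1)
    (hk : k ∈ Van fun i => (disc (2 / l i))ᶜ) (n : ℕ) (u1 : G.D1 ψ ∈ LB I r) (u2 : G.D2 ψ ∈ LB I r)
    (hH : G.D2 (G.D2 ψ) + a * G.D1 (G.D1 ψ) + G.D1^[n] (k * f) ∈ LB I r) :
    G.J * (sc q * sc l ^ (n + 2) * ξ ^ 2 * (k * f)) ∈ NB I r := by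
  obtain ⟨C, C0', hC⟩ := OB.bound hξ
  set c : ℝ := (4 * C)⁻¹ with hc
  have c0 : 0 < c := by positivity
  set lam : Fam R := sc fun i => c * s i ^ 2 with hlam
  have elam : lam = c • (sc s * sc s : Fam R) := Fam.ext fun i z hz => by
    rw [val_smul, val_sc_mul, val_sc _ _ hz, val_sc _ _ hz, sq]
  have elam' : lam = c • (sc l : Fam R) := Fam.ext fun i z hz => by
    rw [val_smul, val_sc _ _ hz, val_sc _ _ hz, hl]
  set t : Fam R := lam * ξ with ht
  have t1 : G.D1 t = lam := by rw [ht, der_mul, D1_sc he, ξ1]; ring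
  have t2 : G.D2 t = lam * sc σ := by rw [ht, der_mul, D2_sc he, ξ2]; ring
  set η : Fam R := scl _ (contDiff_cut 2 3) s with hη
  have η0 : Sc s 0 η := Sc_scl _ (HasCompactSupport.intro (isCompact_cdisc (r := 3) (by norm_num))
    fun z hz => cut_eq_zero (by norm_num) (by norm_num) fun h => hz (disc_subset_cdisc _ h)) s
  have η1 : η ∈ Van (Out I r) := scl_Van _ fun i z hz =>
    cut_eq_zero (by norm_num) (by norm_num) (smul_not_mem r0 (by norm_num) (hr i hz.1) hz.2)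
  set Φ : Fam R := cmp _ (contDiff_prof (2 + n)) t with hΦ
  set Φ' : Fam R := cmp _ (contDiff_infty_iff_deriv.1 (contDiff_prof (2 + n))).2 t with hΦ'
  have T0 : sc q * Φ * η ∈ LB I r := thin he low m0 hm hs hq c0 t1 _ (cs_prof _) η0 (by omega) η1
  have T1 : sc q * Φ * G.e.d1 η ∈ LB I r := he ▸ thin he low m0 hm hs hq c0 t1 _ (cs_prof _)
    (η0.pdF hs _) (by omega) (Van.pdF isOpen_Out η1 _)
  have T2 : sc q * Φ * G.e.d2 η ∈ LB I r := he ▸ thin he low m0 hm hs hq c0 t1 _ (cs_prof _)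
    (η0.pdF hs _) (by omega) (Van.pdF isOpen_Out η1 _)
  have T3 : sc q * Φ' * (sc s * (sc s * (xF * η))) ∈ LB I r := thin he low m0 hm hs hq c0 t1 _
    (cs_prof _).deriv (((η0.x_mul hs).sc_mul hs).sc_mul hs) (by omega)
    (Ideal.mul_mem_left _ _ (Ideal.mul_mem_left _ _ (Ideal.mul_mem_left _ _ η1)))
  have T4 : sc q * Φ' * (sc s * (sc s * (yF * η))) ∈ LB I r := thin he low m0 hm hs hq c0 t1 _
    (cs_prof _).deriv (((η0.y_mul hs).sc_mul hs).sc_mul hs) (by omega)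
    (Ideal.mul_mem_left _ _ (Ideal.mul_mem_left _ _ (Ideal.mul_mem_left _ _ η1)))
  have T5 : (a + sc σ ^ 2) * (sc q * Φ' * (sc s * sc s) * η) ∈ LB I r :=
    LB.OB_mul haσ (by convert T3 using 1; ring) (by convert T4 using 1; ring)
  set χ : Fam R := sc q * Φ * η with hχ
  have χ0 : χ ∈ Van (Out I r) := Ideal.mul_mem_left _ _ η1
  have χ1 : G.D1 χ = sc q * Φ' * lam * η + (G.a1 * (sc q * Φ * G.e.d1 η) +
      G.b1 * (sc q * Φ * G.e.d2 η)) := by
    rw [hχ, der_mul, der_mul, D1_sc he, hΦ, D1_cmp he, t1, G.D1_apply η]; ring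
  have χ2 : G.D2 χ = sc q * Φ' * (lam * sc σ) * η + (G.a2 * (sc q * Φ * G.e.d1 η) +
      G.b2 * (sc q * Φ * G.e.d2 η)) := by
    rw [hχ, der_mul, der_mul, D2_sc he, hΦ, D2_cmp he, t2, G.D2_apply η]; ring
  have mulL : ∀ {f g : Fam R}, f ∈ (C0 R).U → g ∈ LB I r → f * g ∈ LB I r := fun hf hg =>
    (cls R I r).mul (toU hf) hg
  have uJ := J_U low
  have b1 := U_base low.a1
  have b2 := U_base low.b1
  have b3 := U_base low.a2
  have b4 := U_base low.b2
  have b5 := U_base ha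
  have A1 : G.J * (G.D2 χ - sc σ * G.D1 χ) ∈ LB I r := by
    have := add_mem (mulL (f := G.J * (G.a2 - sc σ * G.a1)) (by alg_mem) T1)
      (mulL (f := G.J * (G.b2 - sc σ * G.b1)) (by alg_mem) T2)
    convert this using 1
    rw [χ1, χ2]; ring
  have A2 : G.J * G.D1 (χ * (a + sc σ ^ 2)) ∈ LB I r := by
    have := mulL uJ (add_mem (add_mem (add_mem (Submodule.smul_mem _ c T5)
      (mulL (f := (a + sc σ ^ 2) * G.a1) (by alg_mem) T1))
      (mulL (f := (a + sc σ ^ 2) * G.b1) (by alg_mem) T2))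
      (mulL (U_base (low.D1 (n := 0) (by omega) ha)) T0))
    convert this using 2
    rw [der_mul, map_add, der_sq, D1_sc he, χ1, elam, Algebra.smul_def, Algebra.smul_def]
    ring
  have A3 : G.J * (χ * G.D1^[n] (k * f)) ∈ NB I r := by
    rw [wave_id G (D1_sc he σ) (D2_sc he σ) χ ψ a]
    exact add_mem (sub_mem (NB.of_IB (LB.mul_IB (mulL uJ T0) hH))
      (add_mem (NB.JD2 he (Ideal.mul_mem_right _ _ χ0)) (NB.JD1 he (Ideal.mul_mem_right _ _ χ0))))
      (NB.of_IB (add_mem (LB.mul_IB A1 (add_mem u2 (mulL hσ u1))) (LB.mul_IB A2 u1)))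
  have A4 := NB.iter he n χ0 A3
  have A5 : χ - sc q * t ^ (2 + n) ∈ Van fun i => disc (2 / l i) := by
    intro i z hz
    by_cases hz' : z ∈ disc (R i)
    swap
    · exact ev_of_not_mem _ hz'
    have s0 : 0 < s i := by linarith [hs i]
    have l0 : 0 < l i := by rw [← hl]; positivity
    have e1 : cut 2 3 (s i • z) = 1 := by
      refine cut_eq_one (by norm_num) (by norm_num) ?_
      have h1 : z.1 ^ 2 + z.2 ^ 2 < (2 / l i) ^ 2 := hz
      change (s i * z.1) ^ 2 + (s i * z.2) ^ 2 ≤ 2 ^ 2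
      rw [div_pow, lt_div_iff₀ (by positivity)] at h1
      have h2 : 1 ≤ l i := by rw [← hl]; exact one_le_pow₀ (hs i)
      rw [mul_pow, mul_pow, hl, ← mul_add]
      nlinarith [mul_nonneg (mul_nonneg l0.le (sub_nonneg.2 h2))
        (add_nonneg (sq_nonneg z.1) (sq_nonneg z.2))]
    have e2 : |val t i z| ≤ 1 := by
      have h1 := abs_add_le_of_mem (by positivity) (disc_subset_cdisc _ hz)
      have h2 := hC i z hz'
      rw [ht, hlam, val_sc_mul, hl, abs_mul, abs_of_pos (by positivity)]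
      calc _ ≤ c * l i * (C * (2 * (2 / l i)) ^ 1) := by
            gcongr
            exact h2.trans (by gcongr)
        _ = 1 := by rw [hc]; field_simp; norm_num
    rw [val_sub, hχ, val_mul, val_sc_mul, val_sc_mul, hΦ, val_cmp _ _ _ _ hz', hη,
      val_scl _ _ _ _ hz', e1, prof_eq _ e2, ← valA_apply i hz' (t ^ _), map_pow, valA_apply]
    ring
  obtain ⟨d, d0, hd⟩ := iter_pow G.D1 t1 (D1_sc he _) n 2
  have A6 : G.D1^[n] (sc q * t ^ (2 + n)) = sc q * d • (lam ^ n * t ^ 2) := by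
    rw [← hd]
    exact ((Function.Commute.iterate_right (f := fun x => sc q * x) (g := G.D1)
      (fun x => by simp only [der_mul, D1_sc he, zero_mul, zero_add]) n) _).symm
  have A7 : (G.D1^[n] χ - sc q * d • (lam ^ n * t ^ 2)) * k = 0 := by
    have := Van_iter he (fun i => isOpen_disc (2 / l i)) n A5
    rw [iter_sub, A6] at this
    refine Fam.ext fun i z _ => ?_
    rw [val_mul, val_zero]
    by_cases hz : z ∈ disc (2 / l i)
    · rw [this i z hz, zero_mul]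
    · rw [hk i z hz, mul_zero]
  have A8 := Submodule.smul_mem _ (d * c ^ (n + 2))⁻¹ A4
  convert A8 using 1
  rw [sub_mul, sub_eq_zero] at A7
  rw [eq_inv_smul_iff₀ (by positivity), ← mul_assoc (G.D1^[n] χ), A7, ht, elam', Algebra.smul_def,
    Algebra.smul_def, Algebra.smul_def, map_mul, map_pow]
  ring

omit he low in
lemma In_bump {l : ι → ℝ} {i : ι} (hi : Good R I r i) (l0 : 0 < l i) (hl : 1 ≤ r * l i) :
    In r ((sc l ^ 2 * scl bump contDiff_bump l : Fam R) i) = ∫ z, bump z := by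
  have h1 : In r ((sc l ^ 2 * scl bump contDiff_bump l : Fam R) i) =
      ∫ z in cdisc r, l i ^ 2 * bump (l i • z) :=
    setIntegral_congr_fun (isClosed_cdisc r).measurableSet fun z hz => by
      change val _ i z = _
      rw [sq, mul_assoc, val_sc_mul, val_sc_mul, val_scl _ _ _ _ (hi.mem hz)]; ring
  rw [h1, setIntegral_eq_integral_of_forall_compl_eq_zero fun z hz => by
      rw [bump_eq_zero (smul_not_mem hi.2.1 zero_le_one hl hz), mul_zero],
    integral_const_mul, Measure.integral_comp_smul volume bump,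
    show Module.finrank ℝ (ℝ × ℝ) = 2 by simp, abs_of_pos (by positivity), smul_eq_mul]
  field_simp

omit he low in
lemma integral_bump_pos : 0 < ∫ z, bump z :=
  contDiff_bump.continuous.integral_pos_of_hasCompactSupport_nonneg_nonzero compactSupport_bump
    (fun _ => Real.smoothTransition.nonneg _) (x := 0) (by simp [bump])

theorem testB {q l : ι → ℝ} (hl : ∀ i, 1 ≤ l i) (hq0 : ∀ i, 0 ≤ q i) (hq : ∀ i, q i ≤ l i)
    (r0 : 0 ≤ r) (hr : ∀ i ∈ I, 1 ≤ r * l i) (hI : ∀ i ∈ I, r < R i) {ξ F b : Fam R}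
    (hξ : ξ ∈ OB 1) (uξ : ξ ∈ G.e.U (C0 R) 2) (ξ1 : G.D1 ξ = 1) (uF : F ∈ G.e.U (C0 R) 2)
    {m : ℝ} (m0 : 0 < m) (hm : ∀ i, ∀ z ∈ disc (R i), m ≤ val F i z)
    (hb : b = sc l ^ 2 * scl bump contDiff_bump l)
    (h : sc q * (F * ξ ^ 2) * -(G.e.d1 (G.e.d1 b) + G.e.d2 (G.e.d2 b)) ∈ NB I r) :
    ∃ C, ∀ i ∈ I, q i ≤ C := by
  have b0 : b ∈ Van (Out I r) := hb ▸ Ideal.mul_mem_left _ _ (scl_Van _ fun i z hz =>
    bump_eq_zero (smul_not_mem r0 zero_le_one (hr i hz.1) hz.2))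
  have b1 : Sc l (0 + 1 + 1) b := by
    rw [hb, sq, mul_assoc]
    exact ((Sc_scl _ compactSupport_bump l).sc_mul hl).sc_mul hl
  have q1 : G.e.d1 (sc q) = 0 := he ▸ pdF_sc _ q
  have q2 : G.e.d2 (sc q) = 0 := he ▸ pdF_sc _ q
  set T := sc q * (F * ξ ^ 2) with hT
  have v1 : b * G.e.d1 T - G.e.d1 b * T ∈ Van (Out I r) := sub_mem (Ideal.mul_mem_right _ _ b0)
    (Ideal.mul_mem_right _ _ (he ▸ Van.pdF isOpen_Out b0 _))
  have v2 : b * G.e.d2 T - G.e.d2 b * T ∈ Van (Out I r) := sub_mem (Ideal.mul_mem_right _ _ b0)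
    (Ideal.mul_mem_right _ _ (he ▸ Van.pdF isOpen_Out b0 _))
  have h0 := NB.div v1 v2
  rw [← he] at h0
  have h1 := sub_mem h0 h
  have uq : sc (fun i => q i / l i) ∈ (C0 R).U := sc_UB (M := 1) fun i _ => by
    have := hl i; have := hq0 i
    rw [abs_of_nonneg (by positivity)]
    exact div_le_one_of_le₀ (hq i) (by positivity)
  have eq : (sc q : Fam R) = sc (fun i => q i / l i) * sc l := Fam.ext fun i z hz => by
    have := hl i
    rw [val_sc_mul, val_sc _ _ hz, val_sc _ _ hz]; field_simp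
  have h2 : ξ * (sc l * b) ∈ IB I r := IB.OB_mul hξ
    (((b1.sc_mul hl).x_mul hl).IB hl (by omega) I r) (((b1.sc_mul hl).y_mul hl).IB hl (by omega) I r)
  have c1 := U_base uξ
  have c2 := U_base (U_d1 uξ)
  have c3 := U_base (U_d2 uξ)
  have c4 := U_base (U_d1 (U_d1 uξ))
  have c5 := U_base (U_d2 (U_d2 uξ))
  have c6 := U_base uF
  have c7 := U_base (U_d1 uF)
  have c8 := U_base (U_d2 uF)
  have c9 := U_base (U_d1 (U_d1 uF))
  have c10 := U_base (U_d2 (U_d2 uF))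
  have h3 := NB.of_IB (IB.mul (toU (f := sc (fun i => q i / l i) *
    (2 * F * (G.e.d1 (G.e.d1 ξ) + G.e.d2 (G.e.d2 ξ)) + 4 * (G.e.d1 F * G.e.d1 ξ + G.e.d2 F * G.e.d2 ξ)
      + ξ * (G.e.d1 (G.e.d1 F) + G.e.d2 (G.e.d2 F)))) (by alg_mem)) h2)
  have h4 : sc q * (b * (2 * F * (G.e.d1 ξ ^ 2 + G.e.d2 ξ ^ 2))) ∈ NB I r := by
    convert sub_mem h1 h3 using 1
    simp only [hT, map_sub, map_add, der_mul, der_sq, q1, q2, der_ofNat, map_zero]
    rw [eq]; ring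
  obtain ⟨C, hC⟩ := h4
  obtain ⟨D, D0, hD⟩ := UB.bound (show G.a1 ^ 2 + G.b1 ^ 2 ∈ (C0 R).U by
    have := U_base low.a1; have := U_base low.b1; alg_mem)
  have i0 := integral_bump_pos
  refine ⟨C / (2 * m / D * ∫ z, bump z), fun i hi => ?_⟩
  have hi' : Good R I r i := ⟨hi, r0, hI i hi⟩
  rw [le_div_iff₀ (by positivity)]
  refine le_trans ?_ ((le_abs_self _).trans (hC i hi'))
  rw [In_sc_mul, ← In_bump hi' (by linarith [hl i]) (hr i hi), ← hb, ← In_smul]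
  refine mul_le_mul_of_nonneg_left (In_mono r0 (hI i hi) fun z hz => ?_) (hq0 i)
  have hz' := hi'.mem hz
  change val ((2 * m / D) • b) i z ≤ val _ i z
  have e0 : 0 ≤ val b i z := by
    rw [hb, sq, val_mul, val_mul, val_scl _ _ _ _ hz']
    exact mul_nonneg (mul_self_nonneg _) (Real.smoothTransition.nonneg _)
  have e1 := congrArg (valA i hz') ξ1
  have e2 := (le_abs_self _).trans (hD i z hz')
  have e3 := hm i z hz'
  rw [val_smul, val_mul b, mul_comm]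
  refine mul_le_mul_of_nonneg_left ?_ e0
  rw [← valA_apply i hz'] at e2 ⊢
  rw [D1_apply] at e1
  simp only [map_add, map_mul, map_pow, map_one, map_ofNat, valA_apply] at e1 e2 ⊢
  have e4 : 1 ≤ D * (val (G.e.d1 ξ) i z ^ 2 + val (G.e.d2 ξ) i z ^ 2) := by
    refine le_trans ?_ (mul_le_mul_of_nonneg_right e2 (by positivity))
    nlinarith [sq_nonneg (val G.a1 i z * val (G.e.d2 ξ) i z - val G.b1 i z * val (G.e.d1 ξ) i z)]
  rw [div_le_iff₀ D0]
  nlinarith [mul_le_mul e3 e4 zero_le_one (m0.le.trans e3)]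

end Crest.Agent.R220
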