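import Crest.Agent.R220.Pos

/-! Integrals that stay bounded; functions concentrated on thin strips. -/

set_option autoImplicit false

namespace Crest.Agent.R220

open scoped ContDiff Topology
open Set Filter MeasureTheory Sm DP Geo

variable {ι : Type} {R : ι → ℝ} {I : Set ι} {r : ℝ}

/-- uniformly bounded integrals -/
def NB (I : Set ι) (r : ℝ) : Submodule ℝ (Fam R) where
  carrier := {f | ∃ C, ∀ i, Good R I r i → |In r (f i)| ≤ C}
  add_mem' := fun {f g} ⟨C, hC⟩ ⟨C', hC'⟩ => ⟨C + C', fun i hi => by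
    rw [Pi.add_apply, In_add hi.2.1 hi.2.2]
    exact (abs_add_le _ _).trans (add_le_add (hC i hi) (hC' i hi))⟩
  zero_mem' := ⟨0, fun i _ => by simp [In, ev_zero]⟩
  smul_mem' := fun c f ⟨C, hC⟩ => ⟨|c| * C, fun i hi => by
    rw [Pi.smul_apply, In_smul, abs_mul]
    exact mul_le_mul_of_nonneg_left (hC i hi) (abs_nonneg _)⟩

lemma NB.of_IB {f : Fam R} (h : f ∈ IB I r) : f ∈ NB I r :=
  h.imp fun _ hC i hi => (abs_In_le _).trans (hC i hi)

/-- the exterior of the disc, for the indices in `I` -/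
def Out (I : Set ι) (r : ℝ) (i : ι) : Set (ℝ × ℝ) := {z | i ∈ I ∧ z ∉ cdisc r}

lemma isOpen_Out (i : ι) : IsOpen (Out I r i) := by
  by_cases h : i ∈ I
  · simp only [Out, h, true_and]; exact (isClosed_cdisc r).isOpen_compl
  · simp [Out, h]

lemma NB.div {f g : Fam R} (hf : f ∈ Van (Out I r)) (hg : g ∈ Van (Out I r)) :
    (eF R).d1 f + (eF R).d2 g ∈ NB I r := ⟨0, fun i hi => by
  rw [Pi.add_apply, In_add hi.2.1 hi.2.2, eF_d1, eF_d2,
    In_pd hi.2.1 hi.2.2 (fun z hz => hf i z ⟨hi.1, hz⟩),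
    In_pd hi.2.1 hi.2.2 (fun z hz => hg i z ⟨hi.1, hz⟩), add_zero, abs_zero]⟩

lemma LB.of_NB {f g : Fam R} (hg : g ∈ NB I r) {c : ℝ}
    (h : ∀ i, Good R I r i → ∀ z ∈ cdisc r, val f i z ^ 2 ≤ c * val g i z) : f ∈ LB I r := by
  obtain ⟨C, hC⟩ := Submodule.smul_mem _ c hg
  refine LB.iff.2 ⟨C, fun i hi => le_trans (In_mono hi.2.1 hi.2.2 fun z hz => ?_)
    ((le_abs_self _).trans (hC i hi))⟩
  rw [ev_mul, Pi.smul_apply, ev_smul, ← sq]
  exact h i hi z hz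

lemma toU {f : Fam R} (h : f ∈ (C0 R).U) : f ∈ (cls R I r).U :=
  UB.mono (D := dom R I r) (fun _ _ hz => hz.1.mem hz.2) h

lemma Sc.zpow_mul {l : ι → ℝ} {a : ℤ} {f : Fam R} (hl : ∀ i, 1 ≤ l i) (hf : Sc l a f) (b : ℤ) :
    Sc l (b + a) (sc (fun i => l i ^ b) * f) := by
  obtain ⟨φ, hφ, hc, rfl⟩ := hf
  refine ⟨φ, hφ, hc, ?_⟩
  rw [← mul_assoc, Crest.Agent.R220.sc_mul]
  congr 2
  funext i
  exact (zpow_add₀ (by linarith [hl i]) b a).symm

/-- composition with a smooth function -/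
noncomputable def cmp (φ : ℝ → ℝ) (hφ : ContDiff ℝ ∞ φ) (f : Fam R) : Fam R :=
  fun i => comp φ hφ (f i)

lemma val_cmp (φ : ℝ → ℝ) (hφ : ContDiff ℝ ∞ φ) (f : Fam R) (i : ι) {z : ℝ × ℝ}
    (hz : z ∈ disc (R i)) : val (cmp φ hφ f) i z = φ (val f i z) := ev_comp _ _ _ hz

lemma pdF_cmp (v : ℝ × ℝ) (φ : ℝ → ℝ) (hφ : ContDiff ℝ ∞ φ) (f : Fam R) :
    pdF v (cmp φ hφ f) = cmp (deriv φ) (contDiff_infty_iff_deriv.1 hφ).2 f * pdF v f :=
  funext fun _ => pd_comp _ _ _ _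

lemma cmp_U {φ : ℝ → ℝ} (hφ : ContDiff ℝ ∞ φ) (f : Fam R) {M : ℝ} (h : ∀ t, |φ t| ≤ M) :
    cmp φ hφ f ∈ (C0 R).U := ⟨M, fun i z hz => by rw [val_cmp _ _ _ _ hz]; exact h _⟩

lemma iter_pow {S : Type} [CommRing S] [Algebra ℝ S] (d : Derivation ℝ S S) {t a : S} (h1 : d t = a)
    (h2 : d a = 0) (j m : ℕ) : ∃ c : ℝ, 0 < c ∧ d^[j] (t ^ (m + j)) = c • (a ^ j * t ^ m) := by
  induction j generalizing m with
  | zero => exact ⟨1, one_pos, by simp⟩
  | succ j ih =>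
    obtain ⟨c, c0, hc⟩ := ih (m + 1)
    refine ⟨c * (m + 1), by positivity, ?_⟩
    have e : d (a ^ j) = 0 := by rw [Derivation.leibniz_pow, h2]; simp
    rw [Function.iterate_succ_apply', show m + (j + 1) = m + 1 + j by omega, hc, Derivation.map_smul,
      der_mul, e, Derivation.leibniz_pow, h1, mul_smul]
    congr 1
    rw [Algebra.smul_def ((m : ℝ) + 1)]
    simp only [smul_eq_mul, nsmul_eq_mul, map_add, map_natCast, map_one, Nat.add_sub_cancel]
    push_cast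
    ring

section geo
variable {G : Geo (Fam R)} (he : G.e = eF R)
include he

lemma D1_cmp (φ : ℝ → ℝ) (hφ : ContDiff ℝ ∞ φ) (f : Fam R) :
    G.D1 (cmp φ hφ f) = cmp (deriv φ) (contDiff_infty_iff_deriv.1 hφ).2 f * G.D1 f := by
  rw [D1_apply, D1_apply, he]
  change _ * pdF _ _ + _ * pdF _ _ = _ * (_ * pdF _ _ + _ * pdF _ _)
  rw [pdF_cmp, pdF_cmp]; ring

lemma D2_cmp (φ : ℝ → ℝ) (hφ : ContDiff ℝ ∞ φ) (f : Fam R) :
    G.D2 (cmp φ hφ f) = cmp (deriv φ) (contDiff_infty_iff_deriv.1 hφ).2 f * G.D2 f := by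
  rw [D2_apply, D2_apply, he]
  change _ * pdF _ _ + _ * pdF _ _ = _ * (_ * pdF _ _ + _ * pdF _ _)
  rw [pdF_cmp, pdF_cmp]; ring

lemma NB.JD1 {f : Fam R} (hf : f ∈ Van (Out I r)) : G.J * G.D1 f ∈ NB I r := by
  rw [Geo.JD1, he]
  exact NB.div (Ideal.mul_mem_left _ _ hf) (Ideal.mul_mem_left _ _ hf)

lemma NB.JD2 {f : Fam R} (hf : f ∈ Van (Out I r)) : G.J * G.D2 f ∈ NB I r := by
  rw [Geo.JD2, he]
  exact NB.div (Ideal.mul_mem_left _ _ hf) (Ideal.mul_mem_left _ _ hf)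

lemma Van_iter {O : ι → Set (ℝ × ℝ)} (hO : ∀ i, IsOpen (O i)) (m : ℕ) {f : Fam R}
    (hf : f ∈ Van O) : G.D1^[m] f ∈ Van O := by
  induction m generalizing f with
  | zero => exact hf
  | succ m ih => exact ih (Van_D1 he hO hf)

lemma NB.iter (m : ℕ) {χ f : Fam R} (hχ : χ ∈ Van (Out I r))
    (h : G.J * (χ * G.D1^[m] f) ∈ NB I r) : G.J * (G.D1^[m] χ * f) ∈ NB I r := by
  induction m generalizing χ with
  | zero => exact h
  | succ m ih =>
    refine ih (Van_D1 he isOpen_Out hχ) ?_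
    have := sub_mem (NB.JD1 he (Ideal.mul_mem_right (G.D1^[m] f) _ hχ)) h
    convert this using 1
    rw [der_mul, Function.iterate_succ_apply']; ring

omit he in
lemma J_U (low : G.Low (C0 R)) : G.J ∈ (C0 R).U := by
  have := U_base (U_d1 low.P); have := U_base (U_d2 low.P); have := U_base low.y1
  have := U_base low.y2; unfold Geo.J; alg_mem

/-- functions concentrated on a thin strip have small norm -/
lemma thin (low : G.Low (C0 R)) {m : ℝ} (m0 : 0 < m) (hm : ∀ i, ∀ z ∈ disc (R i), m ≤ val G.J i z)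
    {q s : ι → ℝ} (hs : ∀ i, 1 ≤ s i) (hq : ∀ i, q i ^ 2 = s i) {c : ℝ} (c0 : 0 < c) {t : Fam R}
    (ht : G.D1 t = sc fun i => c * s i ^ 2) {φ : ℝ → ℝ} (hφ : ContDiff ℝ ∞ φ)
    (hc : HasCompactSupport φ) {g : Fam R} {b : ℤ} (hg : Sc s b g) (hb : b ≤ 1)
    (hv : g ∈ Van (Out I r)) : sc q * cmp φ hφ t * g ∈ LB I r := by
  obtain ⟨B, hB⟩ := (show Continuous fun x => φ x ^ 2 * (1 + x ^ 2) by
    have := hφ.continuous; fun_prop).bounded_above_of_compact_support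
      (HasCompactSupport.mul_right (f := fun x => φ x ^ 2) (by simp only [sq]; exact hc.mul_left))
  set h : Fam R := sc (fun i => s i ^ (-1 : ℤ)) * (g * g) with hh
  have h1 : Sc s (-1 + (b + b)) h := (hg.mul hs hg).zpow_mul hs (-1)
  have h2 : h ∈ Van (Out I r) := Ideal.mul_mem_left _ _ (Ideal.mul_mem_left _ _ hv)
  have h3 : G.D1 h ∈ IB I r := by
    rw [D1_apply, he]
    exact add_mem (IB.mul (toU (U_base low.a1)) ((h1.pdF hs _).IB hs (by omega) I r))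
      (IB.mul (toU (U_base low.b1)) ((h1.pdF hs _).IB hs (by omega) I r))
  have h4 : cmp Real.arctan Real.contDiff_arctan t ∈ (C0 R).U := cmp_U _ _ (M := Real.pi / 2)
    fun x => abs_le.2 ⟨(Real.neg_pi_div_two_lt_arctan x).le, (Real.arctan_lt_pi_div_two x).le⟩
  have h5 := sub_mem (NB.JD1 he (Ideal.mul_mem_left _ (cmp Real.arctan Real.contDiff_arctan t) h2))
    (NB.of_IB (IB.mul (toU (mul_mem (J_U low) h4)) h3))
  rw [der_mul, D1_cmp he, ht, mul_add, mul_assoc G.J _ (G.D1 h), add_sub_cancel_right] at h5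
  refine LB.of_NB h5 (c := B / (m * c)) fun i hi z hz => ?_
  have hz' := hi.mem hz
  have s0 : 0 < s i := by linarith [hs i]
  simp only [hh, val_mul, val_cmp _ _ _ _ hz', val_sc _ _ hz', Real.deriv_arctan, zpow_neg, zpow_one]
  have a1 := (le_abs_self _).trans (hB (val t i z))
  have a2 := hm i z hz'
  have a3 : 0 < 1 + val t i z ^ 2 := by positivity
  have a4 : φ (val t i z) ^ 2 ≤ B * (1 / (1 + val t i z ^ 2)) := by
    rw [mul_one_div, le_div_iff₀ a3]; exact a1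
  have a5 : 0 ≤ B * (1 / (1 + val t i z ^ 2)) := (sq_nonneg _).trans a4
  calc _ = s i * val g i z ^ 2 * φ (val t i z) ^ 2 * 1 := by rw [← hq i]; ring
    _ ≤ s i * val g i z ^ 2 * (B * (1 / (1 + val t i z ^ 2))) * (val G.J i z / m) := by
        gcongr
        exact (one_le_div m0).2 a2
    _ = _ := by field_simp

end geo

end Crest.Agent.R220
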